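import Vale.Agent.P159.H447.MassG
import Vale.Agent.P159.H963.NeuC

/-!
P159 / module MASS, part H (helper447): the mass flow of the NEUTRAL model on the cell torus, in
the letters of helper963 (`nMC`, `Gnc`, `PinC`); mass direction `SN = ntr (cellP N l) 1`.
-/

set_option linter.unusedSectionVars false

namespace Vale.Agent.P159.H447

open Finset Matrix Filter Topology
open Vale.Agent.P159.TM.H764 (Gh cN sN dt ch EE frm grd)
open Vale.Agent.P159.TM.H104 (EM Ex Cv K3 Lg li nh Gr)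
open Vale.Agent.P159.H37
open Vale.Agent.P159.TM.Spec (V)
open Vale.Agent.P159.TM.SpecC (wT ms)
open Vale.Agent.P159.H864 (TI sym MC GM Gck PiCk cobV DM mlt)
open Vale.Agent.P159.H963 (nMC nM pin ntr Pn Cn Gnc GnC PinC gw_wT)

noncomputable section

variable {N l : ℕ} [NeZero N] [NeZero (N / l)] {b t τ a : ℝ}

/-- the neutral mass direction -/
def SN (N l : ℕ) [NeZero N] : Matrix (V N) (V N) ℝ := ntr (cellP N l) 1

/-- the neutral observation matrix -/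
def CN (N l : ℕ) [NeZero N] [NeZero (N / l)] : Matrix (V (N / l)) (V N) ℝ :=
  (Pn : Matrix (V (N / l)) (V (N / l)) ℝ) * cobV N l

lemma CN_gram (hl : l ∣ N) : (CN N l)ᵀ * CN N l = SN N l := by
  have h := H963.obsN_gram (N := N) hl (s := 1) zero_le_one
  unfold H963.obsN at h
  rw [Real.sqrt_one, one_smul, one_smul] at h
  exact h

lemma CN_eq (hl : l ∣ N) : CN N l = cobV N l * (Pn : Matrix (V N) (V N) ℝ) :=
  (H963.cobV_mul_Pn hl).symm

lemma wM_pin (μ : (V N → ℤ) → ℝ) (x₀ : V N) (M : Matrix (V N) (V N) ℝ) :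
    wM (pin μ x₀) M = pin (wM μ M) x₀ := by
  funext h
  unfold wM pin
  split_ifs
  · rfl
  · rw [zero_mul]

/-- the neutral weights along the mass direction `SN` -/
lemma w_cellN (N l : ℕ) [NeZero N] (b t τ : ℝ) (x₀ : V N) :
    wM (nMC N l b t 0 x₀) (τ • SN N l) = nMC N l b t τ x₀ := by
  unfold nMC nM
  rw [wM_pin, wM_wM]
  have h := H963.ntr_MC_add N l t τ 0
  rw [sub_zero] at h
  unfold SN
  rw [h]

lemma nn_nMC (hb : 0 ≤ b) (t τ : ℝ) (x₀ : V N) (h : V N → ℤ) : 0 ≤ nMC N l b t τ x₀ h := by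
  unfold nMC nM pin
  split_ifs
  · exact mul_nonneg (H864.wT_nonneg hb h) (Real.exp_pos _).le
  · exact le_rfl

lemma nn_SN (hl : l ∣ N) : Nn (SN N l) := by
  rw [← CN_gram hl]
  exact nn_gram _

lemma SN_tr (hl : l ∣ N) : (SN N l)ᵀ = SN N l := by
  rw [← CN_gram hl]
  exact gram_symm _

/-- `EM` for every positive mass -/
lemma em_nMC' (hb : 0 ≤ b) (hl : l ∣ N) (ht : 0 < t) (hτ : 0 < τ) (x₀ : V N) :
    EM (nMC N l b t τ x₀) := by
  have hm : 0 < min τ t := lt_min hτ ht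
  have h1 := H963.em_nMC (N := N) hb hl hm (min_le_right _ _) x₀
  rw [← w_cellN] at h1 ⊢
  exact em_up (nn_nMC hb t 0 x₀) (nn_SN hl) h1 (min_le_left _ _)

/-- the neutral cell covariance as an observed covariance -/
lemma Gc_CN (hl : l ∣ N) (b t τ : ℝ) : Gc (CN N l) (nMC N l b t τ 0) = Gnc N l b t τ := by
  unfold Gc Gnc GnC Cn H864.Gc
  have h1 : (CN N l)ᵀ = (Pn : Matrix (V N) (V N) ℝ) * (cobV N l)ᵀ := by
    rw [CN_eq hl, Matrix.transpose_mul, H963.Pn_transpose]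
  rw [h1, CN_eq hl]
  simp only [Matrix.mul_assoc]
  rfl

/-- the projection on the constants, cell torus -/
def Jc (n : ℕ) [NeZero n] : Matrix (V n) (V n) ℝ := Matrix.of fun _ _ => ((n : ℝ) ^ 2)⁻¹

lemma ti_Jc (n : ℕ) [NeZero n] : TI (Jc n) := ⟨fun _ _ _ => rfl, fun _ _ => rfl⟩

lemma sym_Jc (n : ℕ) [NeZero n] (k : V n) : sym (Jc n) k = if k = 0 then 1 else 0 := by
  have hn : ((n : ℝ) ^ 2) ≠ 0 := (H864.N_pos (N := n)).ne'
  rw [H864.sym_def]
  have e : ∀ z : V n, Jc n 0 z * cN (dt k z) = ((n : ℝ) ^ 2)⁻¹ * cN (dt k z) := fun z => rfl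
  rw [Finset.sum_congr rfl fun z _ => e z, ← Finset.mul_sum, H864.sum_cN]
  split_ifs
  · exact inv_mul_cancel₀ hn
  · rw [mul_zero]

/-- the neutral cell covariance completed on the constants -/
def Gt (N l : ℕ) [NeZero N] [NeZero (N / l)] (b t τ : ℝ) : Matrix (V (N / l)) (V (N / l)) ℝ :=
  Gnc N l b t τ + τ⁻¹ • Jc (N / l)

lemma ti_Gt (hb : 0 ≤ b) (hl : l ∣ N) (hτ : 0 < τ) (h : τ ≤ t) : TI (Gt N l b t τ) :=
  (H963.ti_Gnc hb hl hτ h).add ((ti_Jc _).smul _)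

lemma sym_Gt (N l : ℕ) [NeZero N] [NeZero (N / l)] (b t τ : ℝ) {k : V (N / l)} (hk : k ≠ 0) :
    sym (Gt N l b t τ) k = sym (Gnc N l b t τ) k := by
  unfold Gt
  rw [H864.sym_add, H864.sym_smul, sym_Jc, if_neg hk, mul_zero, add_zero]

lemma sym_Gt_zero (hb : 0 ≤ b) (hl : l ∣ N) (hτ : 0 < τ) (h : τ ≤ t) :
    sym (Gt N l b t τ) 0 = τ⁻¹ := by
  unfold Gt
  rw [H864.sym_add, H864.sym_smul, sym_Jc, if_pos rfl, mul_one, H963.sym_Gnc_zero hl hb hτ h,
    zero_add]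

lemma sym_Gt_pos (hb : 0 < b) (hl : l ∣ N) (hτ : 0 < τ) (h : τ ≤ t) (k : V (N / l)) :
    0 < sym (Gt N l b t τ) k := by
  by_cases hk : k = 0
  · subst hk
    rw [sym_Gt_zero hb.le hl hτ h]
    exact inv_pos.2 hτ
  · rw [sym_Gt N l b t τ hk]
    exact H963.sym_Gnc_pos hb hl hτ h hk

lemma Pn_mul_Jc (n : ℕ) [NeZero n] : (Pn : Matrix (V n) (V n) ℝ) * Jc n = 0 := by
  ext x y
  rw [Matrix.mul_apply]
  have e : ∀ z : V n, (Pn : Matrix (V n) (V n) ℝ) x z * Jc n z y =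
      (Pn : Matrix (V n) (V n) ℝ) x z * ((n : ℝ) ^ 2)⁻¹ := fun z => rfl
  rw [Finset.sum_congr rfl fun z _ => e z, ← Finset.sum_mul, H963.Pn_row, zero_mul]
  rfl

lemma Jc_mul_Pn (n : ℕ) [NeZero n] : Jc n * (Pn : Matrix (V n) (V n) ℝ) = 0 := by
  have h := congrArg Matrix.transpose (Pn_mul_Jc n)
  rw [Matrix.transpose_mul, H963.Pn_transpose, Matrix.transpose_zero] at h
  exact h

lemma Jc_mul_Jc (n : ℕ) [NeZero n] : Jc n * Jc n = Jc n := by
  refine H864.sym_inj ((ti_Jc n).mul (ti_Jc n)) (ti_Jc n) fun k => ?_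
  rw [H864.sym_mul (ti_Jc n) (ti_Jc n), sym_Jc]
  split_ifs
  · norm_num
  · norm_num

lemma Gnc_mul_Jc (hl : l ∣ N) (b t τ : ℝ) : Gnc N l b t τ * Jc (N / l) = 0 := by
  rw [← Gc_CN hl]
  unfold Gc CN
  rw [Matrix.transpose_mul, H963.Pn_transpose]
  simp only [Matrix.mul_assoc, Pn_mul_Jc, Matrix.mul_zero]

lemma Jc_mul_Gnc (hl : l ∣ N) (b t τ : ℝ) : Jc (N / l) * Gnc N l b t τ = 0 := by
  rw [← Gc_CN hl]
  unfold Gc CN
  simp only [← Matrix.mul_assoc, Jc_mul_Pn, Matrix.zero_mul]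

/-- the completed covariance satisfies the same equation -/
theorem hdm_Gt (hb : 0 < b) (hl : l ∣ N) (ht : 0 < t) (hτ : 0 < τ) :
    HDM (fun τ => Gt N l b t τ) (-(1 / 2 : ℝ) • K4c (CN N l) (SN N l) (nMC N l b t τ 0) -
      Gt N l b t τ * 1 * Gt N l b t τ) τ := by
  have hE := em_nMC' (N := N) (l := l) hb.le hl ht (show 0 < τ / 2 by linarith) 0
  rw [← w_cellN, ← CN_gram hl] at hE
  have h := hdm_Gc' (CN N l) (nn_nMC hb.le t 0 0) (H963.ev_nMC hb.le t 0 0) hE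
    (show τ / 2 < τ by linarith)
  simp only [CN_gram hl, w_cellN, Gc_CN hl] at h
  intro i j
  have h1 : HasDerivAt (fun s : ℝ => (s⁻¹ • Jc (N / l)) i j) (-(τ ^ 2)⁻¹ * Jc (N / l) i j) τ := by
    simp only [Matrix.smul_apply, smul_eq_mul]
    exact (hasDerivAt_inv hτ.ne').mul_const _
  have h2 := (h i j).add h1
  refine h2.congr_deriv ?_
  unfold Gt
  have e1 : (Gnc N l b t τ + τ⁻¹ • Jc (N / l)) * 1 * (Gnc N l b t τ + τ⁻¹ • Jc (N / l)) =
      Gnc N l b t τ * Gnc N l b t τ + (τ ^ 2)⁻¹ • Jc (N / l) := by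
    rw [Matrix.mul_one, Matrix.mul_add, Matrix.add_mul, Matrix.add_mul, Matrix.smul_mul,
      Matrix.mul_smul, Matrix.smul_mul, Matrix.mul_smul, Jc_mul_Gnc hl, Gnc_mul_Jc hl, Jc_mul_Jc,
      smul_zero, zero_add, add_zero, smul_smul, pow_two, mul_inv]
  rw [e1]
  simp only [Matrix.sub_apply, Matrix.add_apply, Matrix.smul_apply, smul_eq_mul]
  ring

/-- matrix of the derivative of the neutral self energy -/
def dPiN (N l : ℕ) [NeZero N] [NeZero (N / l)] (b t τ : ℝ) : Matrix (V (N / l)) (V (N / l)) ℝ :=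
  (1 / 2 : ℝ) • ((Gt N l b t τ)⁻¹ * K4c (CN N l) (SN N l) (nMC N l b t τ 0) * (Gt N l b t τ)⁻¹)

/-- derivative of the neutral self energy in the mass -/
def dPinC (N l : ℕ) [NeZero N] [NeZero (N / l)] (b t τ : ℝ) (k : V (N / l)) : ℝ :=
  sym (dPiN N l b t τ) k

lemma det_Gt (hb : 0 < b) (hl : l ∣ N) (hτ : 0 < τ) (h : τ ≤ t) : IsUnit (Gt N l b t τ).det :=
  H864.isUnit_det (ti_Gt hb.le hl hτ h) fun k => (sym_Gt_pos hb hl hτ h k).ne'

theorem hdm_cellN (hb : 0 < b) (hl : l ∣ N) (hτ : 0 < τ) (h : τ ≤ t) :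
    HDM (fun τ => (Gt N l b t τ)⁻¹ - τ • (1 : Matrix (V (N / l)) (V (N / l)) ℝ))
      (dPiN N l b t τ) τ :=
  (hdm_Gt hb hl (hτ.trans_le h) hτ).self (det_Gt hb hl hτ h)

lemma ti_PiN (hb : 0 ≤ b) (hl : l ∣ N) (hτ : 0 < τ) (h : τ ≤ t) :
    TI ((Gt N l b t τ)⁻¹ - τ • (1 : Matrix (V (N / l)) (V (N / l)) ℝ)) :=
  (ti_Gt hb hl hτ h).inv.sub (H864.TI.one.smul τ)

theorem ti_dPiN (hb : 0 < b) (hl : l ∣ N) (hτ : 0 < τ) (h : τ < t) : TI (dPiN N l b t τ) := by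
  have h1 := hdm_cellN (N := N) (l := l) hb hl hτ h.le
  have hev : ∀ᶠ s in 𝓝 τ, 0 < s ∧ s < t := (lt_mem_nhds hτ).and (gt_mem_nhds h)
  constructor
  · intro c x y
    refine (h1 (x + c) (y + c)).unique ?_
    refine (h1 x y).congr_of_eventuallyEq ?_
    filter_upwards [hev] with s hs
    exact (ti_PiN hb.le hl hs.1 hs.2.le).tr c x y
  · intro x y
    refine (h1 x y).unique ?_
    refine (h1 y x).congr_of_eventuallyEq ?_
    filter_upwards [hev] with s hs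
    exact (ti_PiN hb.le hl hs.1 hs.2.le).sy x y

lemma sym_PiN (hb : 0 < b) (hl : l ∣ N) (hτ : 0 < τ) (h : τ ≤ t) {k : V (N / l)} (hk : k ≠ 0) :
    sym ((Gt N l b t τ)⁻¹ - τ • (1 : Matrix (V (N / l)) (V (N / l)) ℝ)) k = PinC N l b t τ k := by
  rw [H864.sym_sub, H864.sym_inv' (ti_Gt hb.le hl hτ h) fun k => (sym_Gt_pos hb hl hτ h k).ne',
    H864.sym_smul_one, sym_Gt N l b t τ hk]
  rfl

lemma sym_PiN_zero (hb : 0 < b) (hl : l ∣ N) (hτ : 0 < τ) (h : τ ≤ t) :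
    sym ((Gt N l b t τ)⁻¹ - τ • (1 : Matrix (V (N / l)) (V (N / l)) ℝ)) 0 = 0 := by
  rw [H864.sym_sub, H864.sym_inv' (ti_Gt hb.le hl hτ h) fun k => (sym_Gt_pos hb hl hτ h k).ne',
    H864.sym_smul_one, sym_Gt_zero hb.le hl hτ h, inv_inv, sub_self]

lemma hasDerivAt_symN (hb : 0 < b) (hl : l ∣ N) (hτ : 0 < τ) (h : τ ≤ t) (k : V (N / l)) :
    HasDerivAt (fun τ => sym ((Gt N l b t τ)⁻¹ -
      τ • (1 : Matrix (V (N / l)) (V (N / l)) ℝ)) k) (dPinC N l b t τ k) τ := by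
  have h1 := hdm_cellN (N := N) (l := l) hb hl hτ h
  unfold dPinC
  simp only [H864.sym_def]
  exact HasDerivAt.fun_sum fun z _ => (h1 0 z).mul_const _

/-- **the neutral self energy of the cells is differentiable in the mass** -/
theorem hasDerivAt_PinC (hb : 0 < b) (hl : l ∣ N) (hτ : 0 < τ) (h : τ < t) {k : V (N / l)}
    (hk : k ≠ 0) : HasDerivAt (fun τ => PinC N l b t τ k) (dPinC N l b t τ k) τ := by
  refine (hasDerivAt_symN hb hl hτ h.le k).congr_of_eventuallyEq ?_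
  filter_upwards [lt_mem_nhds hτ, gt_mem_nhds h] with s hs hs'
  exact (sym_PiN hb hl hs hs'.le hk).symm

theorem dPinC_zero (hb : 0 < b) (hl : l ∣ N) (hτ : 0 < τ) (h : τ < t) :
    dPinC N l b t τ 0 = 0 := by
  refine (hasDerivAt_symN hb hl hτ h.le 0).unique ?_
  refine (hasDerivAt_const τ (0 : ℝ)).congr_of_eventuallyEq ?_
  filter_upwards [lt_mem_nhds hτ, gt_mem_nhds h] with s hs hs'
  exact sym_PiN_zero hb hl hs hs'.le

theorem K4c_cellN (hb : 0 < b) (hl : l ∣ N) (hτ : 0 < τ) (h : τ ≤ t) :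
    (1 / 2 : ℝ) • K4c (CN N l) (SN N l) (nMC N l b t τ 0) =
      Gt N l b t τ * dPiN N l b t τ * Gt N l b t τ := by
  have hd := det_Gt (N := N) (l := l) hb hl hτ h
  unfold dPiN
  set G := Gt N l b t τ
  set K := K4c (CN N l) (SN N l) (nMC N l b t τ 0)
  rw [Matrix.mul_smul, Matrix.smul_mul]
  congr 1
  rw [Matrix.mul_assoc (G⁻¹) K, ← Matrix.mul_assoc G, Matrix.mul_nonsing_inv _ hd, Matrix.one_mul,
    Matrix.mul_assoc, Matrix.nonsing_inv_mul _ hd, Matrix.mul_one]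

theorem ti_K4cN (hb : 0 < b) (hl : l ∣ N) (hτ : 0 < τ) (h : τ < t) :
    TI (K4c (CN N l) (SN N l) (nMC N l b t τ 0)) := by
  have h1 := K4c_cellN (N := N) (l := l) hb hl hτ h.le
  have h2 : K4c (CN N l) (SN N l) (nMC N l b t τ 0) =
      (2 : ℝ) • (Gt N l b t τ * dPiN N l b t τ * Gt N l b t τ) := by
    rw [← h1, smul_smul]
    norm_num
  rw [h2]
  exact (((ti_Gt hb.le hl hτ h.le).mul (ti_dPiN hb hl hτ h)).mul (ti_Gt hb.le hl hτ h.le)).smul 2

theorem sym_K4cN (hb : 0 < b) (hl : l ∣ N) (hτ : 0 < τ) (h : τ < t) (k : V (N / l)) :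
    1 / 2 * sym (K4c (CN N l) (SN N l) (nMC N l b t τ 0)) k =
      sym (Gnc N l b t τ) k ^ 2 * dPinC N l b t τ k := by
  have e1 : 1 / 2 * sym (K4c (CN N l) (SN N l) (nMC N l b t τ 0)) k =
      sym (Gt N l b t τ) k ^ 2 * dPinC N l b t τ k := by
    rw [← H864.sym_smul, K4c_cellN hb hl hτ h.le,
      H864.sym_mul ((ti_Gt hb.le hl hτ h.le).mul (ti_dPiN hb hl hτ h)) (ti_Gt hb.le hl hτ h.le),
      H864.sym_mul (ti_Gt hb.le hl hτ h.le) (ti_dPiN hb hl hτ h)]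
    unfold dPinC
    ring
  rw [e1]
  by_cases hk : k = 0
  · subst hk
    rw [dPinC_zero hb hl hτ h, mul_zero, mul_zero]
  · rw [sym_Gt N l b t τ hk]

/-- **exact trace identity, neutral model, with weights** -/
theorem sum_dPinC_mul (hb : 0 < b) (hl : l ∣ N) (hτ : 0 < τ) (h : τ < t)
    {B : Matrix (V (N / l)) (V (N / l)) ℝ} (hB : TI B) :
    ∑ k, sym B k * (sym (Gnc N l b t τ) k ^ 2 * dPinC N l b t τ k) =
      1 / 2 * K4S (nMC N l b t τ 0) ((CN N l)ᵀ * B * CN N l) (SN N l) := by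
  rw [← trace_mul_K4c (H963.em_nMC hb.le hl hτ h.le 0), (hB.mul (ti_K4cN hb hl hτ h)).trace_eq,
    Finset.mul_sum]
  refine Finset.sum_congr rfl fun k _ => ?_
  rw [H864.sym_mul hB (ti_K4cN hb hl hτ h), ← sym_K4cN hb hl hτ h]
  ring

/-- **exact trace identity, neutral model** -/
theorem sum_dPinC (hb : 0 < b) (hl : l ∣ N) (hτ : 0 < τ) (h : τ < t) :
    ∑ k, sym (Gnc N l b t τ) k ^ 2 * dPinC N l b t τ k =
      1 / 2 * K4S (nMC N l b t τ 0) (SN N l) (SN N l) := by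
  have h1 := sum_dPinC_mul hb hl hτ h (N := N) (l := l) (B := 1) H864.TI.one
  simp only [H864.sym_one, one_mul, Matrix.mul_one] at h1
  rw [h1, CN_gram hl]

theorem dPinC_nonneg (hb : 0 < b) (hl : l ∣ N) (hτ : 0 < τ) (h : τ < t) (k : V (N / l)) :
    0 ≤ dPinC N l b t τ k := by
  by_cases hk : k = 0
  · subst hk
    exact (dPinC_zero hb hl hτ h).ge
  have hE := H963.em_nMC (N := N) (l := l) hb.le hl hτ h.le 0
  have h1 : 0 ≤ sym (K4c (CN N l) (SN N l) (nMC N l b t τ 0)) k := by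
    refine H864.sym_nonneg_of_psd (ti_K4cN hb hl hτ h) (fun u => ?_) k
    rw [← bf_self, K4c_bf hE, ← CN_gram hl]
    exact K4S_rank_nonneg hE (H963.ev_nMC hb.le t τ 0) (H963.pk_nMC hb.le hl hτ h.le 0) _ _
  have h2 := sym_K4cN (N := N) (l := l) hb hl hτ h k
  have h3 := H963.sym_Gnc_pos (N := N) (l := l) hb hl hτ h.le hk
  have h4 : 0 ≤ sym (Gnc N l b t τ) k ^ 2 * dPinC N l b t τ k := by
    rw [← h2]
    positivity
  exact nonneg_of_mul_nonneg_right h4 (by positivity)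

/-- **the mass step, neutral model**: one mass `τ` in `(a,c)`, arbitrary weights -/
theorem mass_avgN (hb : 0 < b) (hl : l ∣ N) {a c : ℝ} (ha : 0 < a) (hac : a < c) (hct : c ≤ t)
    (W : V (N / l) → ℝ) :
    ∃ τ ∈ Set.Ioo a c, ∑ k, W k * dPinC N l b t τ k =
      (c - a)⁻¹ * ∑ k ∈ univ.erase 0, W k * (PinC N l b t c k - PinC N l b t a k) := by
  set f : ℝ → V (N / l) → ℝ := fun τ k => sym ((Gt N l b t τ)⁻¹ -
      τ • (1 : Matrix (V (N / l)) (V (N / l)) ℝ)) k with hf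
  have hd : ∀ τ, 0 < τ → τ ≤ t → HasDerivAt (fun τ => ∑ k, W k * f τ k)
      (∑ k, W k * dPinC N l b t τ k) τ := fun τ hτ h =>
    HasDerivAt.fun_sum fun k _ => (hasDerivAt_symN hb hl hτ h k).const_mul (W k)
  obtain ⟨τ, hτ, h⟩ := exists_hasDerivAt_eq_slope
    (fun τ => ∑ k, W k * f τ k) (fun τ => ∑ k, W k * dPinC N l b t τ k) hac
    (fun τ hτ => (hd τ (ha.trans_le hτ.1) (hτ.2.trans hct)).continuousAt.continuousWithinAt)
    fun τ hτ => hd τ (ha.trans hτ.1) (hτ.2.le.trans hct)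
  refine ⟨τ, hτ, h.trans ?_⟩
  rw [div_eq_inv_mul]
  congr 1
  rw [← Finset.sum_sub_distrib, ← Finset.add_sum_erase univ _ (Finset.mem_univ (0 : V (N / l)))]
  have e0 : W 0 * f c 0 - W 0 * f a 0 = 0 := by
    simp only [hf]
    rw [sym_PiN_zero hb hl (ha.trans hac) hct, sym_PiN_zero hb hl ha (hac.le.trans hct), mul_zero,
      sub_self]
  rw [e0, zero_add]
  refine Finset.sum_congr rfl fun k hk => ?_
  have hk0 := Finset.ne_of_mem_erase hk
  simp only [hf]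
  rw [sym_PiN hb hl (ha.trans hac) hct hk0, sym_PiN hb hl ha (hac.le.trans hct) hk0]
  ring

/-- the neutral self energy increases with the mass -/
theorem PinC_mono (hb : 0 < b) (hl : l ∣ N) {a c : ℝ} (ha : 0 < a) (hac : a ≤ c) (hct : c ≤ t)
    {k : V (N / l)} (hk : k ≠ 0) : PinC N l b t a k ≤ PinC N l b t c k := by
  rcases hac.eq_or_lt with h0 | h0
  · rw [h0]
  obtain ⟨τ, hτ, h⟩ := mass_avgN hb hl ha h0 hct (fun j => if j = k then 1 else 0)
  have h1 : ∑ j, (if j = k then (1 : ℝ) else 0) * dPinC N l b t τ j = dPinC N l b t τ k := by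
    simp only [ite_mul, one_mul, zero_mul, Finset.sum_ite_eq', Finset.mem_univ, if_true]
  have h2 : ∑ j ∈ univ.erase (0 : V (N / l)), (if j = k then (1 : ℝ) else 0) *
      (PinC N l b t c j - PinC N l b t a j) = PinC N l b t c k - PinC N l b t a k := by
    simp only [ite_mul, one_mul, zero_mul]
    rw [Finset.sum_ite_eq', if_pos (Finset.mem_erase.2 ⟨hk, Finset.mem_univ _⟩)]
  rw [h1, h2] at h
  have h3 := dPinC_nonneg (N := N) (l := l) hb hl (ha.trans hτ.1) (hτ.2.trans_le hct) k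
  rw [h] at h3
  have h4 : 0 < (c - a)⁻¹ := inv_pos.2 (sub_pos.2 h0)
  have h5 := nonneg_of_mul_nonneg_right h3 h4
  linarith

theorem sym_Gnc_mono (hb : 0 < b) (hl : l ∣ N) {a c : ℝ} (ha : 0 < a) (hac : a ≤ c) (hct : c ≤ t)
    (k : V (N / l)) : sym (Gnc N l b t c) k ≤ sym (Gnc N l b t a) k := by
  by_cases hk : k = 0
  · subst hk
    rw [H963.sym_Gnc_zero hl hb.le (ha.trans_le hac) hct,
      H963.sym_Gnc_zero hl hb.le ha (hac.trans hct)]
  have h1 := PinC_mono hb hl ha hac hct hk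
  have h2 := H963.sym_Gnc_pos (N := N) (l := l) hb hl ha (hac.trans hct) hk
  have h3 := H963.sym_Gnc_pos (N := N) (l := l) hb hl (ha.trans_le hac) hct hk
  unfold PinC at h1
  rw [← inv_le_inv₀ h2 h3]
  linarith

/-- **the mass step for the fourth cumulant of the cells, neutral model** -/
theorem mass_stepN (hb : 0 < b) (hl : l ∣ N) {a c : ℝ} (ha : 0 < a) (hac : a < c) (hct : c ≤ t) :
    ∃ τ ∈ Set.Ioo a c, 1 / 2 * K4S (nMC N l b t τ 0) (SN N l) (SN N l) ≤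
      (c - a)⁻¹ * ∑ k ∈ univ.erase 0, sym (Gnc N l b t a) k ^ 2 *
        (PinC N l b t c k - PinC N l b t a k) := by
  obtain ⟨τ, hτ, h⟩ := mass_avgN hb hl ha hac hct fun k => sym (Gnc N l b t a) k ^ 2
  have hτ0 : 0 < τ := ha.trans hτ.1
  have hτt : τ < t := hτ.2.trans_le hct
  refine ⟨τ, hτ, ?_⟩
  rw [← sum_dPinC hb hl hτ0 hτt, ← h]
  refine Finset.sum_le_sum fun k _ => mul_le_mul_of_nonneg_right ?_ (dPinC_nonneg hb hl hτ0 hτt k)
  exact pow_le_pow_left₀ (H963.sym_Gnc_nonneg hb.le hl hτ0 hτt.le k)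
    (sym_Gnc_mono hb hl ha hτ.1.le hτt.le k) 2

theorem mass_stepN_ge (hb : 0 < b) (hl : l ∣ N) {a c : ℝ} (ha : 0 < a) (hac : a < c)
    (hct : c ≤ t) :
    ∃ τ ∈ Set.Ioo a c, (c - a)⁻¹ * ∑ k ∈ univ.erase 0, sym (Gnc N l b t c) k ^ 2 *
        (PinC N l b t c k - PinC N l b t a k) ≤
      1 / 2 * K4S (nMC N l b t τ 0) (SN N l) (SN N l) := by
  obtain ⟨τ, hτ, h⟩ := mass_avgN hb hl ha hac hct fun k => sym (Gnc N l b t c) k ^ 2
  have hτ0 : 0 < τ := ha.trans hτ.1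
  have hτt : τ < t := hτ.2.trans_le hct
  refine ⟨τ, hτ, ?_⟩
  rw [← sum_dPinC hb hl hτ0 hτt, ← h]
  refine Finset.sum_le_sum fun k _ => mul_le_mul_of_nonneg_right ?_ (dPinC_nonneg hb hl hτ0 hτt k)
  exact pow_le_pow_left₀ (H963.sym_Gnc_nonneg hb.le hl (ha.trans hac) hct k)
    (sym_Gnc_mono hb hl hτ0 hτ.2.le hct k) 2

/-- coarser cells, neutral mass directions -/
theorem K4S_SN_mono {l' : ℕ} [NeZero (N / l')] (hl : l ∣ N) (hl' : l' ∣ N) (h : l ∣ l')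
    {μ : (V N → ℤ) → ℝ} (hμ : EM μ) (he : Ev μ) (hK : PK μ) :
    K4S μ (SN N l') (SN N l') ≤ K4S μ (SN N l) (SN N l) := by
  have h1 := cellP_mul_cellP hl hl' h
  have h2 : cellP N l' * cellP N l = cellP N l' := by
    have := congrArg Matrix.transpose h1
    rwa [Matrix.transpose_mul, H864.cellP_tr, H864.cellP_tr] at this
  have h3 := K4S_mono hμ he hK (c := 1) zero_le_one (CN N l') (cellP N l - cellP N l') (CN N l)
    (by
      rw [one_smul, CN_gram hl, CN_gram hl', Matrix.transpose_sub, H864.cellP_tr, H864.cellP_tr,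
        Matrix.sub_mul, Matrix.mul_sub, Matrix.mul_sub, H864.cellP_mul_self hl,
        H864.cellP_mul_self hl', h1, h2, sub_self, sub_zero]
      unfold SN ntr
      ext x y
      simp only [Matrix.sub_apply, Matrix.of_apply]
      ring)
  rw [one_pow, one_mul, CN_gram hl, CN_gram hl'] at h3
  exact h3

end

end Vale.Agent.P159.H447
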