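import Vale.Agent.P159.H447.Cg0
import Vale.Agent.P159.H239.Contr2
import Vale.Agent.P159.H239.Ray1
import Vale.Agent.P159.H770.DisM
import Vale.Agent.P159.H864.Dom

/-!
P159 / module CONTRG, part 1 (helper447): the weight side of the contraction.

* `Maj μ Bm` : the standing hypotheses, `Rs μ J ≤ <J, Bm J>/2`; `Maj.dom` : the pair `Dom2`.
* `cs_set` : `∫_S f ≤ (E f²)^(1/2) P(S)^(1/2)`.
* `Gs μ n b` : the good set, `Gs_good` (closure), `Gs_prob` (tail of the fourth cumulant).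
* `prob_mono` : the a-priori probability is monotone in the covariance up to the factor `2`.
-/

namespace Vale.Agent.P159.H447

open Finset Matrix MeasureTheory ProbabilityTheory
open Vale.Agent.P159.TM.H104 (EM Ex Cv K3 Lg li nh Gr)
open Vale.Agent.P159.H37
open Vale.Agent.P159.H159 (GT egr_lin egr_coord egr_sum egr_Rs egr_mn egr_Cm egr_qf)
open Vale.Agent.P159.H239 (Dom2 Dom Met TR)

noncomputable section

/-! ### Cauchy-Schwarz on a set -/

lemma cs_set {Ω : Type*} [MeasurableSpace Ω] {P : Measure Ω} [IsProbabilityMeasure P] {f : Ω → ℝ}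
    (hf : Integrable f P) (hf2 : Integrable (fun ω => f ω ^ 2) P) {m : ℝ} (hm : 0 ≤ m)
    (h : ∫ ω, f ω ^ 2 ∂P ≤ m ^ 2) {S : Set Ω} (hS : MeasurableSet S) {β : ℝ}
    (hβ : P.real S ≤ β) : ∫ ω in S, f ω ∂P ≤ m * √β := by
  have hp0 : 0 ≤ P.real S := measureReal_nonneg
  have key : ∀ x : ℝ, 0 ≤ P.real S * (x * x) + (-(2 * ∫ ω in S, f ω ∂P)) * x +
      ∫ ω, f ω ^ 2 ∂P := by
    intro x
    have h1 : ∀ ω, (S.indicator (fun _ => x) ω - f ω) ^ 2 =
        S.indicator (fun ω => x ^ 2 - 2 * x * f ω) ω + f ω ^ 2 := by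
      intro ω
      by_cases hω : ω ∈ S
      · rw [Set.indicator_of_mem hω, Set.indicator_of_mem hω]
        ring
      · rw [Set.indicator_of_notMem hω, Set.indicator_of_notMem hω]
        ring
    have h2 : 0 ≤ ∫ ω, (S.indicator (fun _ => x) ω - f ω) ^ 2 ∂P :=
      integral_nonneg fun ω => sq_nonneg _
    have i1 : Integrable (fun ω => x ^ 2 - 2 * x * f ω) P :=
      (integrable_const _).sub (hf.const_mul _)
    simp only [h1] at h2
    rw [integral_add (i1.indicator hS) hf2, integral_indicator hS,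
      integral_sub (integrable_const _).integrableOn (hf.const_mul _).integrableOn,
      setIntegral_const, smul_eq_mul, integral_const_mul] at h2
    nlinarith
  have h3 := discrim_le_zero key
  unfold discrim at h3
  have h4 : (∫ ω in S, f ω ∂P) ^ 2 ≤ m ^ 2 * β := by
    have h5 : P.real S * ∫ ω, f ω ^ 2 ∂P ≤ β * m ^ 2 :=
      mul_le_mul hβ h (integral_nonneg fun ω => sq_nonneg _) (hp0.trans hβ)
    nlinarith
  have h6 := Real.le_sqrt_of_sq_le h4
  rwa [Real.sqrt_mul (sq_nonneg m), Real.sqrt_sq hm] at h6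

variable {V : Type} [Fintype V] {μ : (V → ℤ) → ℝ} {Bm : Matrix V V ℝ}

/-- the standing hypotheses -/
structure Maj (μ : (V → ℤ) → ℝ) (Bm : Matrix V V ℝ) : Prop where
  em : EM μ
  ev : Ev μ
  pk : PK μ
  gt : GT μ
  symm : Bmᵀ = Bm
  le : ∀ J, Rs μ J ≤ qf Bm J / 2

/-! ### matrices -/

section mat

variable {I J K : Type*} [Fintype I] [Fintype J] [Fintype K]

lemma trH_conj (N : Matrix V V ℝ) (A : Matrix V I ℝ) : trH (Aᵀ * N * A) = pr N (A * Aᵀ) := by
  rw [gram_cols, pr_sum]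
  exact Finset.sum_congr rfl fun i _ => conj_entry _ _ _ _

lemma psd_hsq {H : Matrix I I ℝ} (hs : Hᵀ = H) (h0 : ∀ g, 0 ≤ qf H g) : hsq H ≤ trH H ^ 2 := by
  classical
  have h1 : ∀ i j, H i j ^ 2 ≤ H i i * H j j := by
    intro i j
    have h2 := H864.bf_sq_le hs h0 (Pi.single i 1) (Pi.single j 1)
    rw [← bf_self, ← bf_self] at h2
    have e : ∀ a b : I, bf H (Pi.single a 1) (Pi.single b 1) = H a b := by
      intro a b
      rw [H789.bf_single_left]
      simp [Matrix.mulVec, dotProduct, Pi.single_apply]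
    rwa [e, e, e] at h2
  unfold hsq trH
  rw [pow_two, Finset.sum_mul_sum]
  exact Finset.sum_le_sum fun i _ => Finset.sum_le_sum fun j _ => h1 i j

lemma pr_smul (N A : Matrix V V ℝ) (c : ℝ) : pr N (c • A) = c * pr N A := by
  unfold pr
  rw [Finset.mul_sum]
  refine Finset.sum_congr rfl fun x _ => ?_
  rw [Finset.mul_sum]
  refine Finset.sum_congr rfl fun y _ => ?_
  rw [Matrix.smul_apply, smul_eq_mul]
  ring

lemma pr_sub (N A B : Matrix V V ℝ) : pr N (A - B) = pr N A - pr N B := by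
  have h := pr_add N (A - B) B
  rw [sub_add_cancel] at h
  linarith

lemma pr_gram_nonneg {N : Matrix V V ℝ} (hN : ∀ u, 0 ≤ qf N u) (A : Matrix V I ℝ) :
    0 ≤ pr N (A * Aᵀ) := by
  rw [gram_cols, pr_sum]
  refine Finset.sum_nonneg fun i _ => ?_
  rw [pr_rank]
  exact hN _

lemma pr_psd {N : Matrix V V ℝ} (hN : ∀ u, 0 ≤ qf N u) {S T : Matrix V V ℝ}
    (h : (T - S).PosSemidef) : pr N S ≤ pr N T := by
  classical
  obtain ⟨C, hC⟩ := H239.exists_increment h
  have h1 := pr_gram_nonneg hN C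
  rw [← hC, pr_sub] at h1
  linarith

lemma psd_gram (A : Matrix V I ℝ) : (A * Aᵀ).PosSemidef := by
  have h := Matrix.posSemidef_self_mul_conjTranspose A
  rwa [Matrix.conjTranspose_eq_transpose_of_trivial] at h

omit [Fintype V] in
lemma psd_sub_smul {S T : Matrix V V ℝ} {a b : ℝ} (hS : S.PosSemidef) (h : (T - S).PosSemidef)
    (ha : 0 ≤ a) (hb : a ≤ b) : (b • T - a • S).PosSemidef := by
  have hT : T.PosSemidef := by
    have := h.add hS
    rwa [sub_add_cancel] at this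
  have e : b • T - a • S = (b - a) • T + a • (T - S) := by
    rw [sub_smul, smul_sub]
    abel
  rw [e]
  exact (hT.smul (sub_nonneg.2 hb)).add (h.smul ha)

end mat

/-! ### the fourth cumulant -/

lemma K4_smul4 (hμ : EM μ) (he : Ev μ) (hK : PK μ) (c : ℝ) (F : V → ℝ) :
    K4 μ (c • F) (c • F) (c • F) (c • F) = c ^ 4 * K4 μ F F F F := by
  obtain ⟨m, N, hN⟩ := K4S_sos hμ he hK
  rw [K4_sos hμ he hN, K4_sos hμ he hN, Finset.mul_sum]
  refine Finset.sum_congr rfl fun k _ => ?_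
  rw [qf_smul]
  ring

section k4

variable {I J : Type*} [Fintype I] [Fintype J]

/-- monotonicity of `K4S` in the Loewner order -/
lemma K4S_psd (hμ : EM μ) (he : Ev μ) (hK : PK μ) {S T : Matrix V V ℝ} (hS : S.PosSemidef)
    (hTS : (T - S).PosSemidef) : K4S μ S S ≤ K4S μ T T := by
  classical
  have hT : T.PosSemidef := by
    have := hTS.add hS
    rwa [sub_add_cancel] at this
  obtain ⟨A, hA⟩ := H239.exists_increment hS
  obtain ⟨B, hB⟩ := H239.exists_increment hT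
  obtain ⟨C, hC⟩ := H239.exists_increment hTS
  have h := K4S_mono hμ he hK (c := 1) zero_le_one Aᵀ Cᵀ Bᵀ (by
    rw [Matrix.transpose_transpose, Matrix.transpose_transpose, Matrix.transpose_transpose,
      ← hA, ← hB, ← hC, one_smul])
  rw [Matrix.transpose_transpose, Matrix.transpose_transpose, ← hA, ← hB, one_pow, one_mul] at h
  exact h

lemma K4S_smul2 (μ : (V → ℤ) → ℝ) (c : ℝ) (S : Matrix V V ℝ) :
    K4S μ (c • S) (c • S) = c ^ 2 * K4S μ S S := by
  rw [K4S_smul_left, K4S_comm, K4S_smul_left]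
  ring

end k4

/-! ### the closure function and the good set -/

/-- the closure function -/
def cl (n : ℕ) (y : ℝ) : ℝ := 8 * √y ^ (2 - 2 * (1 / 2 : ℝ) ^ n)

lemma cl_exp (n : ℕ) : (0 : ℝ) ≤ 2 - 2 * (1 / 2 : ℝ) ^ n := by
  have : (1 / 2 : ℝ) ^ n ≤ 1 := pow_le_one₀ (by norm_num) (by norm_num)
  linarith

lemma cl_nonneg (n : ℕ) (y : ℝ) : 0 ≤ cl n y :=
  mul_nonneg (by norm_num) (Real.rpow_nonneg (Real.sqrt_nonneg _) _)

lemma cl_mono (n : ℕ) {x y : ℝ} (h : x ≤ y) : cl n x ≤ cl n y :=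
  mul_le_mul_of_nonneg_left (Real.rpow_le_rpow (Real.sqrt_nonneg _) (Real.sqrt_le_sqrt h)
    (cl_exp n)) (by norm_num)

/-- the good set -/
def Gs (μ : (V → ℤ) → ℝ) (n : ℕ) (b : ℝ) : Set (V → ℝ) :=
  {F | Rs μ ((2 : ℝ) ^ (n + 1) • F) ≤ 1 ∧ K4 μ F F F F ≤ b}

namespace Maj

variable (h : Maj μ Bm)
include h

theorem dom : Dom2 (Rs μ) (fun J => qf Bm J / 2) where
  met := H770.met_Rs h.em h.ev h.pk
  le := h.le
  par a c := by
    have := H789.qf_par Bm a c
    linarith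
  mR := (egr_Rs h.em h.gt).meas
  mQ := (qf_meas Bm).div_const 2
  hom c x := by
    rw [qf_smul]
    ring

theorem Rs_nonneg (J : V → ℝ) : 0 ≤ Rs μ J := H789.Rs_nonneg h.em h.ev h.pk J

theorem qf_nonneg (J : V → ℝ) : 0 ≤ qf Bm J := by
  have := (h.Rs_nonneg J).trans (h.le J)
  linarith

theorem mR : Measurable (Rs μ) := (egr_Rs h.em h.gt).meas

theorem Gs_meas (n : ℕ) (b : ℝ) : MeasurableSet (Gs μ n b) :=
  (measurableSet_le (h.mR.comp (measurable_const_smul _)) measurable_const).inter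
    (measurableSet_le (K4_meas h.em h.ev h.pk) measurable_const)

theorem Gs_good {n : ℕ} {b : ℝ} {F : V → ℝ} (hF : F ∈ Gs μ n b) :
    Rs μ F ≤ 1 ∧ Rs μ F ≤ cl n (8 * b) ∧ TR (Rs μ) F ≤ cl n (8 * b) := by
  obtain ⟨h1, h2⟩ := hF
  have e1 : (2 : ℝ) ^ n • ((2 : ℝ) • F) = (2 : ℝ) ^ (n + 1) • F := by
    rw [smul_smul, pow_succ]
  have h3 := H789.Rs_closure h.em h.ev h.pk ((2 : ℝ) • F) n (by rw [e1]; exact h1)
  rw [K4_smul4 h.em h.ev h.pk] at h3
  have h4 : Rs μ ((2 : ℝ) • F) ≤ cl n (8 * b) := by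
    refine h3.trans (cl_mono n (y := 8 * b) ?_)
    linarith
  have m1 : Rs μ F ≤ Rs μ ((2 : ℝ) • F) := by
    have := H789.Rs_ray_mono h.em h.ev h.pk F zero_le_one (one_le_two (α := ℝ))
    rwa [one_smul] at this
  have m2 : Rs μ ((2 : ℝ) • F) ≤ Rs μ ((2 : ℝ) ^ (n + 1) • F) :=
    H789.Rs_ray_mono h.em h.ev h.pk F zero_le_two (by
      have : (1 : ℝ) ≤ 2 ^ n := one_le_pow₀ one_le_two
      rw [pow_succ]
      linarith)
  refine ⟨(m1.trans m2).trans h1, m1.trans h4, ?_⟩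
  unfold TR
  have := h.Rs_nonneg F
  linarith

section prob

variable {I J K : Type*} [Fintype I] [Fintype J] [Fintype K]

theorem Gs_prob (A : Matrix V I ℝ) {D : ℝ} (hD : 0 < D) (hK : K4S μ (A * Aᵀ) (A * Aᵀ) ≤ D)
    (n : ℕ) {lam : ℝ} (hl : 0 ≤ lam) {p : ℝ}
    (hp : (gau I).real {g | 1 < Rs μ ((2 : ℝ) ^ (n + 1) • (A *ᵥ g))} ≤ p) :
    (gau I).real {g | A *ᵥ g ∉ Gs μ n (lam * D)} ≤ p + 6 * Real.exp (-(√lam / 10)) := by
  have h1 : {g : I → ℝ | A *ᵥ g ∉ Gs μ n (lam * D)} ⊆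
      {g | 1 < Rs μ ((2 : ℝ) ^ (n + 1) • (A *ᵥ g))} ∪
        {g | lam * D ≤ K4 μ (A *ᵥ g) (A *ᵥ g) (A *ᵥ g) (A *ᵥ g)} := by
    intro g hg
    by_contra hc
    simp only [Set.mem_union, Set.mem_ofPred_eq, not_or, not_lt, not_le] at hc
    exact hg ⟨hc.1, hc.2.le⟩
  refine (measureReal_mono h1).trans ((measureReal_union_le _ _).trans (add_le_add hp ?_))
  exact K4_tail_exp h.em h.ev h.pk A hD hK hl

/-- **the a-priori probability is monotone in the covariance up to the factor 2** -/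
theorem prob_mono {A : Matrix V I ℝ} {C : Matrix V K ℝ} {B : Matrix V J ℝ}
    (hB : B * Bᵀ = A * Aᵀ + C * Cᵀ) (r : ℝ) :
    (gau I).real {g | r < Rs μ (A *ᵥ g)} ≤ 2 * (gau J).real {g | r < Rs μ (B *ᵥ g)} := by
  set U : Set (V → ℝ) := {F | r < Rs μ F} with hU
  have hUm : MeasurableSet U := measurableSet_lt measurable_const h.mR
  have hB' : B * Bᵀ = A * Aᵀ + (-C) * (-C)ᵀ := by
    rw [hB, Matrix.transpose_neg, Matrix.neg_mul, Matrix.mul_neg, neg_neg]
  have mB : Measurable fun g : J → ℝ => B *ᵥ g := H552.meas_mulVec B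
  have mP : ∀ C : Matrix V K ℝ, Measurable fun p : (I → ℝ) × (K → ℝ) =>
      A *ᵥ p.1 + C *ᵥ p.2 := fun C =>
    ((H552.meas_mulVec A).comp measurable_fst).add ((H552.meas_mulVec C).comp measurable_snd)
  have key : ∀ C : Matrix V K ℝ, B * Bᵀ = A * Aᵀ + C * Cᵀ →
      ((gau I).prod (gau K)).real {p | A *ᵥ p.1 + C *ᵥ p.2 ∈ U} =
        (gau J).real {g | B *ᵥ g ∈ U} := by
    intro C hC
    have h1 := H239.gau_prod_map hC
    have h2 : (((gau I).prod (gau K)).map fun p => A *ᵥ p.1 + C *ᵥ p.2).real U =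
        ((gau J).map fun g => B *ᵥ g).real U := by rw [h1]
    rw [map_measureReal_apply (mP C) hUm, map_measureReal_apply mB hUm] at h2
    exact h2
  have hA : (gau I).real {g | A *ᵥ g ∈ U} = ((gau I).prod (gau K)).real {p | A *ᵥ p.1 ∈ U} := by
    have h1 : MeasurePreserving Prod.fst ((gau I).prod (gau K)) (gau I) := measurePreserving_fst
    exact (h1.measureReal_preimage (hUm.preimage (H552.meas_mulVec A)).nullMeasurableSet).symm
  have h2 : {p : (I → ℝ) × (K → ℝ) | A *ᵥ p.1 ∈ U} ⊆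
      {p | A *ᵥ p.1 + C *ᵥ p.2 ∈ U} ∪ {p | A *ᵥ p.1 + (-C) *ᵥ p.2 ∈ U} := by
    intro p hp
    by_contra hc
    simp only [Set.mem_union, Set.mem_ofPred_eq, hU, not_or, not_lt] at hc hp
    have hcx := (H789.Rs_convex h.em h.ev h.pk).2 (Set.mem_univ (A *ᵥ p.1 + C *ᵥ p.2))
      (Set.mem_univ (A *ᵥ p.1 + (-C) *ᵥ p.2))
      (show (0 : ℝ) ≤ 1 / 2 by norm_num) (show (0 : ℝ) ≤ 1 / 2 by norm_num) (by norm_num)
    have e : (1 / 2 : ℝ) • (A *ᵥ p.1 + C *ᵥ p.2) + (1 / 2 : ℝ) • (A *ᵥ p.1 + (-C) *ᵥ p.2) =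
        A *ᵥ p.1 := by
      rw [Matrix.neg_mulVec]
      module
    rw [e] at hcx
    simp only [smul_eq_mul] at hcx
    linarith [hc.1, hc.2]
  have h3 := (measureReal_mono h2).trans
    (measureReal_union_le (μ := (gau I).prod (gau K)) _ _)
  rw [key C hB, key (-C) hB', ← hA] at h3
  have e1 : {g : I → ℝ | A *ᵥ g ∈ U} = {g | r < Rs μ (A *ᵥ g)} := rfl
  have e2 : {g : J → ℝ | B *ᵥ g ∈ U} = {g | r < Rs μ (B *ᵥ g)} := rfl
  rw [e1, e2] at h3
  linarith

/-- the same with a Loewner inequality and scaling -/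
theorem prob_psd {A : Matrix V I ℝ} {B : Matrix V J ℝ} (s c : ℝ)
    (hAB : ((c ^ 2) • (B * Bᵀ) - A * Aᵀ).PosSemidef) (r : ℝ) :
    (gau I).real {g | r < Rs μ (s • (A *ᵥ g))} ≤
      2 * (gau J).real {g | r < Rs μ ((s * c) • (B *ᵥ g))} := by
  classical
  obtain ⟨C, hC⟩ := H239.exists_increment hAB
  have h1 := h.prob_mono (A := s • A) (C := s • C) (B := (s * c) • B) (by
    simp only [Matrix.transpose_smul, Matrix.smul_mul, Matrix.mul_smul, smul_smul]
    have h2 : (c ^ 2) • (B * Bᵀ) = A * Aᵀ + C * Cᵀ := by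
      rw [← hC]
      abel
    have e : s * c * (s * c) = (s * s) * c ^ 2 := by ring
    rw [e, mul_smul, h2, smul_add]) r
  simpa only [Matrix.smul_mulVec] using h1

/-! ### moments of the majorant -/

theorem Q_mom (A : Matrix V I ℝ) {q : ℝ} (hq : 0 < q) (hA : pr Bm (A * Aᵀ) ≤ q) (p : ℕ) :
    Integrable (fun g : I → ℝ => qf Bm (A *ᵥ g) ^ (2 * p)) (gau I) ∧
    ∫ g, qf Bm (A *ᵥ g) ^ (2 * p) ∂(gau I) ≤ 3 / 2 * (2 * p).factorial * (48 * q ^ 2) ^ p := by
  set H : Matrix I I ℝ := Aᵀ * Bm * A with hH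
  have hs : Hᵀ = H := by
    rw [hH, Matrix.transpose_mul, Matrix.transpose_mul, Matrix.transpose_transpose, h.symm,
      Matrix.mul_assoc]
  have h0 : ∀ g, 0 ≤ qf H g := fun g => by
    rw [hH, ← qf_conj]
    exact h.qf_nonneg _
  have ht : trH H = pr Bm (A * Aᵀ) := trH_conj Bm A
  have ht0 : 0 ≤ trH H := by
    rw [ht]
    exact pr_gram_nonneg h.qf_nonneg A
  have h1 := psd_hsq hs h0
  have h2 : trH H ^ 2 ≤ q ^ 2 := pow_le_pow_left₀ ht0 (by rw [ht]; exact hA) 2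
  have h3 : (√3 * q) ^ 2 = 3 * q ^ 2 := by
    rw [mul_pow, Real.sq_sqrt (by norm_num)]
  have h4 := qf_mom H (σ := √3 * q) (by positivity) (by rw [h3]; linarith) p
  simp only [qf_conj, ← hH]
  rw [h3, show 16 * (3 * q ^ 2) = 48 * q ^ 2 by ring] at h4
  exact h4

end prob

end Maj

end

end Vale.Agent.P159.H447
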