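import Vale.Agent.P159.H447.Cg6
import Vale.Agent.P159.H859.Win

/-!
P159 / module CGT, part 1 (helper447): the fourth cumulant of a window on the torus.

* `K4_pin_perm` : joint cumulants of neutral vectors are invariant under the symmetries.
* `K4S_win` : `(N / l)² K4S(P_w, P_w) ≤ |w| K4S(SN, SN)`, `P_w = CNᵀ 1_w CN`, every set `w` of cells.
-/

set_option linter.unusedSectionVars false

namespace Vale.Agent.P159.H447

open Finset Matrix
open Vale.Agent.P159.TM.H104 (EM Ex Cv K3 Lg li nh Gr)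
open Vale.Agent.P159.H37
open Vale.Agent.P159.TM.Spec (V)
open Vale.Agent.P159.TM.SpecC (wT)
open Vale.Agent.P159.H864 (Inv CInv tra up cl cobV MC)
open Vale.Agent.P159.H963 (GrI Neu pin Pn nwt nMC ntr grI_li gw_wT mf_smul mf_MC)
open Vale.Agent.P159.H859 (dB dB_tr)

noncomputable section

section perm

variable {V : Type*} [Fintype V] [DecidableEq V] {μ : (V → ℤ) → ℝ} {e : Equiv.Perm V}

/-- joint cumulants of neutral vectors are invariant -/
theorem K4_pin_perm (hμ : GrI μ) (hi : Inv μ e) {a b c d : V → ℝ} (ha : Neu a) (hb : Neu b)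
    (hc : Neu c) (hd : Neu d) (x₀ : V) :
    K4 (pin μ x₀) (a ∘ e) (b ∘ e) (c ∘ e) (d ∘ e) = K4 (pin μ x₀) a b c d := by
  have ga := grI_li (ha.perm e)
  have gb := grI_li (hb.perm e)
  have gc := grI_li (hc.perm e)
  have gd := grI_li (hd.perm e)
  have h0 : ((0 : V → ℝ) ∘ e.symm) = 0 := rfl
  have key : ∀ {F : (V → ℤ) → ℝ}, GrI F → Ex (pin μ x₀) 0 F =
      Ex (pin μ x₀) 0 fun h => F (h ∘ e) := by
    intro F hF
    have h1 := H963.Ex_pin_perm hμ hi (H963.Neu.zero (V := V)) hF x₀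
    rwa [h0] at h1
  unfold K4
  rw [key (((ga.mul gb).mul gc).mul gd), key (ga.mul gb), key (gc.mul gd), key (ga.mul gc),
    key (gb.mul gd), key (ga.mul gd), key (gb.mul gc)]
  simp only [H864.li_comp, H963.comp_symm]

end perm

section win

variable {N l : ℕ} [NeZero N] [NeZero (N / l)] {b t τ : ℝ}

lemma CN_apply (hl : l ∣ N) (c : V (N / l)) (x : V N) :
    CN N l c x = cobV N l c x - (∑ y, cobV N l c y) / Fintype.card (V N) := by
  have h1 : CN N l c x = ((CN N l)ᵀ *ᵥ Pi.single c 1) x := by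
    simp [Matrix.mulVec, dotProduct, Pi.single_apply]
  have h2 : (cobV N l)ᵀ *ᵥ Pi.single c 1 = fun y => cobV N l c y := by
    funext y
    simp [Matrix.mulVec, dotProduct, Pi.single_apply]
  rw [h1, CN_eq hl, Matrix.transpose_mul, H963.Pn_transpose, ← Matrix.mulVec_mulVec, h2,
    H963.Pn_mulVec]

lemma CN_neu (hl : l ∣ N) (c : V (N / l)) : Neu (CN N l c) := by
  have h := H963.obsN_row (N := N) hl 1 c
  unfold H963.obsN at h
  rw [Real.sqrt_one, one_smul] at h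
  exact h

/-- translation of the columns -/
lemma CN_tra (hl : l ∣ N) (c a : V (N / l)) : CN N l (c + a) ∘ tra (up a) = CN N l c := by
  have h1 : ∀ x : V N, cobV N l (c + a) (x + up a) = cobV N l c x := by
    intro x
    rw [H864.cobV_apply, H864.cobV_apply, H864.cl_add_up hl]
    simp only [add_left_inj]
  funext x
  rw [Function.comp_apply, H864.tra_apply, CN_apply hl, CN_apply hl, h1]
  congr 2
  rw [← Equiv.sum_comp (tra (up a))]
  exact Finset.sum_congr rfl fun y _ => h1 y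

/-- the diagonal cumulants of two cells -/
def kc (N l : ℕ) [NeZero N] [NeZero (N / l)] (μ : (V N → ℤ) → ℝ) (i j : V (N / l)) : ℝ :=
  K4 μ (CN N l i) (CN N l i) (CN N l j) (CN N l j)

lemma kc_tra (hl : l ∣ N) {μ : (V N → ℤ) → ℝ} (hμ : GrI μ) (hi : CInv l μ) (x₀ : V N)
    (i j a : V (N / l)) : kc N l (pin μ x₀) (i + a) (j + a) = kc N l (pin μ x₀) i j := by
  unfold kc
  have h := K4_pin_perm hμ (hi a) (CN_neu hl (i + a)) (CN_neu hl (i + a)) (CN_neu hl (j + a))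
    (CN_neu hl (j + a)) x₀
  rw [CN_tra hl, CN_tra hl] at h
  exact h.symm

lemma kc_nonneg {μ : (V N → ℤ) → ℝ} (hμ : EM μ) (he : Ev μ) (hK : PK μ) (i j : V (N / l)) :
    0 ≤ kc N l μ i j := by
  unfold kc
  rw [← K4S_rank hμ he]
  have h1 : vecMulVec (CN N l i) (CN N l i) =
      (Matrix.of fun _ : Unit => CN N l i)ᵀ * Matrix.of fun _ : Unit => CN N l i := by
    ext x y
    simp [Matrix.mul_apply, vecMulVec_apply]
  have h2 : vecMulVec (CN N l j) (CN N l j) =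
      (Matrix.of fun _ : Unit => CN N l j)ᵀ * Matrix.of fun _ : Unit => CN N l j := by
    ext x y
    simp [Matrix.mul_apply, vecMulVec_apply]
  rw [h1, h2]
  exact K4S_gram_nonneg hμ he hK _ _

lemma win_gram (C : Matrix (V N) (V (N / l)) ℝ) (w : Finset (V (N / l))) :
    C * dB w * Cᵀ = (dB w * Cᵀ)ᵀ * (dB w * Cᵀ) := by
  have h1 : dB w * dB w = dB w := by
    unfold H859.dB
    rw [Matrix.diagonal_mul_diagonal]
    congr 1
    funext x
    split_ifs <;> simp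
  rw [Matrix.transpose_mul, Matrix.transpose_transpose, dB_tr, Matrix.mul_assoc C (dB w) (dB w * Cᵀ),
    ← Matrix.mul_assoc (dB w) (dB w) Cᵀ, h1, Matrix.mul_assoc]

lemma K4_zero_left (μ : (V N → ℤ) → ℝ) (c d : V N → ℝ) : K4 μ 0 0 c d = 0 := by
  have h0 : ∀ h : V N → ℤ, li (0 : V N → ℝ) h = 0 := by
    intro h
    simp [TM.H104.li]
  have e0 : Ex μ 0 (fun _ : V N → ℤ => (0 : ℝ)) = 0 := by
    unfold TM.H104.Ex TM.H104.T
    simp
  unfold K4
  simp only [h0, zero_mul, e0]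
  ring

lemma K4_zero_right (μ : (V N → ℤ) → ℝ) (a d : V N → ℝ) : K4 μ a d 0 0 = 0 := by
  have h0 : ∀ h : V N → ℤ, li (0 : V N → ℝ) h = 0 := by
    intro h
    simp [TM.H104.li]
  have e0 : Ex μ 0 (fun _ : V N → ℤ => (0 : ℝ)) = 0 := by
    unfold TM.H104.Ex TM.H104.T
    simp
  unfold K4
  simp only [h0, mul_zero, e0]
  ring

lemma K4S_dB {μ : (V N → ℤ) → ℝ} (hμ : EM μ) (he : Ev μ) (w w' : Finset (V (N / l))) :
    K4S μ ((CN N l)ᵀ * dB w * CN N l) ((CN N l)ᵀ * dB w' * CN N l) =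
      ∑ i ∈ w, ∑ j ∈ w', kc N l μ i j := by
  have h1 := win_gram (CN N l)ᵀ w
  have h2 := win_gram (CN N l)ᵀ w'
  rw [Matrix.transpose_transpose] at h1 h2
  rw [h1, h2, K4S_gram hμ he]
  have hr : ∀ (w : Finset (V (N / l))) (i : V (N / l)), (dB w * CN N l) i =
      if i ∈ w then CN N l i else 0 := by
    intro w i
    funext x
    unfold H859.dB
    rw [Matrix.diagonal_mul]
    split_ifs <;> simp
  rw [← Finset.sum_subset (Finset.subset_univ w)]
  · refine Finset.sum_congr rfl fun i hi => ?_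
    rw [← Finset.sum_subset (Finset.subset_univ w')]
    · refine Finset.sum_congr rfl fun j hj => ?_
      rw [hr, hr, if_pos hi, if_pos hj]
      rfl
    · intro j _ hj
      rw [hr w' j, if_neg hj]
      exact K4_zero_right _ _ _
  · intro i _ hi
    refine Finset.sum_eq_zero fun j _ => ?_
    rw [hr w i, if_neg hi]
    exact K4_zero_left _ _ _

lemma K4S_SN_eq (hl : l ∣ N) {μ : (V N → ℤ) → ℝ} (hμ : EM μ) (he : Ev μ) :
    K4S μ (SN N l) (SN N l) = ∑ i, ∑ j, kc N l μ i j := by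
  rw [← CN_gram hl, K4S_gram hμ he]
  rfl

/-- averaging over translates -/
lemma avg_win {n : ℕ} [NeZero n] {k : V n → V n → ℝ} (hk : ∀ i j a, k (i + a) (j + a) = k i j)
    (h0 : ∀ i j, 0 ≤ k i j) (w : Finset (V n)) :
    (n : ℝ) ^ 2 * ∑ i ∈ w, ∑ j ∈ w, k i j ≤ w.card * ∑ i, ∑ j, k i j := by
  have h1 : (n : ℝ) ^ 2 * ∑ i ∈ w, ∑ j ∈ w, k i j =
      ∑ i ∈ w, ∑ a : V n, ∑ j ∈ w, k (i + a) (j + a) := by
    simp only [hk, Finset.sum_const, nsmul_eq_mul, Finset.card_univ]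
    rw [Finset.mul_sum]
    refine Finset.sum_congr rfl fun i _ => ?_
    rw [H963.cardV]
  rw [h1, ← nsmul_eq_mul, ← Finset.sum_const]
  refine Finset.sum_le_sum fun i _ => ?_
  rw [← Equiv.sum_comp (Equiv.subRight i)]
  refine Finset.sum_le_sum fun a _ => ?_
  have h2 : ∑ j ∈ w, k (i + (Equiv.subRight i) a) (j + (Equiv.subRight i) a) =
      ∑ j ∈ w.map (Equiv.addRight (a - i)).toEmbedding, k a j := by
    rw [Finset.sum_map]
    refine Finset.sum_congr rfl fun j _ => ?_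
    simp only [Equiv.subRight_apply, Equiv.coe_toEmbedding, Equiv.coe_addRight]
    congr 1
    abel
  rw [h2]
  exact Finset.sum_le_sum_of_subset_of_nonneg (Finset.subset_univ _) fun j _ _ => h0 a j

/-- **the fourth cumulant of a window** -/
theorem K4S_win (hl : l ∣ N) {μ : (V N → ℤ) → ℝ} (hμ : GrI μ) (hi : CInv l μ) (x₀ : V N)
    (hE : EM (pin μ x₀)) (he : Ev (pin μ x₀)) (hK : PK (pin μ x₀)) (w : Finset (V (N / l))) :
    ((N / l : ℕ) : ℝ) ^ 2 *
      K4S (pin μ x₀) ((CN N l)ᵀ * dB w * CN N l) ((CN N l)ᵀ * dB w * CN N l) ≤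
      w.card * K4S (pin μ x₀) (SN N l) (SN N l) := by
  rw [K4S_dB hE he, K4S_SN_eq hl hE he]
  exact avg_win (fun i j a => kc_tra hl hμ hi x₀ i j a) (fun i j => kc_nonneg hE he hK i j) w

/-- scalar masses -/
theorem K4S_win_nwt (hb : 0 ≤ b) (hl : l ∣ N) (ht : 0 < t) (x₀ : V N) (w : Finset (V (N / l))) :
    ((N / l : ℕ) : ℝ) ^ 2 *
      K4S (nwt N b t x₀) ((CN N l)ᵀ * dB w * CN N l) ((CN N l)ᵀ * dB w * CN N l) ≤
      w.card * K4S (nwt N b t x₀) (SN N l) (SN N l) := by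
  rw [← H963.nMC_self N l b t x₀]
  exact K4S_win hl ((gw_wT hb).grI_wM (mf_MC hl ht le_rfl)) (H963.cinv_ntr hl b t t) x₀
    (H963.em_nMC hb hl ht le_rfl x₀) (H963.ev_nMC hb t t x₀) (H963.pk_nMC hb hl ht le_rfl x₀) w

/-- cell masses -/
theorem K4S_win_nMC (hb : 0 ≤ b) (hl : l ∣ N) (hτ : 0 < τ) (h : τ ≤ t) (x₀ : V N)
    (w : Finset (V (N / l))) :
    ((N / l : ℕ) : ℝ) ^ 2 *
      K4S (nMC N l b t τ x₀) ((CN N l)ᵀ * dB w * CN N l) ((CN N l)ᵀ * dB w * CN N l) ≤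
      w.card * K4S (nMC N l b t τ x₀) (SN N l) (SN N l) :=
  K4S_win hl ((gw_wT hb).grI_wM (mf_MC hl hτ h)) (H963.cinv_ntr hl b t τ) x₀
    (H963.em_nMC hb hl hτ h x₀) (H963.ev_nMC hb t τ x₀) (H963.pk_nMC hb hl hτ h x₀) w

end win

end

end Vale.Agent.P159.H447
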