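import Vale.Agent.P159.H239.Glu1
import Vale.Agent.P159.H730.Law
import Vale.Agent.P159.H447.Cg7

/-!
P159 / LAWT (helper447): the exact channel law against its Gaussian reference on the cell torus,
neutral model, posterior mass `T`, prior mass `s`; test functionals of the excess covariance.

* `rl_tor` : `CNᵀ A`, `A Aᵀ = Sgn N l b T s`, realises the Gaussian reference law;
* `Ech_tst` : exact average of `Phi_W`, `Phi_W J = pr (NR μ J) (CNᵀ W CN)`, is `pr W (cbM s - Gnc T)`;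
* `Ech_tst_sq` : its second moment;
* `law_tor` : **(LAW)**; `bad_law` : exact bad sets from Gaussian ones.
-/

set_option linter.unusedSectionVars false

namespace Vale.Agent.P159.H447

open Finset Matrix MeasureTheory
open Vale.Agent.P159.TM.H104 (EM Ex Cv K3 Lg li nh Gr)
open Vale.Agent.P159.H37
open Vale.Agent.P159.H159 (pr)
open Vale.Agent.P159.TM.Spec (V)
open Vale.Agent.P159.TM.SpecC (wT)
open Vale.Agent.P159.H963 (GrI Neu pin Pn nwt nMC obsN Gnc gw_wT mf_smul)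
open Vale.Agent.P159.H730 (RL wN QAQ_apply hs2 ps ps_wN bf_Cbar)
open Vale.Agent.P159.H239 (cbM)
open Vale.Agent.P159.H859 (Sgn)

noncomputable section

section abstract

variable {W I : Type*} [Fintype W] [Fintype I]

/-- pairing with a conjugated matrix -/
lemma pr_conj (M : Matrix W W ℝ) (C : Matrix I W ℝ) (S : Matrix I I ℝ) :
    pr M (Cᵀ * S * C) = ∑ i, ∑ j, S i j * bf M (C i) (C j) := by
  have h1 : ∀ x y, (Cᵀ * S * C) x y = ∑ i, ∑ j, C i x * S i j * C j y := by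
    intro x y
    simp only [Matrix.mul_apply, Matrix.transpose_apply, Finset.sum_mul]
    rw [Finset.sum_comm]
  unfold pr bf
  simp only [h1, Finset.mul_sum]
  calc ∑ x, ∑ y, ∑ i, ∑ j, M x y * (C i x * S i j * C j y)
      = ∑ x, ∑ i, ∑ y, ∑ j, M x y * (C i x * S i j * C j y) :=
        Finset.sum_congr rfl fun x _ => Finset.sum_comm
    _ = ∑ i, ∑ x, ∑ y, ∑ j, M x y * (C i x * S i j * C j y) := Finset.sum_comm
    _ = ∑ i, ∑ x, ∑ j, ∑ y, M x y * (C i x * S i j * C j y) :=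
        Finset.sum_congr rfl fun i _ => Finset.sum_congr rfl fun x _ => Finset.sum_comm
    _ = ∑ i, ∑ j, ∑ x, ∑ y, M x y * (C i x * S i j * C j y) :=
        Finset.sum_congr rfl fun i _ => Finset.sum_comm
    _ = _ := Finset.sum_congr rfl fun i _ => Finset.sum_congr rfl fun j _ =>
        Finset.sum_congr rfl fun x _ => Finset.sum_congr rfl fun y _ => by ring

lemma pr_conj' (M : Matrix W W ℝ) (C : Matrix I W ℝ) (S : Matrix I I ℝ) :
    pr M (Cᵀ * S * C) = pr S (C * M * Cᵀ) := by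
  rw [pr_conj]
  unfold pr
  simp only [QAQ_apply]

/-- Cauchy-Schwarz for the pairing -/
lemma pr_sq_le (S T : Matrix I I ℝ) :
    pr S T ^ 2 ≤ (∑ i, ∑ j, S i j ^ 2) * ∑ i, ∑ j, T i j ^ 2 := by
  have h := Finset.sum_mul_sq_le_sq_mul_sq (Finset.univ : Finset (I × I)) (fun p => S p.1 p.2)
    fun p => T p.1 p.2
  simp only [Fintype.sum_prod_type] at h
  exact h

end abstract

section tor

variable {N l : ℕ} [NeZero N] [NeZero (N / l)] {b T s : ℝ} {I : Type*} [Fintype I]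

lemma post_wN (hl : l ∣ N) (h : s ≤ T) :
    post (wN N l b T s) (obsN N l (T - s)) = nwt N b T 0 := by
  have h1 := H963.post_nMC (N := N) (l := l) (t := T) hl b h (0 : V N)
  rw [H963.nMC_self] at h1
  exact h1

lemma ps_wN' (hl : l ∣ N) (h : s ≤ T) :
    ps (wN N l b T s) (CN N l) (T - s) = nwt N b T 0 := by
  rw [ps_wN hl b T (sub_nonneg.2 h), add_sub_cancel]
  exact H963.nMC_self N l b T 0

lemma gm_CN (hl : l ∣ N) : CN N l * Gm (nwt N b T 0) * (CN N l)ᵀ = Gnc N l b T T := by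
  have h := Gc_CN (N := N) (l := l) hl b T T
  rw [H963.nMC_self] at h
  exact h

/-- **the Gaussian reference law on the torus** -/
theorem rl_tor (hb : 0 ≤ b) (hl : l ∣ N) (hs : 0 < s) (hsT : s < T)
    {A : Matrix (V (N / l)) I ℝ} (hA : A * Aᵀ = Sgn N l b T s) :
    RL (wN N l b T s) (obsN N l (T - s)) ((CN N l)ᵀ * A) := by
  have hT : 0 < T := hs.trans hsT
  have hp : post (wN N l b T s) (Real.sqrt (T - s) • CN N l) = nwt N b T 0 := post_wN hl hsT.le
  have h := RL.of_smul (C := CN N l) (q := T - s) (A := A) (sub_pos.2 hsT)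
    (H963.em_nMC hb hl hs hsT.le 0) (by
      rw [hp]
      exact (maj_nwt hb hT 0).Rs_nonneg) (by
      rw [hp, gm_CN hl]
      exact hA)
  exact h

/-- the test functional of the excess covariance -/
def Tst (N l : ℕ) [NeZero N] [NeZero (N / l)] (b T : ℝ) (W : Matrix (V (N / l)) (V (N / l)) ℝ)
    (J : V N → ℝ) : ℝ := pr (NR (nwt N b T 0) J) ((CN N l)ᵀ * W * CN N l)

lemma NR_bf (hb : 0 ≤ b) (hT : 0 < T) (J u v : V N → ℝ) :
    bf (NR (nwt N b T 0) J) u v =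
      Cv (nwt N b T 0) J (li u) (li v) - Cv (nwt N b T 0) 0 (li u) (li v) := by
  have hE := H963.em_nwt (N := N) hb hT 0
  unfold NR
  rw [H114.bf_sub_mat, H789.bf_Cm hE]
  unfold Gm
  rw [H789.bf_Cm hE]

lemma Tst_eq (hb : 0 ≤ b) (hT : 0 < T) (W : Matrix (V (N / l)) (V (N / l)) ℝ) (J : V N → ℝ) :
    Tst N l b T W J = ∑ i, ∑ j, W i j * (Cv (nwt N b T 0) J (li (CN N l i)) (li (CN N l j)) -
      Cv (nwt N b T 0) 0 (li (CN N l i)) (li (CN N l j))) := by
  unfold Tst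
  rw [pr_conj]
  simp only [NR_bf hb hT]

lemma egr_Tst (hb : 0 ≤ b) (hT : 0 < T) (W : Matrix (V (N / l)) (V (N / l)) ℝ) :
    EGr (Tst N l b T W) := by
  have h := maj_nwt (N := N) hb hT 0
  exact egr_pr (C2.Rs h.em h.gt).e2 _

/-- **exact average of the test functional** -/
theorem Ech_tst (hb : 0 ≤ b) (hl : l ∣ N) (hs : 0 < s) (hsT : s ≤ T)
    (W : Matrix (V (N / l)) (V (N / l)) ℝ) :
    Ech (wN N l b T s) 0 (obsN N l (T - s)) (Tst N l b T W) =
      pr W (cbM N l b T s - Gnc N l b T T) := by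
  have hT : 0 < T := hs.trans_le hsT
  have hE : EM (wN N l b T s) := H963.em_nMC hb hl hs hsT 0
  have hp : post (wN N l b T s) (obsN N l (T - s)) = nwt N b T 0 := post_wN hl hsT
  have hc : ∀ i j, H663.ChI (wN N l b T s) 0 (obsN N l (T - s))
      fun J => Cv (nwt N b T 0) J (li (CN N l i)) (li (CN N l j)) -
        Cv (nwt N b T 0) 0 (li (CN N l i)) (li (CN N l j)) := by
    intro i j
    have h1 := H730.chi_Cv hE (obsN N l (T - s)) (Gr.li (CN N l i)) (Gr.li (CN N l j))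
    rw [hp] at h1
    exact h1.sub (H730.chi_const hE 0 _ _)
  have e0 : Tst N l b T W = fun J => ∑ i, ∑ j, W i j *
      (Cv (nwt N b T 0) J (li (CN N l i)) (li (CN N l j)) -
        Cv (nwt N b T 0) 0 (li (CN N l i)) (li (CN N l j))) :=
    funext fun J => Tst_eq hb hT W J
  rw [e0]
  refine (H730.Ech_sum _ fun i => H730.chi_sum _ fun j => (hc i j).cmul (W i j)).trans ?_
  unfold pr
  refine Finset.sum_congr rfl fun i _ => ?_
  refine (H730.Ech_sum _ fun j => (hc i j).cmul (W i j)).trans ?_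
  refine Finset.sum_congr rfl fun j _ => ?_
  have h1 := H730.chi_Cv hE (obsN N l (T - s)) (Gr.li (CN N l i)) (Gr.li (CN N l j))
  rw [hp] at h1
  rw [Ech_cmul, H663.Ech_sub' h1 (H730.chi_const hE 0 _ _), Ech_const hE]
  congr 1
  rw [Matrix.sub_apply]
  congr 1
  · unfold H239.cbM
    rw [QAQ_apply, bf_Cbar hE, hp]
  · rw [← gm_CN hl, QAQ_apply]
    unfold Gm
    rw [H789.bf_Cm (H963.em_nwt hb hT 0)]

/-- second moment -/
theorem Ech_tst_sq (hb : 0 ≤ b) (hl : l ∣ N) (hs : 0 < s) (hsT : s ≤ T)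
    (W : Matrix (V (N / l)) (V (N / l)) ℝ) :
    (Ech (wN N l b T s) 0 (obsN N l (T - s)) fun J => Tst N l b T W J ^ 2) ≤
      (∑ i, ∑ j, W i j ^ 2) * (1500 * (((N / l : ℕ) : ℝ) ^ 2 / s) ^ 2) := by
  have hT : 0 < T := hs.trans_le hsT
  have hE : EM (wN N l b T s) := H963.em_nMC hb hl hs hsT 0
  have hW : 0 ≤ ∑ i, ∑ j, W i j ^ 2 :=
    Finset.sum_nonneg fun _ _ => Finset.sum_nonneg fun _ _ => sq_nonneg _
  have h1 : ∀ J, Tst N l b T W J ^ 2 ≤
      (∑ i, ∑ j, W i j ^ 2) * hs2 (wN N l b T s) (CN N l) (T - s) J := by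
    intro J
    rw [Tst_eq hb hT W J]
    unfold H730.hs2
    rw [ps_wN' hl hsT]
    exact pr_sq_le W (Matrix.of fun i j => Cv (nwt N b T 0) J (li (CN N l i)) (li (CN N l j)) -
      Cv (nwt N b T 0) 0 (li (CN N l i)) (li (CN N l j)))
  have hi := H730.chi_hs2 (Q := CN N l) hE (T - s)
  have hi2 : H663.ChI (wN N l b T s) 0 (obsN N l (T - s)) fun J => Tst N l b T W J ^ 2 := by
    have h2 := H663.ChI.of_EGr hE 0 (obsN N l (T - s)) ((egr_Tst hb hT W).mul (egr_Tst hb hT W))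
    simpa only [← pow_two] using h2
  refine (H663.Ech_mono' hE hi2 (hi.cmul _) h1).trans ?_
  rw [Ech_cmul]
  refine mul_le_mul_of_nonneg_left ?_ hW
  have h3 := H730.bad_torN (N := N) (l := l) (t := T) hb hl hs hsT le_rfl MeasurableSet.univ
  simp only [Set.indicator_univ] at h3
  rw [Ech_const hE, Real.sqrt_one, mul_one] at h3
  exact h3

/-- **(LAW) on the cell torus** -/
theorem law_tor (hb : 0 ≤ b) (hl : l ∣ N) (hs : 0 < s) (hsT : s < T)
    {A : Matrix (V (N / l)) I ℝ} (hA : A * Aᵀ = Sgn N l b T s) {Gd : Set (V N → ℝ)} {ρ p : ℝ}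
    (hG : MeasurableSet Gd) (hR : ∀ J ∈ Gd, Rs (nwt N b T 0) J ≤ ρ) (hρ : 0 ≤ ρ) (hp0 : 0 ≤ p)
    (hp1 : p ≤ 1) (hp : Ech (wN N l b T s) 0 (obsN N l (T - s))
      (Gdᶜ.indicator fun _ => (1 : ℝ)) ≤ p) (W : Matrix (V (N / l)) (V (N / l)) ℝ) :
    |pr W (cbM N l b T s - Gnc N l b T T) -
        ∫ g, Tst N l b T W (((CN N l)ᵀ * A) *ᵥ g) ∂(gau I)| ≤
      (Real.exp ρ - 1 + p) * (∫ g, |Tst N l b T W (((CN N l)ᵀ * A) *ᵥ g)| ∂(gau I)) +
        39 * (Real.sqrt (∑ i, ∑ j, W i j ^ 2) * (((N / l : ℕ) : ℝ) ^ 2 / s) * Real.sqrt p) := by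
  have hT : 0 < T := hs.trans hsT
  have hE : EM (wN N l b T s) := H963.em_nMC hb hl hs hsT.le 0
  have hX := rl_tor hb hl hs hsT hA
  have hq := post_wN (N := N) (l := l) (b := b) hl hsT.le
  have hm := (egr_Tst (N := N) (l := l) hb hT W).meas
  have hi := H663.ChI.of_EGr hE 0 (obsN N l (T - s)) (egr_Tst (N := N) (l := l) hb hT W)
  have hi2 : H663.ChI (wN N l b T s) 0 (obsN N l (T - s)) fun J => Tst N l b T W J ^ 2 := by
    have h2 := H663.ChI.of_EGr hE 0 (obsN N l (T - s)) ((egr_Tst hb hT W).mul (egr_Tst hb hT W))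
    simpa only [← pow_two] using h2
  have h := hX.law hG (by rw [hq]; exact hR) hρ hp0 hp1 hp hm hi hi2
  rw [Ech_tst hb hl hs hsT.le W] at h
  refine h.trans (add_le_add_right ?_ _)
  have h2 := Ech_tst_sq hb hl hs hsT.le W
  have hx : 0 ≤ ∑ i, ∑ j, W i j ^ 2 :=
    Finset.sum_nonneg fun _ _ => Finset.sum_nonneg fun _ _ => sq_nonneg _
  have hy : 0 ≤ ((N / l : ℕ) : ℝ) ^ 2 / s := by positivity
  refine Real.sqrt_le_iff.2 ⟨by positivity, ?_⟩
  have e : (39 * (Real.sqrt (∑ i, ∑ j, W i j ^ 2) * (((N / l : ℕ) : ℝ) ^ 2 / s) *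
      Real.sqrt p)) ^ 2 = (∑ i, ∑ j, W i j ^ 2) *
        (1521 * (((N / l : ℕ) : ℝ) ^ 2 / s) ^ 2) * p := by
    rw [mul_pow, mul_pow, mul_pow, Real.sq_sqrt hx, Real.sq_sqrt hp0]
    ring
  rw [e]
  refine mul_le_mul_of_nonneg_right (h2.trans ?_) hp0
  refine mul_le_mul_of_nonneg_left ?_ hx
  nlinarith [sq_nonneg (((N / l : ℕ) : ℝ) ^ 2 / s)]

/-- **exact bad sets from Gaussian ones** -/
theorem bad_law (hb : 0 ≤ b) (hl : l ∣ N) (hs : 0 < s) (hsT : s < T)
    {A : Matrix (V (N / l)) I ℝ} (hA : A * Aᵀ = Sgn N l b T s) {Gd G0 : Set (V N → ℝ)} {η : ℝ}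
    (hG : MeasurableSet Gd) (hG0 : MeasurableSet G0) (hR : ∀ J ∈ G0, Rs (nwt N b T 0) J ≤ η) :
    Ech (wN N l b T s) 0 (obsN N l (T - s)) (Gdᶜ.indicator fun _ => (1 : ℝ)) ≤
      Ech (wN N l b T s) 0 (obsN N l (T - s)) (G0ᶜ.indicator fun _ => (1 : ℝ)) +
        Real.exp η * (gau I).real {g | ((CN N l)ᵀ * A) *ᵥ g ∉ Gd} := by
  have hE : EM (wN N l b T s) := H963.em_nMC hb hl hs hsT.le 0
  have hX := rl_tor hb hl hs hsT hA
  have hq := post_wN (N := N) (l := l) (b := b) hl hsT.le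
  have c1 : H663.ChI (wN N l b T s) 0 (obsN N l (T - s)) fun _ => (1 : ℝ) := H730.chi_one hX
  have cG := H730.chi_ind' hX measurable_const c1 hG.compl
  have c0 := H730.chi_ind' hX measurable_const c1 hG0.compl
  have c2 := H730.chi_ind' hX (measurable_const.indicator hG.compl) cG hG0
  have h1 : Ech (wN N l b T s) 0 (obsN N l (T - s)) (Gdᶜ.indicator fun _ => (1 : ℝ)) ≤
      Ech (wN N l b T s) 0 (obsN N l (T - s)) fun J => G0ᶜ.indicator (fun _ => (1 : ℝ)) J +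
        G0.indicator (Gdᶜ.indicator fun _ => (1 : ℝ)) J := by
    refine H663.Ech_mono' hE cG (c0.add c2) fun J => ?_
    by_cases hJ : J ∈ G0
    · have n1 : J ∉ G0ᶜ := fun h => h hJ
      rw [Set.indicator_of_notMem n1, Set.indicator_of_mem hJ, zero_add]
    · have n1 : J ∈ G0ᶜ := hJ
      rw [Set.indicator_of_mem n1, Set.indicator_of_notMem hJ, add_zero]
      by_cases h2 : J ∈ Gdᶜ
      · rw [Set.indicator_of_mem h2]
      · rw [Set.indicator_of_notMem h2]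
        exact zero_le_one
  refine h1.trans ?_
  rw [H663.Ech_add' c0 c2]
  refine add_le_add_right ?_ _
  refine (hX.good_le hG0 (by rw [hq]; exact hR) (measurable_const.indicator hG.compl)
    (fun J => Set.indicator_nonneg (fun _ _ => zero_le_one) J) cG).trans ?_
  refine mul_le_mul_of_nonneg_left ?_ (Real.exp_pos _).le
  have mX : Measurable fun g : I → ℝ => ((CN N l)ᵀ * A) *ᵥ g := H552.meas_mulVec _
  have hms : MeasurableSet {g : I → ℝ | ((CN N l)ᵀ * A) *ᵥ g ∉ Gd} := mX hG.compl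
  have e1 : (gau I).real {g | ((CN N l)ᵀ * A) *ᵥ g ∉ Gd} =
      ∫ g, {g : I → ℝ | ((CN N l)ᵀ * A) *ᵥ g ∉ Gd}.indicator (fun _ => (1 : ℝ)) g ∂(gau I) := by
    rw [integral_indicator hms, setIntegral_const, smul_eq_mul, mul_one]
  rw [e1]
  have hm2 : Measurable (G0.indicator (Gdᶜ.indicator fun _ : V N → ℝ => (1 : ℝ))) :=
    (measurable_const.indicator hG.compl).indicator hG0
  refine integral_mono (hX.chi_G hm2 c2) ((integrable_const (1 : ℝ)).indicator hms) fun g => ?_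
  simp only
  by_cases hg : ((CN N l)ᵀ * A) *ᵥ g ∈ G0
  · rw [Set.indicator_of_mem hg]
    by_cases hg2 : ((CN N l)ᵀ * A) *ᵥ g ∈ Gd
    · have n1 : ((CN N l)ᵀ * A) *ᵥ g ∉ Gdᶜ := fun h => h hg2
      rw [Set.indicator_of_notMem n1]
      exact Set.indicator_nonneg (fun _ _ => zero_le_one) g
    · have n1 : ((CN N l)ᵀ * A) *ᵥ g ∈ Gdᶜ := hg2
      have n2 : g ∈ {g : I → ℝ | ((CN N l)ᵀ * A) *ᵥ g ∉ Gd} := hg2
      rw [Set.indicator_of_mem n1, Set.indicator_of_mem n2]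
  · rw [Set.indicator_of_notMem hg]
    exact Set.indicator_nonneg (fun _ _ => zero_le_one) g

end tor

end

end Vale.Agent.P159.H447
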