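import Vale.Agent.P159.H447.MassE
import Vale.Agent.P159.H789.Ray

/-!
P159 / module MASS, part F (helper447): moments and tail of the fourth cumulant along a Gaussian
source: `F = A g`, `K4S(A Aᵀ, A Aᵀ) ≤ D` gives
`E K4(F,F,F,F)^p ≤ (3/2) (2p)! (48 D)^p` and `P(K4(F,F,F,F) > λ D) ≤ 3 / cosh(√λ/10)`;
with the closure lemma, a tail for `Rs μ F` on `{Rs μ (2ⁿ F) ≤ 1}`.
-/

namespace Vale.Agent.P159.H447

open Finset Matrix MeasureTheory ProbabilityTheory
open Vale.Agent.P159.TM.H104 (EM Ex Cv K3 Lg li nh Gr)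
open Vale.Agent.P159.H37
open Vale.Agent.P159.H114 (Gm_transpose)

noncomputable section

variable {V I : Type*} [Fintype V] [Fintype I] {μ : (V → ℤ) → ℝ}

/-- `i`-th column -/
def colv (A : Matrix V I ℝ) (i : I) : V → ℝ := fun x => A x i

omit [Fintype V] in
lemma gram_cols (A : Matrix V I ℝ) : A * Aᵀ = ∑ i, vecMulVec (colv A i) (colv A i) := by
  ext x y
  rw [Matrix.mul_apply, Matrix.sum_apply]
  refine Finset.sum_congr rfl fun i _ => ?_
  rw [vecMulVec_apply, Matrix.transpose_apply]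
  rfl

lemma pr_add (N A B : Matrix V V ℝ) : pr N (A + B) = pr N A + pr N B := by
  unfold pr
  rw [← Finset.sum_add_distrib]
  refine Finset.sum_congr rfl fun x _ => ?_
  rw [← Finset.sum_add_distrib]
  refine Finset.sum_congr rfl fun y _ => ?_
  rw [Matrix.add_apply]
  ring

lemma pr_zero (N : Matrix V V ℝ) : pr N 0 = 0 := by
  unfold pr
  simp

lemma pr_sum {κ : Type*} (N : Matrix V V ℝ) (s : Finset κ) (B : κ → Matrix V V ℝ) :
    pr N (∑ i ∈ s, B i) = ∑ i ∈ s, pr N (B i) := by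
  classical
  induction s using Finset.induction_on with
  | empty => simpa using pr_zero N
  | insert i s his ih => rw [Finset.sum_insert his, Finset.sum_insert his, pr_add, ih]

omit [Fintype I] in
lemma conj_entry (N : Matrix V V ℝ) (A : Matrix V I ℝ) (i j : I) :
    (Aᵀ * N * A) i j = pr N (vecMulVec (colv A i) (colv A j)) := by
  rw [Matrix.mul_assoc, Matrix.mul_apply]
  unfold pr
  refine Finset.sum_congr rfl fun x _ => ?_
  rw [Matrix.mul_apply, Finset.mul_sum]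
  refine Finset.sum_congr rfl fun y _ => ?_
  rw [vecMulVec_apply, Matrix.transpose_apply]
  unfold colv
  ring

lemma qf_dot {κ : Type*} [Fintype κ] (M : Matrix κ κ ℝ) (u : κ → ℝ) : qf M u = u ⬝ᵥ M *ᵥ u := by
  unfold qf dotProduct Matrix.mulVec dotProduct
  refine Finset.sum_congr rfl fun x _ => ?_
  rw [Finset.mul_sum]
  exact Finset.sum_congr rfl fun y _ => by ring

lemma qf_conj (N : Matrix V V ℝ) (A : Matrix V I ℝ) (g : I → ℝ) :
    qf N (A *ᵥ g) = qf (Aᵀ * N * A) g := by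
  rw [qf_dot, qf_dot, ← mulVec_mulVec, ← mulVec_mulVec, dotProduct_mulVec g, vecMul_transpose]

/-- total variance budget of the squares: `3 K4S(A Aᵀ, A Aᵀ)` -/
lemma sum_var (hμ : EM μ) (he : Ev μ) {m : ℕ} {N : Fin m → Matrix V V ℝ}
    (hN : ∀ A B, K4S μ A B = ∑ k, pr (N k) A * pr (N k) B) (A : Matrix V I ℝ) :
    ∑ k, (trH (Aᵀ * N k * A) ^ 2 + 2 * hsq (Aᵀ * N k * A)) = 3 * K4S μ (A * Aᵀ) (A * Aᵀ) := by
  have h1 : ∀ k, trH (Aᵀ * N k * A) = pr (N k) (A * Aᵀ) := by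
    intro k
    rw [gram_cols, pr_sum]
    exact Finset.sum_congr rfl fun i _ => conj_entry _ _ _ _
  have h2 : ∑ k, trH (Aᵀ * N k * A) ^ 2 = K4S μ (A * Aᵀ) (A * Aᵀ) := by
    rw [hN]
    exact Finset.sum_congr rfl fun k _ => by rw [h1, sq]
  have h3 : ∑ k, hsq (Aᵀ * N k * A) = K4S μ (A * Aᵀ) (A * Aᵀ) := by
    have e1 : ∑ k, hsq (Aᵀ * N k * A) = ∑ i, ∑ j, ∑ k,
        pr (N k) (vecMulVec (colv A i) (colv A j)) * pr (N k) (vecMulVec (colv A i) (colv A j)) := by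
      unfold hsq
      rw [Finset.sum_comm]
      refine Finset.sum_congr rfl fun i _ => ?_
      rw [Finset.sum_comm]
      refine Finset.sum_congr rfl fun j _ => Finset.sum_congr rfl fun k _ => ?_
      rw [conj_entry, sq]
    rw [e1]
    simp only [← hN]
    rw [gram_cols, K4S_sum_left hμ]
    refine Finset.sum_congr rfl fun i _ => ?_
    rw [K4S_sum_right hμ]
    refine Finset.sum_congr rfl fun j _ => ?_
    rw [K4S_rank hμ he, K4S_rank hμ he, K4_swap]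
  rw [Finset.sum_add_distrib, ← Finset.mul_sum, h2, h3]
  ring

lemma K4_meas (hμ : EM μ) (he : Ev μ) (hK : PK μ) :
    Measurable fun F : V → ℝ => K4 μ F F F F := by
  obtain ⟨m, N, hN⟩ := K4S_sos hμ he hK
  simp only [K4_sos hμ he hN]
  exact Finset.measurable_sum _ fun k _ => (qf_meas (N k)).pow_const 2

lemma K4_diag_nonneg (hμ : EM μ) (he : Ev μ) (hK : PK μ) (F : V → ℝ) : 0 ≤ K4 μ F F F F := by
  obtain ⟨m, N, hN⟩ := K4S_sos hμ he hK
  rw [K4_sos hμ he hN]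
  exact Finset.sum_nonneg fun k _ => sq_nonneg _

/-- **moments of the fourth cumulant along a Gaussian source** -/
theorem K4_mom (hμ : EM μ) (he : Ev μ) (hK : PK μ) (A : Matrix V I ℝ) {D : ℝ} (hD : 0 < D)
    (h : K4S μ (A * Aᵀ) (A * Aᵀ) ≤ D) (p : ℕ) :
    Integrable (fun g : I → ℝ => K4 μ (A *ᵥ g) (A *ᵥ g) (A *ᵥ g) (A *ᵥ g) ^ p) (gau I) ∧
    ∫ g, K4 μ (A *ᵥ g) (A *ᵥ g) (A *ᵥ g) (A *ᵥ g) ^ p ∂(gau I)
      ≤ 3 / 2 * (2 * p).factorial * (48 * D) ^ p := by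
  obtain ⟨m, N, hN⟩ := K4S_sos hμ he hK
  have h1 := sos_mom (fun k => Aᵀ * N k * A) (S := 3 * D) (by linarith)
    (by rw [sum_var hμ he hN]; linarith) p
  simp only [K4_sos hμ he hN, qf_conj]
  refine ⟨h1.1, h1.2.trans_eq ?_⟩
  rw [show 16 * (3 * D) = 48 * D by ring]

/-- **tail of the fourth cumulant along a Gaussian source** -/
theorem K4_tail (hμ : EM μ) (he : Ev μ) (hK : PK μ) (A : Matrix V I ℝ) {D : ℝ} (hD : 0 < D)
    (h : K4S μ (A * Aᵀ) (A * Aᵀ) ≤ D) {lam : ℝ} (hl : 0 ≤ lam) :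
    (gau I).real {g | lam * D ≤ K4 μ (A *ᵥ g) (A *ᵥ g) (A *ᵥ g) (A *ᵥ g)}
      ≤ 3 / Real.cosh (√lam / 10) := by
  set X : (I → ℝ) → ℝ := fun g => K4 μ (A *ᵥ g) (A *ᵥ g) (A *ᵥ g) (A *ᵥ g) with hX
  have hXm : Measurable X := (K4_meas hμ he hK).comp (H552.meas_mulVec A)
  set S : Set (I → ℝ) := {g | lam * D ≤ X g} with hS
  have hSm : MeasurableSet S := measurableSet_le measurable_const hXm
  set P : ℝ := (gau I).real S with hP
  have hP0 : 0 ≤ P := measureReal_nonneg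
  -- each moment
  have hmom : ∀ p : ℕ, (√lam / 10) ^ (2 * p) / (2 * p).factorial * P ≤ 3 / 2 * (12 / 25) ^ p := by
    intro p
    obtain ⟨i1, b1⟩ := K4_mom hμ he hK A hD h p
    have h1 : (lam * D) ^ p * P ≤ 3 / 2 * (2 * p).factorial * (48 * D) ^ p := by
      refine le_trans ?_ b1
      have h2 : (lam * D) ^ p * P = ∫ g, S.indicator (fun _ => (lam * D) ^ p) g ∂(gau I) := by
        rw [integral_indicator hSm, setIntegral_const, smul_eq_mul, mul_comm]
      rw [h2]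
      refine integral_mono ((integrable_const _).indicator hSm) i1 fun g => ?_
      by_cases hg : g ∈ S
      · rw [Set.indicator_of_mem hg]
        exact pow_le_pow_left₀ (by positivity) hg p
      · rw [Set.indicator_of_notMem hg]
        exact pow_nonneg (K4_diag_nonneg hμ he hK _) p
    have h3 : (√lam / 10) ^ (2 * p) = lam ^ p / 100 ^ p := by
      rw [pow_mul, div_pow, Real.sq_sqrt hl, div_pow]
      norm_num
    rw [h3]
    have hDp : 0 < D ^ p := pow_pos hD p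
    rw [mul_pow, mul_pow] at h1
    have h4 : lam ^ p * P ≤ 3 / 2 * (2 * p).factorial * 48 ^ p := by
      have : D ^ p * (lam ^ p * P) ≤ D ^ p * (3 / 2 * (2 * p).factorial * 48 ^ p) := by
        nlinarith
      exact le_of_mul_le_mul_left this hDp
    have h5 : (12 / 25 : ℝ) ^ p = 48 ^ p / 100 ^ p := by rw [← div_pow]; norm_num
    rw [h5]
    have hf : (0 : ℝ) < (2 * p).factorial := by positivity
    have h6 : lam ^ p / 100 ^ p / (2 * p).factorial * P = (lam ^ p * P) /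
        (100 ^ p * (2 * p).factorial) := by field_simp
    have h7 : 3 / 2 * ((48 : ℝ) ^ p / 100 ^ p) = (3 / 2 * (2 * p).factorial * 48 ^ p) /
        (100 ^ p * (2 * p).factorial) := by field_simp
    rw [h6, h7]
    gcongr
  have hc : HasSum (fun p : ℕ => (√lam / 10) ^ (2 * p) / (2 * p).factorial * P)
      (Real.cosh (√lam / 10) * P) := (Real.hasSum_cosh _).mul_right P
  have hg : HasSum (fun p : ℕ => 3 / 2 * (12 / 25 : ℝ) ^ p) (3 / 2 * (1 - 12 / 25)⁻¹) :=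
    (hasSum_geometric_of_lt_one (by norm_num) (by norm_num)).mul_left _
  have h8 := hasSum_le hmom hc hg
  rw [le_div_iff₀ (Real.cosh_pos _)]
  have h9 : (3 : ℝ) / 2 * (1 - 12 / 25)⁻¹ ≤ 3 := by norm_num
  linarith

/-- exponential form of the tail -/
theorem K4_tail_exp (hμ : EM μ) (he : Ev μ) (hK : PK μ) (A : Matrix V I ℝ) {D : ℝ} (hD : 0 < D)
    (h : K4S μ (A * Aᵀ) (A * Aᵀ) ≤ D) {lam : ℝ} (hl : 0 ≤ lam) :
    (gau I).real {g | lam * D ≤ K4 μ (A *ᵥ g) (A *ᵥ g) (A *ᵥ g) (A *ᵥ g)}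
      ≤ 6 * Real.exp (-(√lam / 10)) := by
  refine (K4_tail hμ he hK A hD h hl).trans ?_
  rw [div_le_iff₀ (Real.cosh_pos _), Real.cosh_eq]
  have h1 := Real.exp_pos (√lam / 10)
  have h2 := Real.exp_pos (-(√lam / 10))
  have h3 : Real.exp (-(√lam / 10)) * Real.exp (√lam / 10) = 1 := by
    rw [← Real.exp_add, neg_add_cancel, Real.exp_zero]
  nlinarith [mul_pos h2 h2]

/-- **tail of `R` along a Gaussian source**, on the set where `R(2ⁿ F) ≤ 1` -/
theorem Rs_tail (hμ : EM μ) (he : Ev μ) (hK : PK μ) (A : Matrix V I ℝ) {D : ℝ} (hD : 0 < D)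
    (h : K4S μ (A * Aᵀ) (A * Aᵀ) ≤ D) (n : ℕ) {lam : ℝ} (hl : 0 ≤ lam) :
    (gau I).real {g | Rs μ ((2 : ℝ) ^ n • (A *ᵥ g)) ≤ 1 ∧
        8 * √(lam * D / 2) ^ (2 - 2 * (1 / 2 : ℝ) ^ n) < Rs μ (A *ᵥ g)}
      ≤ 6 * Real.exp (-(√lam / 10)) := by
  refine le_trans ?_ (K4_tail_exp hμ he hK A hD h hl)
  refine measureReal_mono ?_
  intro g hg
  obtain ⟨h1, h2⟩ := hg
  simp only [Set.mem_setOf_eq]
  by_contra h3
  push Not at h3
  have h4 := H789.Rs_closure hμ he hK (A *ᵥ g) n h1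
  have h5 : √(K4 μ (A *ᵥ g) (A *ᵥ g) (A *ᵥ g) (A *ᵥ g) / 2) ≤ √(lam * D / 2) :=
    Real.sqrt_le_sqrt (by linarith)
  have h6 : (0 : ℝ) ≤ 2 - 2 * (1 / 2 : ℝ) ^ n := by
    have : (1 / 2 : ℝ) ^ n ≤ 1 := pow_le_one₀ (by norm_num) (by norm_num)
    linarith
  have h7 := Real.rpow_le_rpow (Real.sqrt_nonneg _) h5 h6
  linarith

end

end Vale.Agent.P159.H447
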