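import Vale.Agent.P159.H447.Cg4
import Vale.Agent.P159.H586.Fern1

/-!
P159 / module CONTRG, part 5 (helper447): complements in Gaussian letters.

* `Maj.bump_u` : the direction form with the hypothesis `c u uᵀ ≤ Γ'`.
* `Maj.trace_size` : `0 ≤ E tr (S N(F)) ≤ cl n (128 λ D) + 24 q √β`, `0 ≤ S ≤ Γ'`.
* `Maj.RT_prob` : tail of `Rs` and `T` along a Gaussian source.
* `K4S_superadd` : `∑ K4S(P_i, P_i) ≤ K4S(∑ P_i, ∑ P_i)` for positive semidefinite `P_i`.
* `Maj.AP_prob`, `Maj.AP_p` : the a-priori probability from blocks.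
-/

namespace Vale.Agent.P159.H447

open Finset Matrix MeasureTheory ProbabilityTheory
open Vale.Agent.P159.TM.H104 (EM Ex Cv K3 Lg li nh Gr)
open Vale.Agent.P159.H37
open Vale.Agent.P159.H159 (GT egr_lin egr_coord egr_sum egr_Rs egr_mn egr_Cm egr_qf)
open Vale.Agent.P159.H239 (Dom2 Dom Met TR ray rayk rhs)

noncomputable section

variable {V : Type} [Fintype V] {μ : (V → ℤ) → ℝ} {Bm : Matrix V V ℝ}
variable {I J K : Type*} [Fintype I] [Fintype J] [Fintype K]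

/-- **superadditivity of `K4S` on positive semidefinite matrices** -/
theorem K4S_superadd (hμ : EM μ) (he : Ev μ) (hK : PK μ) {ι : Type*} (s : Finset ι)
    (P : ι → Matrix V V ℝ) (hP : ∀ i ∈ s, (P i).PosSemidef) :
    ∑ i ∈ s, K4S μ (P i) (P i) ≤ K4S μ (∑ i ∈ s, P i) (∑ i ∈ s, P i) := by
  classical
  have h0 : ∀ i ∈ s, ∀ j ∈ s, 0 ≤ K4S μ (P i) (P j) := by
    intro i hi j hj
    obtain ⟨A, hA⟩ := H239.exists_increment (hP i hi)
    obtain ⟨B, hB⟩ := H239.exists_increment (hP j hj)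
    have h1 := K4S_gram_nonneg hμ he hK Aᵀ Bᵀ
    rwa [Matrix.transpose_transpose, Matrix.transpose_transpose, ← hA, ← hB] at h1
  rw [K4S_sum_left hμ]
  refine Finset.sum_le_sum fun i hi => ?_
  rw [K4S_sum_right hμ]
  exact Finset.single_le_sum (f := fun j => K4S μ (P i) (P j)) (fun j hj => h0 i hi j hj) hi

namespace Maj

variable (h : Maj μ Bm)
include h

/-- **tail of `Rs` and `T` along a Gaussian source** -/
theorem RT_prob (A : Matrix V I ℝ) {D : ℝ} (hD : 0 < D) (hK : K4S μ (A * Aᵀ) (A * Aᵀ) ≤ D)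
    (n : ℕ) {lam : ℝ} (hl : 0 ≤ lam) {p : ℝ}
    (hp : (gau I).real {g | 1 < Rs μ ((2 : ℝ) ^ (n + 1) • (A *ᵥ g))} ≤ p) :
    (gau I).real {g | ¬ (Rs μ (A *ᵥ g) ≤ cl n (8 * (lam * D)) ∧
      Tq μ (A *ᵥ g) ≤ cl n (8 * (lam * D)))} ≤ p + 6 * Real.exp (-(√lam / 10)) := by
  refine le_trans (measureReal_mono fun g hg => ?_) (h.Gs_prob A hD hK n hl hp)
  intro hmem
  obtain ⟨-, h2, h3⟩ := h.Gs_good hmem
  refine hg ⟨h2, ?_⟩
  rw [H789.Tq_eq]
  exact h3

/-! ### direction form -/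

section dir

variable {A' : Matrix V I ℝ} {A'' : Matrix V J ℝ} {H : Matrix V K ℝ} {ε : ℝ}

/-- **direction form** with the hypothesis `c u uᵀ ≤ Γ'` -/
theorem bump_u {u : V → ℝ} {c : ℝ} (hc : 0 < c)
    (hu : (A' * A'ᵀ - c • vecMulVec u u).PosSemidef)
    (hA'' : A'' * A''ᵀ = A' * A'ᵀ + H * Hᵀ) (hε0 : 0 < ε) (hε1 : ε ≤ 1)
    (hH : (ε • (A' * A'ᵀ) - H * Hᵀ).PosSemidef)
    {n : ℕ} {D lam p β q : ℝ} (hD : 0 < D) (hl : 0 ≤ lam) (hq : 0 < q) (hβ1 : β ≤ 1)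
    (hKD : K4S μ (A' * A'ᵀ) (A' * A'ᵀ) ≤ D)
    (hra : 8 * (8 * (lam * D)) ^ (1 - (1 / 2 : ℝ) ^ n) ≤ 1)
    (hp : (gau I).real {g | 1 < Rs μ ((2 : ℝ) ^ (n + 1) • (A' *ᵥ g))} ≤ p)
    (hβ : 2 * p + 6 * Real.exp (-(√lam / 10)) ≤ β) (hqA : pr Bm (A' * A'ᵀ) ≤ q) :
    |∫ g, qf (NR μ (A'' *ᵥ g)) u ∂(gau J) - ∫ g, qf (NR μ (A' *ᵥ g)) u ∂(gau I)| ≤
      (160 * (8 * (lam * D * ε)) ^ (1 - (1 / 2 : ℝ) ^ n) + 642 * (q * √β)) / c := by
  classical
  obtain ⟨X0, hX0⟩ := H239.exists_increment hu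
  set U : Matrix V Unit ℝ := Matrix.of fun x _ => √c * u x with hU
  have hUU : U * Uᵀ = c • vecMulVec u u := by
    ext x y
    rw [Matrix.mul_apply, Matrix.smul_apply, vecMulVec_apply]
    simp only [hU, Matrix.of_apply, Matrix.transpose_apply, Finset.univ_unique,
      Finset.sum_singleton, smul_eq_mul]
    have := Real.mul_self_sqrt hc.le
    linear_combination (u x * u y) * this
  set Y : Matrix V (Unit ⊕ V) ℝ := fromCols U X0 with hY
  have hYY : Y * Yᵀ = A' * A'ᵀ := by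
    rw [hY, Matrix.transpose_fromCols, Matrix.fromCols_mul_fromRows, hUU, ← hX0]
    abel
  set a : Unit ⊕ V → ℝ := Sum.elim (fun _ => (√c)⁻¹) (0 : V → ℝ) with ha
  have hYa : Y *ᵥ a = u := by
    rw [hY, ha, Matrix.fromCols_mulVec_sumElim, Matrix.mulVec_zero, add_zero]
    funext x
    simp only [hU, Matrix.mulVec, dotProduct, Matrix.of_apply, Finset.univ_unique,
      Finset.sum_singleton]
    have : √c ≠ 0 := (Real.sqrt_pos.2 hc).ne'
    field_simp
  have haa : ∑ i, a i ^ 2 ≤ 1 / c := by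
    rw [Fintype.sum_sum_type]
    simp only [ha, Sum.elim_inl, Sum.elim_inr, Pi.zero_apply, Finset.univ_unique,
      Finset.sum_singleton, inv_pow, Real.sq_sqrt hc.le]
    simp
  have key := h.bump_eps (A' := Y) (A'' := A'') (H := H) (ε := ε) a (by rw [hYY]; exact hA'') hε0
    hε1 (by rw [hYY]; exact hH) (n := n) (D := D) (lam := lam) (p := p) (β := β) (q := q)
    (α := 1 / c) hD hl hq hβ1 (by positivity) haa (by rw [hYY]; exact hKD) hra
    ((le_of_eq (law_real hYY (h.U_meas _))).trans hp) hβ (by rw [hYY]; exact hqA)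
  have hN := (egr_qfN (C2.Rs h.em h.gt).e2 u).meas.stronglyMeasurable
  rw [hYa, H363.law_integral_eq Y A' hYY (fun F => qf (NR μ F) u) hN] at key
  refine key.trans (le_of_eq ?_)
  ring

end dir

/-! ### sizes -/

theorem NR_nonneg (F u : V → ℝ) : 0 ≤ qf (NR μ F) u := by
  have h1 := H789.qf_mono h.em h.ev h.pk F u
  have h2 : qf (NR μ F) u = qf (Cm μ F) u - qf (Gm μ) u := by
    unfold NR qf
    rw [← Finset.sum_sub_distrib]
    refine Finset.sum_congr rfl fun x _ => ?_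
    rw [← Finset.sum_sub_distrib]
    refine Finset.sum_congr rfl fun y _ => ?_
    rw [Matrix.sub_apply]
    ring
  rw [h2]
  linarith

theorem pr_NR_nonneg (F : V → ℝ) {S : Matrix V V ℝ} (hS : S.PosSemidef) : 0 ≤ pr (NR μ F) S := by
  classical
  obtain ⟨C, hC⟩ := H239.exists_increment hS
  rw [hC]
  exact pr_gram_nonneg (h.NR_nonneg F) C

theorem size_XZ {X Z : Matrix V I ℝ} (hXZ : X * Zᵀ = 0) {n : ℕ} {D lam p β q : ℝ}
    (hD : 0 < D) (hl : 0 ≤ lam) (hq : 0 < q)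
    (hKD : K4S μ ((X + Z) * (X + Z)ᵀ) ((X + Z) * (X + Z)ᵀ) ≤ D)
    (hp : (gau I).real {g | 1 < Rs μ ((2 : ℝ) ^ (n + 2) • ((X + Z) *ᵥ g))} ≤ p)
    (hβ : 2 * p + 6 * Real.exp (-(√lam / 10)) ≤ β)
    (hqA : pr Bm ((X + Z) * (X + Z)ᵀ) ≤ q) :
    ∫ g, pr (NR μ ((X + Z) *ᵥ g)) (Z * Zᵀ) ∂(gau I) ≤
      cl n (128 * (lam * D)) + 24 * (q * √β) := by
  set Q : (V → ℝ) → ℝ := fun J => qf Bm J / 2 with hQ
  have hdom : Dom2 (Rs μ) Q := h.dom
  have hQ0 : ∀ F, 0 ≤ Q F := fun F => hdom.toDom.Q_nonneg F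
  have mx : Measurable fun g : I → ℝ => X *ᵥ g := H552.meas_mulVec X
  have mz : Measurable fun g : I → ℝ => Z *ᵥ g := H552.meas_mulVec Z
  have hcv := hdom.ray_convex (P := gau I) (H789.Rs_convex h.em h.ev h.pk) mx mz
    (Q_int Bm X) (Q_int Bm Z)
  have hd := h.d_ray hXZ
  have h1 := hcv.le_slope_of_hasDerivAt (Set.mem_univ 1) (Set.mem_univ 2) (by norm_num) hd
  rw [slope_def_field] at h1
  have h2 : (2 : ℝ) - 1 = 1 := by norm_num
  rw [h2, div_one] at h1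
  have h3 : 0 ≤ ray (gau I) (Rs μ) (fun g => X *ᵥ g) (fun g => Z *ᵥ g) 1 := by
    unfold ray
    exact integral_nonneg fun g => h.Rs_nonneg _
  have h4 : ray (gau I) (Rs μ) (fun g => X *ᵥ g) (fun g => Z *ᵥ g) 2 ≤
      cl n (128 * (lam * D)) + 24 * (q * √β) := by
    unfold ray
    simp only [← C2.ray_mulVec]
    set Y : Matrix V I ℝ := X + (2 : ℝ) • Z with hY
    have hYp : (((2 : ℝ) ^ 2) • ((X + Z) * (X + Z)ᵀ) - Y * Yᵀ).PosSemidef :=
      psd_ray hXZ (by norm_num) le_rfl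
    have hKY : K4S μ (Y * Yᵀ) (Y * Yᵀ) ≤ 16 * D := by
      have h5 := K4S_psd h.em h.ev h.pk (psd_gram Y) hYp
      rw [K4S_smul2] at h5
      nlinarith
    have hPr := h.prob4 hYp (D := 16 * D) (by positivity) hl hKY hp
    have hPβ : (gau I).real {g | Y *ᵥ g ∉ Gs μ n (lam * (16 * D))} ≤ β := hPr.trans hβ
    have hpr : pr Bm (Y * Yᵀ) ≤ 4 * q := by
      have h5 := pr_psd h.qf_nonneg hYp
      rw [pr_smul] at h5
      linarith
    have mY : MeasurableSet {g : I → ℝ | Y *ᵥ g ∈ Gs μ n (lam * (16 * D))} :=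
      (h.Gs_meas n _).preimage (H552.meas_mulVec Y)
    have iR : Integrable (fun g : I → ℝ => Rs μ (Y *ᵥ g)) (gau I) :=
      int_egr (egr_mat (egr_Rs h.em h.gt) Y)
    rw [← integral_add_compl mY iR]
    have e16 : 8 * (lam * (16 * D)) = 128 * (lam * D) := by ring
    refine add_le_add ?_ ?_
    · refine (setIntegral_mono_on iR.integrableOn
        (integrable_const (cl n (128 * (lam * D)))).integrableOn mY fun g hg => ?_).trans ?_
      · obtain ⟨-, h6, -⟩ := h.Gs_good hg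
        rwa [e16] at h6
      · rw [setIntegral_const, smul_eq_mul]
        have h7 : (gau I).real {g : I → ℝ | Y *ᵥ g ∈ Gs μ n (lam * (16 * D))} ≤ 1 :=
          measureReal_le_one
        have h8 := cl_nonneg n (128 * (lam * D))
        nlinarith
    · refine (setIntegral_mono iR.integrableOn (Q_int Bm Y).integrableOn fun g => h.le _).trans ?_
      have h9 := h.Q_set Y (q := 4 * q) (by linarith) hpr mY.compl hPβ
      refine h9.trans (le_of_eq ?_)
      ring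
  linarith

/-- **size of the mean excess covariance**, trace form -/
theorem trace_size {A' : Matrix V I ℝ} {S : Matrix V V ℝ} (hS : S.PosSemidef)
    (hSA : (A' * A'ᵀ - S).PosSemidef) {n : ℕ} {D lam p β q : ℝ}
    (hD : 0 < D) (hl : 0 ≤ lam) (hq : 0 < q) (hKD : K4S μ (A' * A'ᵀ) (A' * A'ᵀ) ≤ D)
    (hp : (gau I).real {g | 1 < Rs μ ((2 : ℝ) ^ (n + 2) • (A' *ᵥ g))} ≤ p)
    (hβ : 2 * p + 6 * Real.exp (-(√lam / 10)) ≤ β) (hqA : pr Bm (A' * A'ᵀ) ≤ q) :
    0 ≤ ∫ g, pr (NR μ (A' *ᵥ g)) S ∂(gau I) ∧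
    ∫ g, pr (NR μ (A' *ᵥ g)) S ∂(gau I) ≤ cl n (128 * (lam * D)) + 24 * (q * √β) := by
  classical
  refine ⟨integral_nonneg fun g => h.pr_NR_nonneg _ hS, ?_⟩
  obtain ⟨X0, hX0⟩ := H239.exists_increment hSA
  obtain ⟨Z0, hZ0⟩ := H239.exists_increment hS
  set X : Matrix V (V ⊕ V) ℝ := fromCols X0 (0 : Matrix V V ℝ) with hX
  set Z : Matrix V (V ⊕ V) ℝ := fromCols (0 : Matrix V V ℝ) Z0 with hZ
  have hXZ : X * Zᵀ = 0 := by
    rw [hX, hZ, Matrix.transpose_fromCols, Matrix.fromCols_mul_fromRows, Matrix.transpose_zero,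
      Matrix.mul_zero, Matrix.zero_mul, add_zero]
  have hXX : X * Xᵀ = A' * A'ᵀ - S := by
    rw [hX, Matrix.transpose_fromCols, Matrix.fromCols_mul_fromRows, Matrix.transpose_zero,
      Matrix.mul_zero, add_zero, ← hX0]
  have hZZ : Z * Zᵀ = S := by
    rw [hZ, Matrix.transpose_fromCols, Matrix.fromCols_mul_fromRows, Matrix.transpose_zero,
      Matrix.mul_zero, zero_add, ← hZ0]
  have hY : (X + Z) * (X + Z)ᵀ = A' * A'ᵀ := by
    have h1 := cov_ray hXZ 1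
    rw [one_smul, one_pow, one_smul, hXX, hZZ, sub_add_cancel] at h1
    exact h1
  have hN := (egr_pr (C2.Rs h.em h.gt).e2 S).meas.stronglyMeasurable
  have h1 := h.size_XZ hXZ (n := n) (D := D) (lam := lam) (p := p) (β := β) (q := q) hD hl hq
    (by rw [hY]; exact hKD) ((le_of_eq (law_real hY (h.U_meas _))).trans hp) hβ
    (by rw [hY]; exact hqA)
  rwa [hZZ, H363.law_integral_eq (X + Z) A' hY (fun F => pr (NR μ F) S) hN] at h1

/-- **size**, direction form -/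
theorem bump_size {A' : Matrix V I ℝ} {u : V → ℝ} {c : ℝ} (hc : 0 < c)
    (hu : (A' * A'ᵀ - c • vecMulVec u u).PosSemidef) {n : ℕ} {D lam p β q : ℝ}
    (hD : 0 < D) (hl : 0 ≤ lam) (hq : 0 < q) (hKD : K4S μ (A' * A'ᵀ) (A' * A'ᵀ) ≤ D)
    (hp : (gau I).real {g | 1 < Rs μ ((2 : ℝ) ^ (n + 2) • (A' *ᵥ g))} ≤ p)
    (hβ : 2 * p + 6 * Real.exp (-(√lam / 10)) ≤ β) (hqA : pr Bm (A' * A'ᵀ) ≤ q) :
    0 ≤ ∫ g, qf (NR μ (A' *ᵥ g)) u ∂(gau I) ∧
    ∫ g, qf (NR μ (A' *ᵥ g)) u ∂(gau I) ≤ (cl n (128 * (lam * D)) + 24 * (q * √β)) / c := by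
  refine ⟨integral_nonneg fun g => h.NR_nonneg _ _, ?_⟩
  have hS : (c • vecMulVec u u).PosSemidef := by
    have h1 := Matrix.posSemidef_vecMulVec_self_star u
    rw [star_trivial] at h1
    exact h1.smul hc.le
  have h1 := (h.trace_size hS hu (n := n) (D := D) (lam := lam) (p := p) (β := β) (q := q) hD hl
    hq hKD hp hβ hqA).2
  simp only [pr_smul, pr_rank] at h1
  rw [integral_const_mul] at h1
  rw [le_div_iff₀ hc]
  linarith

/-! ### the a-priori probability from blocks -/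

/-- **AP for a sum of blocks** -/
theorem AP_prob {ι : Type*} (s : Finset ι) (B : ι → Matrix V K ℝ) {X a Y : ℝ} (ha : 1 ≤ a)
    (hY : 0 ≤ Y) (hX : a * (s.card * Y) ≤ X)
    (hB : ∀ i ∈ s, (gau K).real {g | 1 < Rs μ (X • (B i *ᵥ g))} ≤ 1 / 30) :
    (gau K).real {g | 1 < Rs μ (Y • ((∑ i ∈ s, B i) *ᵥ g))} ≤
      s.card * Real.exp (-(a ^ 2 / 7)) := by
  classical
  have ha0 : 0 < a := by linarith
  rcases s.eq_empty_or_nonempty with hs | hs
  · subst hs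
    have e : {g : K → ℝ | 1 < Rs μ (Y • ((∑ i ∈ (∅ : Finset ι), B i) *ᵥ g))} = ∅ := by
      ext g
      simp only [Finset.sum_empty, Matrix.zero_mulVec, smul_zero, H789.Rs_zero,
        Set.mem_ofPred_eq, Set.mem_empty_iff_false, iff_false, not_lt]
      exact zero_le_one
    rw [e, measureReal_empty]
    simp
  · have hsub : {g : K → ℝ | 1 < Rs μ (Y • ((∑ i ∈ s, B i) *ᵥ g))} ⊆
        ⋃ i ∈ s, {g | 1 < Rs μ ((s.card * Y : ℝ) • (B i *ᵥ g))} := by
      intro g hg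
      simp only [Set.mem_iUnion, Set.mem_ofPred_eq]
      by_contra hc
      push Not at hc
      have h1 := H586.blocks_Rs h.em h.ev h.pk (r := 1) zero_le_one s (m := (s.card : ℝ))
        (by exact_mod_cast hs.card_pos) le_rfl (χ := fun _ => 1) (fun _ _ => zero_le_one)
        (fun _ _ => le_rfl) (fun i => Y • (B i *ᵥ g)) (fun i hi => by
          rw [smul_smul]
          exact hc i hi)
      simp only [one_smul] at h1
      have e : Y • ((∑ i ∈ s, B i) *ᵥ g) = ∑ i ∈ s, Y • (B i *ᵥ g) := by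
        rw [Matrix.sum_mulVec, Finset.smul_sum]
      rw [Set.mem_ofPred_eq, e] at hg
      linarith
    refine (measureReal_mono hsub (measure_ne_top _ _)).trans
      ((measureReal_biUnion_finset_le s _).trans ?_)
    have h2 : ∀ i ∈ s, (gau K).real {g | 1 < Rs μ ((s.card * Y : ℝ) • (B i *ᵥ g))} ≤
        Real.exp (-(a ^ 2 / 7)) := by
      intro i hi
      have h3 := H586.fern_Rs h.em h.ev h.pk (X • B i) (r := 1) (by
        simp only [Matrix.smul_mulVec]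
        exact hB i hi) ha
      refine le_trans (measureReal_mono fun g hg => ?_) h3
      simp only [Set.mem_ofPred_eq, Matrix.smul_mulVec, smul_smul] at hg ⊢
      refine hg.trans_le (H789.Rs_ray_mono h.em h.ev h.pk _ (by positivity) ?_)
      rw [inv_mul_eq_div, le_div_iff₀ ha0]
      linarith
    refine (Finset.sum_le_sum h2).trans (le_of_eq ?_)
    rw [Finset.sum_const, nsmul_eq_mul]

/-- **AP for a covariance below the sum of the blocks** -/
theorem AP_p {ι : Type*} (s : Finset ι) (B : ι → Matrix V K ℝ) {A : Matrix V I ℝ}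
    {X a Y κ : ℝ} (ha : 1 ≤ a) (hY : 0 ≤ Y) (hκ : 0 ≤ κ) (hX : a * (s.card * (Y * κ)) ≤ X)
    (hA : ((κ ^ 2) • ((∑ i ∈ s, B i) * (∑ i ∈ s, B i)ᵀ) - A * Aᵀ).PosSemidef)
    (hB : ∀ i ∈ s, (gau K).real {g | 1 < Rs μ (X • (B i *ᵥ g))} ≤ 1 / 30) :
    (gau I).real {g | 1 < Rs μ (Y • (A *ᵥ g))} ≤ 2 * (s.card * Real.exp (-(a ^ 2 / 7))) := by
  refine (h.prob_psd Y κ hA 1).trans ?_
  have h1 := h.AP_prob s B ha (mul_nonneg hY hκ) hX hB
  linarith

end Maj

end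

end Vale.Agent.P159.H447
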