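import Vale.Agent.P159.H447.WinN
import Vale.Agent.P159.H612.Nearg6

/-!
P159 / module CGT, part 5 (helper447): **numbers of the near part of the D-step**.

* `NumW` : scalar data (torus, cells, boxes, one prior, fourth cumulant `≤ 2 e nb² / T²`);
* `NumW.winH`, `win_pair` : the field `win` of helper612's `NearH` on the windows `bw`;
* `szW_le`, `CtN_le`, `LcN_le`, `dtN_le` : the numbers.
-/

set_option linter.unusedSectionVars false

namespace Vale.Agent.P159.H447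

open Finset Matrix MeasureTheory
open Vale.Agent.P159.TM.H764 (bx)
open Vale.Agent.P159.H37
open Vale.Agent.P159.H159 (pr Ct)
open Vale.Agent.P159.TM.Spec (V)
open Vale.Agent.P159.TM.SpecC (wT)
open Vale.Agent.P159.H963 (nwt nMC obsN Gnc)
open Vale.Agent.P159.H859 (Sgn wc Lw dB dB_tr)
open Vale.Agent.P159.H730 (wN)
open Vale.Agent.P159.H692 (cx card_cx)
open Vale.Agent.P159.H239 (TypE)
open Vale.Agent.P159.H612 (szW LcN LwN CtN dtN Wsep bxp PUH NearH)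

noncomputable section

/-! ### constants -/

/-- logarithm of the number of cells -/
def LN (N l : ℕ) : ℝ := 1 + Real.log ((N / l : ℕ) : ℝ)

/-- loss of a box of `W` boxes -/
def wcB (b : ℝ) (W : ℕ) (L : ℝ) : ℝ := 289 * (1 + b) ^ 2 * (W : ℝ) ^ 4 * L

/-- loss of a window -/
def kwB (b : ℝ) (W : ℕ) (L : ℝ) : ℝ := 5780 * (1 + b) ^ 2 * (W : ℝ) ^ 6 * L

/-- fourth cumulant of a window -/
def DB (b : ℝ) (W : ℕ) (L e : ℝ) : ℝ := 8 * (W : ℝ) ^ 2 * kwB b W L ^ 2 * e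

/-- majorant of a window -/
def qB (b : ℝ) (W m : ℕ) (L : ℝ) : ℝ := 4 * (W : ℝ) ^ 2 * (m : ℝ) ^ 2 * kwB b W L

/-- the polylogarithmic factor -/
def ThB (b : ℝ) (W : ℕ) (L lam : ℝ) : ℝ := 10 ^ 17 * (1 + b) ^ 6 * (W : ℝ) ^ 18 * L ^ 3 * lam

section cst

variable {b L lam e μ : ℝ} {W : ℕ}

lemma mono_pow {B w L : ℝ} (hB : 1 ≤ B) (hw : 1 ≤ w) (hL : 1 ≤ L) {i j i' j' k k' : ℕ}
    (hi : i ≤ i') (hj : j ≤ j') (hk : k ≤ k') :
    B ^ i * w ^ j * L ^ k ≤ B ^ i' * w ^ j' * L ^ k' := by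
  have h1 := pow_le_pow_right₀ hB hi
  have h2 := pow_le_pow_right₀ hw hj
  have h3 := pow_le_pow_right₀ hL hk
  have hB0 : 0 < B := by linarith
  have hw0 : 0 < w := by linarith
  have hL0 : 0 < L := by linarith
  gcongr

lemma wcB_pos (hb : 0 < b) (hW : 1 ≤ W) (hL : 1 ≤ L) : 0 < wcB b W L := by
  unfold wcB
  have : (0 : ℝ) < W := by exact_mod_cast hW
  positivity

lemma kwB_pos (hb : 0 < b) (hW : 1 ≤ W) (hL : 1 ≤ L) : 0 < kwB b W L := by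
  unfold kwB
  have : (0 : ℝ) < W := by exact_mod_cast hW
  positivity

lemma DB_pos (hb : 0 < b) (hW : 1 ≤ W) (hL : 1 ≤ L) (he : 0 < e) : 0 < DB b W L e := by
  unfold DB
  have : (0 : ℝ) < W := by exact_mod_cast hW
  have := kwB_pos hb hW hL
  positivity

lemma qB_pos (hb : 0 < b) (hW : 1 ≤ W) (hL : 1 ≤ L) {m : ℕ} (hm : 0 < m) : 0 < qB b W m L := by
  unfold qB
  have : (0 : ℝ) < W := by exact_mod_cast hW
  have : (0 : ℝ) < m := by exact_mod_cast hm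
  have := kwB_pos hb hW hL
  positivity

/-- the window number times `lam` -/
lemma lamD : lam * DB b W L e ≤ 267267200 * ((1 + b) ^ 4 * (W : ℝ) ^ 14 * L ^ 2) * lam * e := by
  unfold DB kwB
  apply le_of_eq
  ring

lemma ThB_ge (hb : 0 < b) (hW : 1 ≤ W) (hL : 1 ≤ L) (hlam : 1 ≤ lam) {i j k : ℕ} (hi : i ≤ 6)
    (hj : j ≤ 18) (hk : k ≤ 3) {c : ℝ} (_hc0 : 0 ≤ c) (hc : c ≤ 10 ^ 17) :
    c * ((1 + b) ^ i * (W : ℝ) ^ j * L ^ k) * lam ≤ ThB b W L lam := by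
  have hW' : (1 : ℝ) ≤ W := by exact_mod_cast hW
  have h1 := mono_pow (B := 1 + b) (w := (W : ℝ)) (L := L) (by linarith) hW' hL hi hj hk
  unfold ThB
  have h2 : 0 ≤ (1 + b) ^ i * (W : ℝ) ^ j * L ^ k := by positivity
  calc c * ((1 + b) ^ i * (W : ℝ) ^ j * L ^ k) * lam
      ≤ 10 ^ 17 * ((1 + b) ^ 6 * (W : ℝ) ^ 18 * L ^ 3) * lam := by gcongr
    _ = _ := by ring

lemma ThB_one (hb : 0 < b) (hW : 1 ≤ W) (hL : 1 ≤ L) (hlam : 1 ≤ lam) : 1 ≤ ThB b W L lam := by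
  have h := ThB_ge hb hW hL hlam (i := 0) (j := 0) (k := 0) (by norm_num) (by norm_num)
    (by norm_num) (c := 1) (by norm_num) (by norm_num)
  simp only [pow_zero, mul_one, one_mul] at h
  linarith

/-- `X ≤ c y`, `1 ≤ c`: `X ^ x ≤ c y ^ x` -/
lemma pow_lin {X c y x : ℝ} (hX : 0 ≤ X) (h : X ≤ c * y) (hc : 1 ≤ c) (hy : 0 ≤ y) (hx : 0 ≤ x)
    (hx1 : x ≤ 1) : X ^ x ≤ c * y ^ x := by
  calc X ^ x ≤ (c * y) ^ x := Real.rpow_le_rpow hX h hx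
    _ = c ^ x * y ^ x := Real.mul_rpow (by linarith) hy
    _ ≤ c ^ (1 : ℝ) * y ^ x := by
        refine mul_le_mul_of_nonneg_right (Real.rpow_le_rpow_of_exponent_le hc hx1)
          (Real.rpow_nonneg hy x)
    _ = c * y ^ x := by rw [Real.rpow_one]

lemma xJ0 (J : ℕ) : (0 : ℝ) ≤ 1 - (1 / 2 : ℝ) ^ J := by
  have : (1 / 2 : ℝ) ^ J ≤ 1 := pow_le_one₀ (by norm_num) (by norm_num)
  linarith

lemma xJ1 (J : ℕ) : 1 - (1 / 2 : ℝ) ^ J ≤ 1 := by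
  have : (0 : ℝ) < (1 / 2 : ℝ) ^ J := by positivity
  linarith

lemma xJ2 {J : ℕ} (hJ : 1 ≤ J) : (1 / 2 : ℝ) ≤ 1 - (1 / 2 : ℝ) ^ J := by
  have h : (1 / 2 : ℝ) ^ J ≤ (1 / 2 : ℝ) ^ 1 := pow_le_pow_of_le_one (by norm_num) (by norm_num) hJ
  linarith

end cst

/-! ### scalar data -/

section num

variable {N l nb m : ℕ} [NeZero N] [NeZero (N / l)] [NeZero nb] [NeZero m]
variable {b T s a c μ e lam p β Y ρ₁ p₁ : ℝ} {W J : ℕ}

/-- the scalar data: torus `N`, cells `l`, boxes of `m` cells, window radius `W` boxes, posterior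
mass `T`, prior mass `s`, `μ = M⁻²`, per block cumulant `e` -/
structure NumW (N l nb m W : ℕ) [NeZero N] [NeZero (N / l)] (b T s μ e : ℝ) : Prop where
  b0 : 0 < b
  dl : l ∣ N
  hn : N / l = nb * m
  W1 : 1 ≤ W
  T0 : 0 < T
  T4 : T * ((m : ℝ) * l) ^ 2 ≤ 4
  s0 : 0 < s
  sN : 1 ≤ s * (N : ℝ) ^ 2
  sμ : s ≤ 4 * (μ * T)
  μ0 : 0 < μ
  μ8 : 8 * μ ≤ 1
  e0 : 0 < e
  K : T ^ 2 * K4S (nwt N b T 0) (SN N l) (SN N l) ≤ 2 * e * (nb : ℝ) ^ 2

lemma LN_one (hl : NeZero (N / l)) : 1 ≤ LN N l := by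
  unfold LN
  have h1 : (1 : ℝ) ≤ ((N / l : ℕ) : ℝ) := by exact_mod_cast NeZero.pos (N / l)
  have := Real.log_nonneg h1
  linarith

namespace NumW

variable (h : NumW N l nb m W b T s μ e)
include h

lemma L1 : 1 ≤ LN N l := LN_one inferInstance

lemma sT : s ≤ T / 2 := by
  have := h.sμ
  have := h.μ8
  have := h.T0
  nlinarith

/-- **loss of the box** -/
theorem wc_le {ρ : ℕ} (hρ : ρ ≤ W * m) : wc N l ρ b T s ≤ wcB b W (LN N l) := by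
  have hW : (1 : ℝ) ≤ W := by exact_mod_cast h.W1
  have hL := h.L1
  have b0 := h.b0
  have T0 := h.T0
  have hR : (ρ : ℝ) * l ≤ (W : ℝ) * ((m : ℝ) * l) := by
    have h1 : (ρ : ℝ) ≤ (W : ℝ) * m := by exact_mod_cast hρ
    have h2 : (0 : ℝ) ≤ l := Nat.cast_nonneg l
    nlinarith
  have h1 := H859.wc_le (N := N) (l := l) (t := T) b0.le h.s0 hR (NeZero.pos (N / l))
  have h2 : ((W : ℝ) * ((m : ℝ) * l)) ^ 2 * T ≤ 4 * (W : ℝ) ^ 2 := by
    have := mul_le_mul_of_nonneg_left h.T4 (sq_nonneg (W : ℝ))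
    nlinarith
  have h3 : (((W : ℝ) * ((m : ℝ) * l)) ^ 2 * T) ^ 2 ≤ 16 * (W : ℝ) ^ 4 := by
    calc (((W : ℝ) * ((m : ℝ) * l)) ^ 2 * T) ^ 2 ≤ (4 * (W : ℝ) ^ 2) ^ 2 :=
          pow_le_pow_left₀ (by positivity) h2 2
      _ = _ := by ring
  have h4 : b / (s * (N : ℝ) ^ 2) ≤ b := div_le_self b0.le h.sN
  have h5 : b / (s * (N : ℝ) ^ 2) + b ^ 2 * (1 + Real.log ((N / l : ℕ) : ℝ)) ≤
      (b + b ^ 2) * LN N l := by
    unfold LN at hL ⊢
    nlinarith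
  have h6 : 0 ≤ b / (s * (N : ℝ) ^ 2) + b ^ 2 * (1 + Real.log ((N / l : ℕ) : ℝ)) := by
    have := h.s0
    have h7 : 0 ≤ Real.log ((N / l : ℕ) : ℝ) := by
      unfold LN at hL
      linarith
    positivity
  refine h1.trans ?_
  have h7 : 18 * (((W : ℝ) * ((m : ℝ) * l)) ^ 2 * T) ^ 2 *
      (b / (s * (N : ℝ) ^ 2) + b ^ 2 * (1 + Real.log ((N / l : ℕ) : ℝ))) ≤
      18 * (16 * (W : ℝ) ^ 4) * ((b + b ^ 2) * LN N l) := by
    refine mul_le_mul (by linarith) h5 h6 (by positivity)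
  have h8 : (1 : ℝ) ≤ (W : ℝ) ^ 4 * LN N l := by
    have : (1 : ℝ) ≤ (W : ℝ) ^ 4 := one_le_pow₀ hW
    nlinarith
  have h9 : b + b ^ 2 ≤ (1 + b) ^ 2 := by nlinarith
  have h10 : (1 : ℝ) ≤ (1 + b) ^ 2 := by nlinarith
  have h11 : 0 ≤ (W : ℝ) ^ 4 * LN N l := by linarith
  unfold wcB
  have e1 : 18 * (16 * (W : ℝ) ^ 4) * ((b + b ^ 2) * LN N l) =
      288 * (b + b ^ 2) * ((W : ℝ) ^ 4 * LN N l) := by ring
  have e2 : 289 * (1 + b) ^ 2 * (W : ℝ) ^ 4 * LN N l =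
      288 * (1 + b) ^ 2 * ((W : ℝ) ^ 4 * LN N l) + (1 + b) ^ 2 * ((W : ℝ) ^ 4 * LN N l) := by ring
  rw [e2]
  have h12 : 288 * (b + b ^ 2) * ((W : ℝ) ^ 4 * LN N l) ≤
      288 * (1 + b) ^ 2 * ((W : ℝ) ^ 4 * LN N l) :=
    mul_le_mul_of_nonneg_right (by linarith) h11
  have h13 : 1 ≤ (1 + b) ^ 2 * ((W : ℝ) ^ 4 * LN N l) := by nlinarith
  linarith

/-- **loss of the window** -/
theorem kw_le {ρ : ℕ} (hρ : ρ ≤ W * m) {w w₀ : Finset (V (N / l))} (hne : w₀.Nonempty)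
    (hc : (w.card : ℝ) ≤ 4 * (W : ℝ) ^ 2 * w₀.card) :
    kw N l ρ b T s w w₀ ≤ kwB b W (LN N l) := by
  have hW : (1 : ℝ) ≤ W := by exact_mod_cast h.W1
  have h1 := h.wc_le hρ
  have hc0 : (0 : ℝ) < w₀.card := by exact_mod_cast hne.card_pos
  have h2 : 2 * (w.card : ℝ) / w₀.card ≤ 8 * (W : ℝ) ^ 2 := by
    rw [div_le_iff₀ hc0]
    linarith
  have h3 : 2 + 2 * (w.card : ℝ) / w₀.card ≤ 10 * (W : ℝ) ^ 2 := by nlinarith
  have h4 : 0 ≤ 2 + 2 * (w.card : ℝ) / w₀.card := by positivity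
  have h5 := (wcB_pos h.b0 h.W1 h.L1).le
  unfold kw
  calc 2 * wc N l ρ b T s * (2 + 2 * (w.card : ℝ) / w₀.card)
      ≤ 2 * wcB b W (LN N l) * (10 * (W : ℝ) ^ 2) :=
        mul_le_mul (by linarith) h3 h4 (by positivity)
    _ = _ := by
        unfold wcB kwB
        ring

/-- **the window data** -/
theorem winH {w w₀ : Finset (V (N / l))} {ce : V (N / l)} {ρ : ℕ} (hρ : ρ ≤ W * m)
    (hne : w₀.Nonempty) (hw : w ⊆ bx ce ρ) (hw₀ : w₀ ⊆ bx ce ρ)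
    (hc : (w.card : ℝ) ≤ 4 * (W : ℝ) ^ 2 * w₀.card)
    (hc1 : (w.card : ℝ) ≤ 4 * (W : ℝ) ^ 2 * (m : ℝ) ^ 2)
    {I : Type*} [Fintype I] {A : Matrix (V (N / l)) I ℝ} (hA : A * Aᵀ = Sgn N l b T s)
    (hJ : 1 ≤ J) (hlam : 1 ≤ lam) (hΘ : ThB b W (LN N l) lam * e ≤ 1)
    (ht : TypE N l b T s Y ρ₁ p₁) (hY1 : 1 ≤ Y) (hρ₁ : ρ₁ ≤ 1) (hp₁ : p₁ ≤ 1 / 2)
    (hY : (2 : ℝ) ^ (J + 2) * √(2 * kwB b W (LN N l)) ≤ Y)
    (hβ : 100 * (p₁ + Real.exp (-(√lam / 10))) ≤ β) (hβ1 : β ≤ 1) :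
    WinH N l b T s w w₀ ce ρ J A (DB b W (LN N l) e) lam (12 * p₁) β (qB b W m (LN N l)) := by
  have b0 := h.b0
  have T0 := h.T0
  have W1 := h.W1
  have hL := h.L1
  have e0 := h.e0
  have hW : (1 : ℝ) ≤ W := by exact_mod_cast W1
  have hm : (0 : ℝ) < m := by exact_mod_cast NeZero.pos m
  have hnb : (0 : ℝ) < nb := by exact_mod_cast NeZero.pos nb
  have hk := h.kw_le hρ hne hc
  have hk0 := kw_pos (T := T) (w := w) (w₀ := w₀) (ρ := ρ) b0 h.dl h.s0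
  have hkB := kwB_pos (L := LN N l) b0 W1 hL
  have hWg : Wg N l b T w w₀ ce ρ := ⟨b0, h.dl, T0, hne, hw, hw₀⟩
  have p0 := ht.nonneg b0.le h.dl h.s0 (by have := h.sT; linarith)
  have hex := Real.exp_pos (-(√lam / 10))
  refine ⟨hWg, h.s0, h.sT, hA, DB_pos b0 W1 hL e0, by linarith, qB_pos b0 W1 hL (NeZero.pos m),
    hβ1, ?_, ?_, ?_, by linarith, ?_⟩
  · -- fourth cumulant
    have hK0 : 0 ≤ K4S (nwt N b T 0) (SN N l) (SN N l) := by
      have hM := maj_nwt (N := N) b0.le T0 0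
      have e1 : SN N l = (CN N l)ᵀ * ((CN N l)ᵀ)ᵀ := by
        rw [Matrix.transpose_transpose, CN_gram h.dl]
      rw [e1]
      exact K4S_nonneg hM.em hM.ev hM.pk _
    have hn : ((N / l : ℕ) : ℝ) = (nb : ℝ) * m := by
      rw [h.hn]
      push_cast
      ring
    have h1 : (T * kw N l ρ b T s w w₀) ^ 2 ≤ T ^ 2 * kwB b W (LN N l) ^ 2 := by
      rw [mul_pow]
      exact mul_le_mul_of_nonneg_left (pow_le_pow_left₀ hk0.le hk 2) (sq_nonneg _)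
    have h2 : (w.card : ℝ) / ((N / l : ℕ) : ℝ) ^ 2 ≤ 4 * (W : ℝ) ^ 2 / (nb : ℝ) ^ 2 := by
      rw [hn, div_le_div_iff₀ (by positivity) (by positivity)]
      have := mul_le_mul_of_nonneg_right hc1 (sq_nonneg (nb : ℝ))
      nlinarith
    calc (T * kw N l ρ b T s w w₀) ^ 2 * (w.card / ((N / l : ℕ) : ℝ) ^ 2) *
          K4S (nwt N b T 0) (SN N l) (SN N l)
        ≤ (T ^ 2 * kwB b W (LN N l) ^ 2) * (4 * (W : ℝ) ^ 2 / (nb : ℝ) ^ 2) *
          K4S (nwt N b T 0) (SN N l) (SN N l) :=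
          mul_le_mul_of_nonneg_right (mul_le_mul h1 h2 (by positivity) (by positivity)) hK0
      _ = (kwB b W (LN N l) ^ 2 * (4 * (W : ℝ) ^ 2 / (nb : ℝ) ^ 2)) *
          (T ^ 2 * K4S (nwt N b T 0) (SN N l) (SN N l)) := by ring
      _ ≤ (kwB b W (LN N l) ^ 2 * (4 * (W : ℝ) ^ 2 / (nb : ℝ) ^ 2)) * (2 * e * (nb : ℝ) ^ 2) :=
          mul_le_mul_of_nonneg_left h.K (by positivity)
      _ = DB b W (LN N l) e := by
          unfold DB
          field_simp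
          ring
  · -- closure
    have h1 := lamD (b := b) (W := W) (L := LN N l) (lam := lam) (e := e)
    have h2 := ThB_ge b0 W1 hL hlam (i := 4) (j := 14) (k := 2) (by norm_num) (by norm_num)
      (by norm_num) (c := 128 * 64 * 267267200) (by norm_num) (by norm_num)
    have h3 : 128 * (lam * DB b W (LN N l) e) ≤ 1 / 64 := by
      have h4 := mul_le_mul_of_nonneg_right h2 e0.le
      nlinarith
    have h4 : 0 ≤ 128 * (lam * DB b W (LN N l) e) := by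
      have := DB_pos b0 W1 hL e0
      positivity
    have h5 : (128 * (lam * DB b W (LN N l) e)) ^ (1 - (1 / 2 : ℝ) ^ J) ≤
        (1 / 64 : ℝ) ^ (1 / 2 : ℝ) := by
      refine (Real.rpow_le_rpow h4 h3 (xJ0 J)).trans ?_
      exact Real.rpow_le_rpow_of_exponent_ge (by norm_num) (by norm_num) (xJ2 hJ)
    have h6 : (1 / 64 : ℝ) ^ (1 / 2 : ℝ) = 1 / 8 := by
      rw [← Real.sqrt_eq_rpow, Real.sqrt_eq_iff_mul_self_eq (by norm_num) (by norm_num)]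
      norm_num
    rw [h6] at h5
    linarith
  · -- a-priori
    refine ht.win hWg h.s0 h.sT hA (le_trans ?_ hY) hY1 hρ₁ hp₁
    refine mul_le_mul_of_nonneg_left (Real.sqrt_le_sqrt (by linarith)) (by positivity)
  · -- majorant
    have hw0 : (0 : ℝ) ≤ w.card := Nat.cast_nonneg _
    calc kw N l ρ b T s w w₀ * w.card ≤ kwB b W (LN N l) * (4 * (W : ℝ) ^ 2 * (m : ℝ) ^ 2) :=
          mul_le_mul hk hc1 hw0 hkB.le
      _ = _ := by
          unfold qB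
          ring

end NumW

/-- **the field `win` of `NearH`**: windows `bw`, radius `W = Kw + 1` -/
theorem win_pair {K Kw : ℕ} (hK : K + 5 ≤ Kw) (hnb : 2 ≤ nb)
    (ha : NumW N l nb m (Kw + 1) b T a μ e) (hc : NumW N l nb m (Kw + 1) b T c μ e)
    {I I' : Type*} [Fintype I] [Fintype I'] {Aa : Matrix (V (N / l)) I ℝ}
    {Ac : Matrix (V (N / l)) I' ℝ} (ca : Aa * Aaᵀ = Sgn N l b T a)
    (cc : Ac * Acᵀ = Sgn N l b T c)
    (hJ : 1 ≤ J) (hlam : 1 ≤ lam) (hΘ : ThB b (Kw + 1) (LN N l) lam * e ≤ 1)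
    (ta : TypE N l b T a Y ρ₁ p₁) (tc : TypE N l b T c Y ρ₁ p₁) (hY1 : 1 ≤ Y) (hρ₁ : ρ₁ ≤ 1)
    (hp₁ : p₁ ≤ 1 / 2) (hY : (2 : ℝ) ^ (J + 2) * √(2 * kwB b (Kw + 1) (LN N l)) ≤ Y)
    (hβ : 100 * (p₁ + Real.exp (-(√lam / 10))) ≤ β) (hβ1 : β ≤ 1) (w w' : V nb)
    (hw : TM.H859.tn (w' - w) ≤ K) :
    ∃ (ww w₀ : Finset (V (N / l))) (ce : V (N / l)),
      WinH N l b T a ww w₀ ce ((Kw + 1) * m) J Aa (DB b (Kw + 1) (LN N l) e) lam (12 * p₁) β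
        (qB b (Kw + 1) m (LN N l)) ∧
      WinH N l b T c ww w₀ ce ((Kw + 1) * m) J Ac (DB b (Kw + 1) (LN N l) e) lam (12 * p₁) β
        (qB b (Kw + 1) m (LN N l)) ∧
      Wsep (N := N) l ww w₀ (bxp (N / l) m w w') (((Kw - K : ℕ) : ℝ) * (l * m) / 2) := by
  obtain ⟨v, hv1, hv2, hv3⟩ := exists_box hnb w w'
  have hn := ha.hn
  have hne : (b1 (n := N / l) nb m v).Nonempty := b1_nonempty hn v
  have hv4 : TM.H859.tn (v - w) ≤ (Kw : ℝ) := by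
    have : (1 : ℝ) ≤ Kw := by exact_mod_cast (by omega : 1 ≤ Kw)
    linarith
  have hs := bw_sub (n := N / l) hn Kw w
  have hs0 := (b1_sub (n := N / l) (m := m) Kw hv4).trans hs
  have hcard : ((bw (n := N / l) nb m Kw w).card : ℝ) ≤
      4 * ((Kw + 1 : ℕ) : ℝ) ^ 2 * (m : ℝ) ^ 2 := by
    refine (card_bw hn Kw w).trans (mul_le_mul_of_nonneg_right ?_ (sq_nonneg _))
    push_cast
    have : (0 : ℝ) ≤ Kw := Nat.cast_nonneg _
    nlinarith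
  have hcard' : ((bw (n := N / l) nb m Kw w).card : ℝ) ≤
      4 * ((Kw + 1 : ℕ) : ℝ) ^ 2 * (b1 (n := N / l) nb m v).card := by
    rw [card_b1 hn v]
    exact hcard
  refine ⟨bw (n := N / l) nb m Kw w, b1 (n := N / l) nb m v, cor (N / l) m w,
    ha.winH le_rfl hne hs hs0 hcard' hcard ca hJ hlam hΘ ta hY1 hρ₁ hp₁ hY hβ hβ1,
    hc.winH le_rfl hne hs hs0 hcard' hcard cc hJ hlam hΘ tc hY1 hρ₁ hp₁ hY hβ hβ1, ?_⟩
  refine H612.wsep_tn ha.dl hn hK hw (w₁ := v) (fun x hx => ?_) hne (fun x hx => ?_) hv1 hv2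
  · unfold bw
    rw [Finset.mem_filter]
    exact ⟨Finset.mem_univ _, hx⟩
  · unfold b1 at hx
    rw [Finset.mem_filter] at hx
    exact hx.2

end num

/-! ### the numbers -/

section dt

variable {b L lam e μ T a c κ ω q β ρ pe : ℝ} {W J : ℕ}

/-- **size of a window** -/
theorem szW_le (hb : 0 < b) (hW : 1 ≤ W) (hL : 1 ≤ L) (he : 0 < e) (hlam : 1 ≤ lam) (hT : 0 < T) :
    T * szW J T (DB b W L e) lam q β ≤
      2 * (ThB b W L lam * e ^ (1 - (1 / 2 : ℝ) ^ J) + 24 * (q * √β)) := by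
  have hD := DB_pos hb hW hL he
  have h0 : 0 ≤ 128 * (lam * DB b W L e) := by positivity
  have h1 := lamD (b := b) (W := W) (L := L) (lam := lam) (e := e)
  have h2 := ThB_ge hb hW hL hlam (i := 4) (j := 14) (k := 2) (by norm_num) (by norm_num)
    (by norm_num) (c := 8 * (128 * 267267200)) (by norm_num) (by norm_num)
  have h3 := ThB_ge hb hW hL hlam (i := 0) (j := 0) (k := 0) (by norm_num) (by norm_num)
    (by norm_num) (c := 1) (by norm_num) (by norm_num)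
  have hW' : (1 : ℝ) ≤ W := by exact_mod_cast hW
  have h4 : (1 : ℝ) ≤ (1 + b) ^ 4 * (W : ℝ) ^ 14 * L ^ 2 := by
    have := mono_pow (B := 1 + b) (w := (W : ℝ)) (L := L) (by linarith) hW' hL
      (i := 0) (j := 0) (k := 0) (i' := 4) (j' := 14) (k' := 2) (by norm_num) (by norm_num)
      (by norm_num)
    simpa using this
  have h5 : (1 : ℝ) ≤ 128 * 267267200 * ((1 + b) ^ 4 * (W : ℝ) ^ 14 * L ^ 2) * lam := by
    have h6 : (1 : ℝ) ≤ 128 * 267267200 * ((1 + b) ^ 4 * (W : ℝ) ^ 14 * L ^ 2) := by linarith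
    nlinarith
  have h6 := pow_lin (x := 1 - (1 / 2 : ℝ) ^ J) (y := e) h0 (c := 128 * 267267200 *
    ((1 + b) ^ 4 * (W : ℝ) ^ 14 * L ^ 2) * lam) (by linarith) h5 he.le (xJ0 J) (xJ1 J)
  have h7 : 0 ≤ e ^ (1 - (1 / 2 : ℝ) ^ J) := Real.rpow_nonneg he.le _
  have h8 := mul_le_mul_of_nonneg_right h2 h7
  have e1 : T * szW J T (DB b W L e) lam q β =
      2 * (8 * (128 * (lam * DB b W L e)) ^ (1 - (1 / 2 : ℝ) ^ J) + 24 * (q * √β)) := by
    unfold H612.szW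
    rw [cl_eq J h0]
    field_simp
  rw [e1]
  nlinarith

/-- power of the window number, with a small factor -/
lemma pow_win (hb : 0 < b) (hW : 1 ≤ W) (hL : 1 ≤ L) (he : 0 < e) (hlam : 1 ≤ lam) {y : ℝ}
    (hy : 0 ≤ y) : (32 * (lam * DB b W L e * y)) ^ (1 - (1 / 2 : ℝ) ^ J) ≤
      32 * 267267200 * ((1 + b) ^ 4 * (W : ℝ) ^ 14 * L ^ 2) * lam *
        (e ^ (1 - (1 / 2 : ℝ) ^ J) * y ^ (1 - (1 / 2 : ℝ) ^ J)) := by
  have hD := DB_pos hb hW hL he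
  have h1 := lamD (b := b) (W := W) (L := L) (lam := lam) (e := e)
  have hW' : (1 : ℝ) ≤ W := by exact_mod_cast hW
  have h4 : (1 : ℝ) ≤ (1 + b) ^ 4 * (W : ℝ) ^ 14 * L ^ 2 := by
    have := mono_pow (B := 1 + b) (w := (W : ℝ)) (L := L) (by linarith) hW' hL
      (i := 0) (j := 0) (k := 0) (i' := 4) (j' := 14) (k' := 2) (by norm_num) (by norm_num)
      (by norm_num)
    simpa using this
  have h5 : (1 : ℝ) ≤ 32 * 267267200 * ((1 + b) ^ 4 * (W : ℝ) ^ 14 * L ^ 2) * lam := by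
    have h6 : (1 : ℝ) ≤ 32 * 267267200 * ((1 + b) ^ 4 * (W : ℝ) ^ 14 * L ^ 2) := by linarith
    nlinarith
  have h0 : 0 ≤ 32 * (lam * DB b W L e * y) := by positivity
  have h6 := pow_lin (x := 1 - (1 / 2 : ℝ) ^ J) (y := e * y) h0 (c := 32 * 267267200 *
    ((1 + b) ^ 4 * (W : ℝ) ^ 14 * L ^ 2) * lam) (by
      have := mul_le_mul_of_nonneg_right h1 hy
      linarith) h5 (by positivity) (xJ0 J) (xJ1 J)
  rw [Real.mul_rpow he.le hy] at h6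
  exact h6

lemma rpow_div_sqrt {y x : ℝ} (hy : 0 < y) : y ^ x / √y = y ^ (x - 1 / 2) := by
  rw [Real.sqrt_eq_rpow, ← Real.rpow_sub hy]

variable {N l m ρw : ℕ} [NeZero N] [NeZero (N / l)]

/-- **difference of two priors on a window** -/
theorem CtN_le (hb : 0 < b) (hW : 1 ≤ W) (he : 0 < e) (hlam : 1 ≤ lam) (hT : 0 < T)
    (hJ : 1 ≤ J) (hμ : 0 < μ) (hc1 : μ * T ≤ c) (hc4 : c ≤ 4 * (μ * T)) (hq : 0 ≤ q)
    (hwc : wc N l ρw b T a ≤ wcB b W (LN N l)) (hwc1 : 1 ≤ wc N l ρw b T a) :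
    T * CtN N l ρw J b T a c (DB b W (LN N l) e) lam q β ≤
      ThB b W (LN N l) lam * (e ^ (1 - (1 / 2 : ℝ) ^ J) * μ ^ (1 - (1 / 2 : ℝ) ^ J - 1 / 2)) +
        528 * (q * √β) / √μ := by
  set x : ℝ := 1 - (1 / 2 : ℝ) ^ J with hx
  have hL : 1 ≤ LN N l := LN_one inferInstance
  have hW' : (1 : ℝ) ≤ W := by exact_mod_cast hW
  set ε : ℝ := 8 * (c / T) * wc N l ρw b T a with hε
  have hcT : μ ≤ c / T := by
    rw [le_div_iff₀ hT]
    exact hc1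
  have hcT4 : c / T ≤ 4 * μ := by
    rw [div_le_iff₀ hT]
    linarith
  have hε1 : μ ≤ ε := by
    have h1 : 0 ≤ c / T := hμ.le.trans hcT
    have h2 : c / T ≤ c / T * wc N l ρw b T a := le_mul_of_one_le_right h1 hwc1
    rw [hε]
    nlinarith
  have hε0 : 0 < ε := hμ.trans_le hε1
  have hwB := wcB_pos (L := LN N l) hb hW hL
  have hε2 : ε ≤ 32 * wcB b W (LN N l) * μ := by
    rw [hε]
    have h1 : 0 ≤ c / T := hμ.le.trans hcT
    calc 8 * (c / T) * wc N l ρw b T a ≤ 8 * (4 * μ) * wcB b W (LN N l) := by gcongr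
      _ = _ := by ring
  -- main term
  have h1 := pow_win (J := J) (L := LN N l) hb hW hL he hlam hε0.le
  rw [← hx] at h1
  have h2 : ε ^ x / √ε ≤ 32 * wcB b W (LN N l) * μ ^ (x - 1 / 2) := by
    rw [rpow_div_sqrt hε0]
    refine pow_lin hε0.le hε2 ?_ hμ.le ?_ ?_
    · unfold wcB
      have h3 := mono_pow (B := 1 + b) (w := (W : ℝ)) (L := LN N l) (by linarith) hW' hL
        (i := 0) (j := 0) (k := 0) (i' := 2) (j' := 4) (k' := 1) (by norm_num) (by norm_num)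
        (by norm_num)
      simp only [pow_zero, mul_one, pow_one] at h3
      linarith
    · have := xJ2 hJ
      rw [← hx] at this
      linarith
    · have := xJ1 J
      rw [← hx] at this
      linarith
  set c1 : ℝ := 32 * 267267200 * ((1 + b) ^ 4 * (W : ℝ) ^ 14 * LN N l ^ 2) * lam with hc1d
  have hc1p : 0 < c1 := by positivity
  have hex : 0 ≤ e ^ x := Real.rpow_nonneg he.le _
  have hμx : 0 ≤ μ ^ (x - 1 / 2) := Real.rpow_nonneg hμ.le _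
  have h3 : (32 * (lam * DB b W (LN N l) e * ε)) ^ x / √ε ≤
      c1 * (32 * wcB b W (LN N l)) * (e ^ x * μ ^ (x - 1 / 2)) := by
    calc (32 * (lam * DB b W (LN N l) e * ε)) ^ x / √ε ≤ c1 * (e ^ x * ε ^ x) / √ε :=
          div_le_div_of_nonneg_right h1 (Real.sqrt_nonneg _)
      _ = c1 * e ^ x * (ε ^ x / √ε) := by ring
      _ ≤ c1 * e ^ x * (32 * wcB b W (LN N l) * μ ^ (x - 1 / 2)) :=
          mul_le_mul_of_nonneg_left h2 (by positivity)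
      _ = _ := by ring
  have h4 : 672 * (c1 * (32 * wcB b W (LN N l))) ≤ ThB b W (LN N l) lam := by
    have h5 := ThB_ge (L := LN N l) hb hW hL hlam (i := 6) (j := 18) (k := 3) (by norm_num)
      (by norm_num) (by norm_num) (c := 672 * (32 * 267267200) * (32 * 289)) (by norm_num)
      (by norm_num)
    refine le_trans (le_of_eq ?_) h5
    rw [hc1d]
    unfold wcB
    ring
  have h5 : q * √β / √ε ≤ q * √β / √μ :=
    div_le_div_of_nonneg_left (by positivity) (Real.sqrt_pos.2 hμ) (Real.sqrt_le_sqrt hε1)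
  have e1 : T * CtN N l ρw J b T a c (DB b W (LN N l) e) lam q β =
      672 * ((32 * (lam * DB b W (LN N l) e * ε)) ^ x / √ε) + 528 * (q * √β / √ε) := by
    unfold H612.CtN
    rw [← hε, ← hx]
    field_simp
    ring
  rw [e1]
  have h6 : 0 ≤ e ^ x * μ ^ (x - 1 / 2) := mul_nonneg hex hμx
  have h7 := mul_le_mul_of_nonneg_right h4 h6
  have e2 : 528 * (q * √β) / √μ = 528 * (q * √β / √μ) := by ring
  rw [e2]
  nlinarith

/-- **localisation**, amplitude `√μ` -/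
theorem LcN_le (hb : 0 < b) (hW : 1 ≤ W) (hL : 1 ≤ L) (he : 0 < e) (hlam : 1 ≤ lam) (hT : 0 < T)
    (hμ : 0 < μ) (nn : ℕ) :
    T * LcN J nn T a (DB b W L e) (√μ) lam β κ ω ≤
      1 / 4 * (ThB b W L lam * (e ^ (1 - (1 / 2 : ℝ) ^ J) * μ ^ (1 - (1 / 2 : ℝ) ^ J - 1 / 2))) +
        (16 * κ * (nn : ℝ) ^ 2 * (T ^ 2 / a) + 32 * ω ^ 2 +
          2304 * ((nn : ℝ) ^ 2 * (T / a) * √β)) / √μ := by
  set x : ℝ := 1 - (1 / 2 : ℝ) ^ J with hx
  have h1 := pow_win (J := J) hb hW hL he hlam hμ.le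
  rw [← hx] at h1
  have hs := Real.sqrt_pos.2 hμ
  have h2 : (32 * (lam * DB b W L e * √μ ^ 2)) ^ x / √μ ≤
      32 * 267267200 * ((1 + b) ^ 4 * (W : ℝ) ^ 14 * L ^ 2) * lam *
        (e ^ x * μ ^ (x - 1 / 2)) := by
    rw [Real.sq_sqrt hμ.le, ← rpow_div_sqrt hμ]
    calc (32 * (lam * DB b W L e * μ)) ^ x / √μ ≤ (32 * 267267200 *
          ((1 + b) ^ 4 * (W : ℝ) ^ 14 * L ^ 2) * lam * (e ^ x * μ ^ x)) / √μ :=
          div_le_div_of_nonneg_right h1 hs.le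
      _ = _ := by ring
  have h3 := ThB_ge hb hW hL hlam (i := 4) (j := 14) (k := 2) (by norm_num) (by norm_num)
    (by norm_num) (c := 4 * 352 * (32 * 267267200)) (by norm_num) (by norm_num)
  have h4 : 0 ≤ e ^ x * μ ^ (x - 1 / 2) :=
    mul_nonneg (Real.rpow_nonneg he.le _) (Real.rpow_nonneg hμ.le _)
  have h5 := mul_le_mul_of_nonneg_right h3 h4
  have e1 : T * LcN J nn T a (DB b W L e) (√μ) lam β κ ω =
      352 * ((32 * (lam * DB b W L e * √μ ^ 2)) ^ x / √μ) +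
        (16 * κ * (nn : ℝ) ^ 2 * (T ^ 2 / a) + 32 * ω ^ 2 +
          2304 * ((nn : ℝ) ^ 2 * (T / a) * √β)) / √μ := by
    unfold H612.LcN
    rw [← hx]
    field_simp
    ring
  rw [e1]
  nlinarith

/-- **the number of the near part**: `x = 1 - 2^(-J)`, `nn = N / l`, amplitude `√μ = M⁻¹` -/
theorem dtN_le (hb : 0 < b) (hW : 1 ≤ W) (he : 0 < e) (hlam : 1 ≤ lam) (hT : 0 < T)
    (hJ : 1 ≤ J) (hμ : 0 < μ) (ha : 0 < a) (hc1 : μ * T ≤ c) (hc4 : c ≤ 4 * (μ * T)) (hq : 0 ≤ q)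
    (hκ : 0 ≤ κ)
    (hwc : wc N l ρw b T a ≤ wcB b W (LN N l)) (hwc1 : 1 ≤ wc N l ρw b T a) (hρ : 0 ≤ ρ)
    (hpe : 0 ≤ pe) (hks : Real.exp ρ - 1 + pe ≤ 1) :
    T * dtN N l ρw J b T a c (DB b W (LN N l) e) (√μ) lam q β κ ω ρ pe ≤
      2 * (ThB b W (LN N l) lam *
        (e ^ (1 - (1 / 2 : ℝ) ^ J) * μ ^ (1 - (1 / 2 : ℝ) ^ J - 1 / 2))) +
      4 * ((Real.exp ρ - 1 + pe) * (ThB b W (LN N l) lam * e ^ (1 - (1 / 2 : ℝ) ^ J))) +
      128 * ω ^ 2 / √μ +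
      ((64 * κ * ((N / l : ℕ) : ℝ) ^ 2 * (T ^ 2 / a) +
        9216 * (((N / l : ℕ) : ℝ) ^ 2 * (T / a) * √β) + 528 * (q * √β)) / √μ +
        96 * (q * √β) +
        78 * (T * (((N / l : ℕ) : ℝ) * (((N / l : ℕ) : ℝ) ^ 2 / a) * √pe))) := by
  set x : ℝ := 1 - (1 / 2 : ℝ) ^ J with hx
  have hL : 1 ≤ LN N l := LN_one inferInstance
  have h1 := szW_le (J := J) (q := q) (β := β) (L := LN N l) hb hW hL he hlam hT
  have h2 := CtN_le (β := β) hb hW he hlam hT hJ hμ hc1 hc4 hq hwc hwc1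
  have h3 := LcN_le (J := J) (a := a) (κ := κ) (ω := ω) (β := β) (L := LN N l) hb hW hL he hlam hT
    hμ (N / l)
  rw [← hx] at h1 h2 h3
  have hs := Real.sqrt_pos.2 hμ
  set ks : ℝ := Real.exp ρ - 1 + pe with hksd
  have hks0 : 0 ≤ ks := by
    have := Real.one_le_exp hρ
    rw [hksd]
    linarith
  set nn : ℝ := ((N / l : ℕ) : ℝ) with hnn
  have hL0 : 0 ≤ T * LcN J (N / l) T a (DB b W (LN N l) e) (√μ) lam β κ ω :=
    mul_nonneg hT.le (H612.LcN_nonneg hT ha (DB_pos hb hW hL he).le hs (by linarith) hκ)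
  have e1 : T * dtN N l ρw J b T a c (DB b W (LN N l) e) (√μ) lam q β κ ω ρ pe =
      2 * (ks * (T * szW J T (DB b W (LN N l) e) lam q β)) +
      (2 * ks + 2) * (T * LcN J (N / l) T a (DB b W (LN N l) e) (√μ) lam β κ ω) +
      78 * (T * (nn * (nn ^ 2 / a) * √pe)) +
      T * CtN N l ρw J b T a c (DB b W (LN N l) e) lam q β := by
    unfold H612.dtN H612.LwN
    rw [← hksd, ← hnn]
    ring
  rw [e1]
  have h4 : ks * (T * szW J T (DB b W (LN N l) e) lam q β) ≤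
      ks * (2 * (ThB b W (LN N l) lam * e ^ x)) + 48 * (q * √β) := by
    have h5 := mul_le_mul_of_nonneg_left h1 hks0
    have h6 : ks * (48 * (q * √β)) ≤ 1 * (48 * (q * √β)) :=
      mul_le_mul_of_nonneg_right hks (by positivity)
    nlinarith
  have h5 : (2 * ks + 2) * (T * LcN J (N / l) T a (DB b W (LN N l) e) (√μ) lam β κ ω) ≤
      4 * (T * LcN J (N / l) T a (DB b W (LN N l) e) (√μ) lam β κ ω) :=
    mul_le_mul_of_nonneg_right (by linarith) hL0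
  have e2 : 4 * ((16 * κ * nn ^ 2 * (T ^ 2 / a) + 32 * ω ^ 2 +
      2304 * (nn ^ 2 * (T / a) * √β)) / √μ) + 528 * (q * √β) / √μ =
      128 * ω ^ 2 / √μ + (64 * κ * nn ^ 2 * (T ^ 2 / a) + 9216 * (nn ^ 2 * (T / a) * √β) +
        528 * (q * √β)) / √μ := by
    ring
  nlinarith

end dt

end

end Vale.Agent.P159.H447
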