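import Vale.Agent.P159.H447.Sit8
import Vale.Agent.P159.H276.Es1

/-!
P159 (helper447), **TYPS, part 9: the tent kernel** `tent N q F x = q⁻² ∑_{i,j<q} bxT N q F (x - (i, j))`
is the average of the cell projections over all the offsets (`q ∣ N`).
-/

set_option linter.unusedSectionVars false

namespace Vale.Agent.P159.H447

open Finset Matrix
open Vale.Agent.P159.TM.Spec (V)
open Vale.Agent.P159.H37
open Vale.Agent.P159.H864 (cl1 cl1_val)
open Vale.Agent.P159.H276 (bxT)

noncomputable section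

variable {N l : ℕ} [NeZero N]

/-! ### one coordinate -/

/-- the points of a cell, one coordinate -/
lemma cell1_sum (hl : l ∣ N) [NeZero (N / l)] (z : ZMod N) (g : ZMod N → ℝ) :
    ∑ y ∈ univ.filter (fun y : ZMod N => (cl1 y : ZMod (N / l)) = cl1 z), g y =
      ∑ i ∈ range l, g (z - ((z.val % l : ℕ) : ZMod N) + ((i : ℕ) : ZMod N)) := by
  have hl0 := H864.l_pos hl
  set m := z.val / l with hm
  have hmN : m < N / l := Nat.div_lt_div_of_lt_of_dvd hl (ZMod.val_lt z)
  have hlt : ∀ i < l, m * l + i < N := by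
    intro i hi
    calc m * l + i < m * l + l := by omega
      _ = (m + 1) * l := by ring
      _ ≤ (N / l) * l := Nat.mul_le_mul_right _ hmN
      _ = N := Nat.div_mul_cancel hl
  have hz : z = (((m * l : ℕ) : ZMod N)) + ((z.val % l : ℕ) : ZMod N) := by
    have h1 : m * l + z.val % l = z.val := Nat.div_add_mod' _ _
    have h2 : ((m * l + z.val % l : ℕ) : ZMod N) = z := by rw [h1, ZMod.natCast_zmod_val]
    rw [← h2]
    push_cast
    congr 1
    rw [← Nat.cast_mul, ← Nat.cast_add, h1, ZMod.natCast_zmod_val]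
  have hb : ∀ i : ℕ, z - ((z.val % l : ℕ) : ZMod N) + ((i : ℕ) : ZMod N) =
      ((m * l + i : ℕ) : ZMod N) := by
    intro i
    have h1 : z - ((z.val % l : ℕ) : ZMod N) = ((m * l : ℕ) : ZMod N) := sub_eq_iff_eq_add.2 hz
    rw [h1]
    push_cast
    ring
  simp only [hb]
  symm
  refine Finset.sum_nbij' (fun i => ((m * l + i : ℕ) : ZMod N)) (fun y => y.val % l) ?_ ?_ ?_ ?_ ?_
  · intro i hi
    rw [mem_filter]
    refine ⟨mem_univ _, ?_⟩
    refine ZMod.val_injective _ ?_
    rw [cl1_val hl, cl1_val hl, ZMod.val_natCast, Nat.mod_eq_of_lt (hlt i (mem_range.1 hi))]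
    rw [← hm, mul_comm, Nat.mul_add_div hl0, Nat.div_eq_of_lt (mem_range.1 hi), add_zero]
  · intro y _
    exact mem_range.2 (Nat.mod_lt _ hl0)
  · intro i hi
    rw [ZMod.val_natCast, Nat.mod_eq_of_lt (hlt i (mem_range.1 hi)), mul_comm,
      Nat.mul_add_mod, Nat.mod_eq_of_lt (mem_range.1 hi)]
  · intro y hy
    rw [mem_filter] at hy
    have h1 := congrArg ZMod.val hy.2
    rw [cl1_val hl, cl1_val hl, ← hm] at h1
    have h2 : m * l + y.val % l = y.val := by rw [← h1]; exact Nat.div_add_mod' _ _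
    rw [h2, ZMod.natCast_zmod_val]
  · intro i _
    rfl

/-- the remainders run through all values -/
lemma rem_sum (hl : l ∣ N) (x : ZMod N) (f : ℕ → ℝ) :
    ∑ v ∈ range l, f ((x - ((v : ℕ) : ZMod N)).val % l) = ∑ r ∈ range l, f r := by
  have hl0 : 0 < l := Nat.pos_of_dvd_of_pos hl (NeZero.pos N)
  have : NeZero l := ⟨hl0.ne'⟩
  rw [Finset.sum_range, Finset.sum_range]
  have hinj : Function.Injective fun v : Fin l =>
      (⟨(x - ((v : ℕ) : ZMod N)).val % l, Nat.mod_lt _ hl0⟩ : Fin l) := by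
    intro v w h
    have h1 : (x - ((v : ℕ) : ZMod N)).val % l = (x - ((w : ℕ) : ZMod N)).val % l :=
      congrArg Fin.val h
    have key : ∀ v : ℕ, (((x - ((v : ℕ) : ZMod N)).val : ℕ) : ZMod l) =
        ZMod.castHom hl (ZMod l) x - (v : ZMod l) := by
      intro v
      have h2 : (((x - ((v : ℕ) : ZMod N)).val : ℕ) : ZMod l) =
          ZMod.castHom hl (ZMod l) (x - ((v : ℕ) : ZMod N)) := by
        rw [ZMod.castHom_apply, ZMod.natCast_val]
      rw [h2, map_sub, map_natCast]
    have h2 : (((x - ((v : ℕ) : ZMod N)).val : ℕ) : ZMod l) =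
        (((x - ((w : ℕ) : ZMod N)).val : ℕ) : ZMod l) :=
      (ZMod.natCast_eq_natCast_iff _ _ _).2 h1
    rw [key, key] at h2
    have h3 : ((v : ℕ) : ZMod l) = ((w : ℕ) : ZMod l) := sub_right_inj.1 h2
    have h4 := (ZMod.natCast_eq_natCast_iff _ _ _).1 h3
    have h5 : (v : ℕ) % l = (w : ℕ) % l := h4
    rw [Nat.mod_eq_of_lt v.2, Nat.mod_eq_of_lt w.2] at h5
    exact Fin.ext h5
  have hbij := Finite.injective_iff_bijective.1 hinj
  exact hbij.sum_comp fun r : Fin l => f r

/-! ### the torus -/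

/-- a translated cell average is a box average -/
lemma cellP_shift (hl : l ∣ N) (F : V N → ℝ) (x v : V N) :
    (cellP N l *ᵥ (fun y => F (y + v))) (x - v) =
      bxT N l F (x - ((((x - v).1.val % l : ℕ) : ZMod N), (((x - v).2.val % l : ℕ) : ZMod N))) := by
  have := H864.ne_div hl
  rw [H864.cellP_mulVec hl]
  unfold bxT
  congr 1
  have hf : (univ.filter fun y : V N => (H864.cl y : V (N / l)) = H864.cl (x - v)) =
      (univ.filter fun a : ZMod N => (cl1 a : ZMod (N / l)) = cl1 (x - v).1) ×ˢ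
        (univ.filter fun a : ZMod N => (cl1 a : ZMod (N / l)) = cl1 (x - v).2) := by
    ext y
    rw [mem_filter, mem_product, mem_filter, mem_filter]
    unfold H864.cl
    rw [Prod.ext_iff]
    simp
  rw [hf, Finset.sum_product, cell1_sum hl]
  refine Finset.sum_congr rfl fun i _ => ?_
  rw [cell1_sum hl]
  refine Finset.sum_congr rfl fun j _ => ?_
  congr 1
  ext
  · simp only [Prod.fst_add, Prod.fst_sub]
    ring
  · simp only [Prod.snd_add, Prod.snd_sub]
    ring

/-- the tent kernel -/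
def tent (N q : ℕ) [NeZero N] (F : V N → ℝ) (x : V N) : ℝ :=
  ((q : ℝ) ^ 2)⁻¹ * ∑ i ∈ range q, ∑ j ∈ range q, bxT N q F (x - ((i : ZMod N), (j : ZMod N)))

/-- the cell projection with offset `v` -/
def Pv (N q : ℕ) [NeZero N] (v : V N) (F : V N → ℝ) (x : V N) : ℝ :=
  (cellP N q *ᵥ (fun y => F (y + v))) (x - v)

/-- **the tent kernel is the average of the cell projections over the offsets** -/
theorem tent_avg (hl : l ∣ N) (F : V N → ℝ) (x : V N) :
    tent N l F x = ((l : ℝ) ^ 2)⁻¹ *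
      ∑ i ∈ range l, ∑ j ∈ range l, Pv N l ((i : ZMod N), (j : ZMod N)) F x := by
  unfold tent Pv
  congr 1
  simp only [cellP_shift hl, Prod.fst_sub, Prod.snd_sub]
  rw [← rem_sum hl x.1 fun r => ∑ j ∈ range l, bxT N l F (x - ((r : ZMod N), (j : ZMod N)))]
  refine Finset.sum_congr rfl fun i _ => ?_
  exact (rem_sum hl x.2 fun r => bxT N l F
    (x - ((((x.1 - ((i : ℕ) : ZMod N)).val % l : ℕ) : ZMod N), (r : ZMod N)))).symm

end

end Vale.Agent.P159.H447
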