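import Vale.Agent.P159.H447.Dn2
import Vale.Agent.P159.H145.Spc1

/-!
P159 (helper447), **DOOR of a level** (module S, helper145's (D)(a), row 8263 / 8805), part 3: the final
form (`door_lvl`), with the knowledge `KnW` at the pair `R`; the only other input is
`Del ≤ y^(-κ)` (any `κ`).
-/

set_option linter.unusedSectionVars false

namespace Vale.Agent.P159.H447

open Finset Matrix MeasureTheory Filter Topology
open Vale.Agent.P159.TM.Spec (V)
open Vale.Agent.P159.TM.SpecC (wT)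
open Vale.Agent.P159.H801 (SFlow itw)
open Vale.Agent.P159.H972 (tn lg Par tn_pos tn_mul)
open Vale.Agent.P159.H37.Sf (kf sf_big Kn)
open Vale.Agent.P159.H770 (wTD Ed)
open Vale.Agent.P159.H773 (sd nuF PsF cMn cT0 cMn_pt)
open Vale.Agent.P159.H817 (gr nrm eF bD sz U e1)
open Vale.Agent.P159.H856.Dl (CW Del)
open Vale.Agent.P159.H27 (Rb)
open Vale.Agent.P159.H253.Rec (ga ua RecAt ga_anti ga_le_ua ua_anti)
open Vale.Agent.P159.H145.Lw (KnW)
open Vale.Agent.P159.H145.Sp (DoorP HF gC AxP)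

noncomputable section

/-- monotonicity of the target -/
lemma doorP_mono {b : ℝ} {i : ℕ} {η : ∀ R, Ed (sd i R) → ℤ} {φ : ∀ R, V (sd i R) → ℝ} {t : ℝ}
    {q R : ℕ} {g : V (sd i R) → ℝ} {p p' s s' : ℝ} (h : DoorP b i η φ t q R g p s) (hp : p ≤ p')
    (hs : s ≤ s') : DoorP b i η φ t q R g p' s' := by
  obtain ⟨G, h1, h2, h3⟩ := h
  exact ⟨G, h1, h2.trans hp, fun F hF => (h3 F hF).trans hs⟩

/-- the number `CW` is the mean -/
lemma cw_eq {b : ℝ} {i : ℕ} (hb : 0 ≤ b) (hi : 1 ≤ i) {η : ∀ R, Ed (sd i R) → ℤ}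
    (hη : H773.Pth i η) {R : ℕ} (hR : 1 ≤ R) :
    CW (wTD (sd i R) b) 0 (η R) = cT0 (sd i R - 2) b R := by
  rw [← cMn_pt hb hi hη hR]
  unfold CW cMn
  rw [H770.wTD_zero]

/-- lower bound of the mean from the knowledge -/
lemma cw_low {b β C2 A0 : ℝ} {Am i : ℕ} {a : ℕ → ℝ} {k w : ℕ → ℕ} {n0 j R : ℕ} (hb : 0 < b)
    (hC2 : 1 ≤ C2) (hA : A0 ≤ 2 ^ i) (hAm : 1 ≤ Am)
    (K : KnW b β C2 A0 Am i a k w n0 j R) (h0 : Rb k w n0 0 ≤ R) (hR : 4 ≤ R) :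
    0 < ua b 1 ∧ 0 < cT0 (sd i R - 2) b R ∧ -Real.log (cT0 (sd i R - 2) b R) ≤
      Real.log C2 + β * Real.log R - Real.log (ua b 1) := by
  have hRA : R ≤ Am * R := Nat.le_mul_of_pos_left R hAm
  have hg : 0 < ga b R := (K.rcd R h0 hRA).1
  have hu : 0 < ua b 1 := hg.trans_le (ga_le_ua hb.le 1 R (by omega))
  have hAR : A0 * R ≤ sd i R := by
    have h4 : (2 : ℝ) ^ i * R ≤ sd i R := by exact_mod_cast H773.sd_ge i R
    exact (mul_le_mul_of_nonneg_right hA (Nat.cast_nonneg R)).trans h4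
  have h1 := (K.tor R h0 hRA (sd i R) hAR).2 1 le_rfl (by omega)
  rw [Nat.cast_one, div_one] at h1
  have hR0 : (0 : ℝ) < R := by
    have : 0 < R := by omega
    exact_mod_cast this
  have hRb : 0 < (R : ℝ) ^ β := Real.rpow_pos_of_pos hR0 _
  have hc : 0 < cT0 (sd i R - 2) b R := by
    by_contra hcon
    have h2 : C2 * (R : ℝ) ^ β * cT0 (sd i R - 2) b R ≤ 0 :=
      mul_nonpos_of_nonneg_of_nonpos (by positivity) (not_lt.1 hcon)
    linarith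
  refine ⟨hu, hc, ?_⟩
  have h2 := Real.log_le_log hu h1
  rw [Real.log_mul (by positivity) hc.ne', Real.log_mul (by positivity) hRb.ne',
    Real.log_rpow hR0] at h2
  linarith

section flow

variable {P : Par} {b σ c c1 q2 qx : ℝ} {a y ε xs : ℕ → ℝ} {c' r q A : ℝ} {N : ℕ}

/-- **(a) THE DOOR OF A LEVEL** -/
theorem door_lvl (hb : 0 < b) (h : SFlow P b σ c c1 q2 qx a y ε xs c' r q A N) (hA : P.Adm)
    (hσ0 : 0 ≤ σ) (hσ : σ ≤ 1 / 4) {ck : ℝ} (hck : 0 < ck) (hck1 : ck ≤ P.thp)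
    {c3 c5 κ β C2 A0 : ℝ} (h3 : 0 < c3) (h35 : c3 < c5) (hκ : 0 ≤ κ) (hβ : 0 ≤ β) (hC2 : 1 ≤ C2)
    {i Am : ℕ} (hi : 6 ≤ i) (hiA : A0 ≤ 2 ^ i) (hAm : 1 ≤ Am) (c4 : ℝ) :
    ∀ᶠ n in atTop, ∀ K1, K1 = n + P.w (ε n) + kf ck y (n + P.w (ε n)) →
      ∀ R : ℕ, 2 ^ (n + kf ck y n) ≤ R → R ≤ 2 ^ K1 →
      ∀ n0 j, Rb (kf ck y) (fun n => P.w (ε n)) n0 0 ≤ R →
      KnW b β C2 A0 Am i a (kf ck y) (fun n => P.w (ε n)) n0 j R →
      ∀ s : ℕ, y n ^ (-c5) ≤ (n : ℝ) - s →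
      ∀ (η : ∀ R, Ed (sd i R) → ℤ) (φ : ∀ R, V (sd i R) → ℝ), AxP i η φ →
        Del (wTD (sd i R) b) (tn n • (1 : Matrix (V (sd i R)) (V (sd i R)) ℝ)) (tn n) 0 (η R)
          (φ R) ≤ y n ^ (-κ) →
        DoorP b i η φ (tn n) (2 ^ s) R (gC i n K1 R) (Real.exp (-(4 * y n ^ (-c3))))
          (y n ^ (1 + c4) / 16) := by
  filter_upwards [door_sf hb h hA hσ0 hσ hck hck1 h3 h35 (show 0 ≤ κ + 3 by linarith) hi,
    sf_exp h (C := 16) (m := 1 + c4) h3, h.fl.ev_one,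
    sf_logN h hA hσ0 hσ hck hck1 i (M := |Real.log C2| + β + |Real.log (ua b 1)|) (by positivity),
    sf_big h (p := 1) (M := 2) one_pos two_pos, eventually_ge_atTop 2] with
    n g1 g2 hy1 g3 g4 hn2 K1 hK1 R hR1 hR2 n0 j hR0 K s hs η φ hax hDel
  have hy := h.fl.y0 n
  have hR4 : 4 ≤ R := by
    refine le_trans ?_ hR1
    calc 4 = 2 ^ 2 := by norm_num
      _ ≤ 2 ^ (n + kf ck y n) := Nat.pow_le_pow_right (by norm_num) (by omega)
  obtain ⟨hu, hc, hlow⟩ := cw_low hb hC2 hiA hAm K hR0 hR4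
  have hcw := cw_eq hb.le (by omega) hax.pth (show 1 ≤ R by omega)
  -- the number of the mean
  have hR0' : (0 : ℝ) < R := by
    have : 0 < R := by omega
    exact_mod_cast this
  have hRN : (R : ℝ) ≤ 1 + ((sd i R : ℕ) : ℝ) := by
    have h1 : 2 ^ i * R ≤ sd i R := H773.sd_ge i R
    have h2 : R ≤ 2 ^ i * R := Nat.le_mul_of_pos_left R (by positivity)
    have h3 : R ≤ sd i R := h2.trans h1
    have h4 : (R : ℝ) ≤ ((sd i R : ℕ) : ℝ) := by exact_mod_cast h3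
    linarith
  have hlR : Real.log R ≤ Real.log (1 + ((sd i R : ℕ) : ℝ)) := Real.log_le_log hR0' hRN
  have hlN : 0 ≤ Real.log (1 + ((sd i R : ℕ) : ℝ)) :=
    Real.log_nonneg (by have : (0 : ℝ) ≤ ((sd i R : ℕ) : ℝ) := Nat.cast_nonneg _; linarith)
  have h5 := g3 R (by rw [← hK1]; exact hR2) (by omega)
  have h6 : -Real.log (CW (wTD (sd i R) b) 0 (η R)) ≤ y n ^ (-(2 : ℝ)) := by
    rw [hcw]
    refine hlow.trans (le_trans ?_ h5)
    have a1 := le_abs_self (Real.log C2)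
    have a2 := neg_abs_le (Real.log (ua b 1))
    have a3 : β * Real.log R ≤ β * Real.log (1 + ((sd i R : ℕ) : ℝ)) :=
      mul_le_mul_of_nonneg_left hlR hβ
    have a4 : 0 ≤ |Real.log C2| * Real.log (1 + ((sd i R : ℕ) : ℝ)) :=
      mul_nonneg (abs_nonneg _) hlN
    have a5 : 0 ≤ |Real.log (ua b 1)| * Real.log (1 + ((sd i R : ℕ) : ℝ)) :=
      mul_nonneg (abs_nonneg _) hlN
    have e : (|Real.log C2| + β + |Real.log (ua b 1)|) *
        (1 + Real.log (1 + ((sd i R : ℕ) : ℝ))) =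
        |Real.log C2| + β + |Real.log (ua b 1)| +
          (|Real.log C2| * Real.log (1 + ((sd i R : ℕ) : ℝ)) +
            β * Real.log (1 + ((sd i R : ℕ) : ℝ)) +
            |Real.log (ua b 1)| * Real.log (1 + ((sd i R : ℕ) : ℝ))) := by ring
    rw [e]
    linarith
  have h7 : Del (wTD (sd i R) b) (tn n • (1 : Matrix (V (sd i R)) (V (sd i R)) ℝ)) (tn n) 0
      (η R) (φ R) - Real.log (CW (wTD (sd i R) b) 0 (η R)) ≤ y n ^ (-(κ + 3)) := by
    have b1 : y n ^ (-κ) ≤ y n ^ (-(κ + 2)) :=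
      Real.rpow_le_rpow_of_exponent_ge hy hy1 (by linarith)
    have b2 : y n ^ (-(2 : ℝ)) ≤ y n ^ (-(κ + 2)) :=
      Real.rpow_le_rpow_of_exponent_ge hy hy1 (by linarith)
    have b3 : 2 * y n ^ (-(κ + 2)) ≤ y n ^ (-(κ + 3)) := by
      have e : y n ^ (-(κ + 3)) = y n ^ (-(1 : ℝ)) * y n ^ (-(κ + 2)) := by
        rw [← Real.rpow_add hy]
        congr 1
        ring
      rw [e]
      exact mul_le_mul_of_nonneg_right g4 (Real.rpow_nonneg hy.le _)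
    linarith
  have hd := g1 K1 hK1 R hR1 hR2 s hs η φ
    (fun e => (congrFun (hax.bd R (by omega)) e).symm) h7
  refine doorP_mono hd ?_ ?_
  · refine Real.exp_le_exp.2 ?_
    have : 0 ≤ y n ^ (-c3) := Real.rpow_nonneg hy.le _
    linarith
  · have hp : 0 < y n ^ (1 + c4) := Real.rpow_pos_of_pos hy _
    have hE := Real.exp_pos (y n ^ (-c3))
    rw [Real.exp_neg, le_div_iff₀ (by norm_num), inv_mul_le_iff₀ hE]
    have e : y n ^ (-(1 + c4)) * y n ^ (1 + c4) = 1 := by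
      rw [← Real.rpow_add hy]
      simp
    calc (16 : ℝ) = 16 * y n ^ (-(1 + c4)) * y n ^ (1 + c4) := by rw [mul_assoc, e, mul_one]
      _ ≤ Real.exp (y n ^ (-c3)) * y n ^ (1 + c4) := mul_le_mul_of_nonneg_right g2 hp.le

end flow

end

end Vale.Agent.P159.H447
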