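import Vale.Agent.P159.H447.Cg5
import Vale.Agent.P159.H447.MassH

/-!
P159 / module CONTRG, part 6 (helper447): the standing hypotheses `Maj` for the models.

* `gt_nM`, `maj_nM` : neutral model (pinned), any admissible mass form; majorant
  `EM x₀ ᵀ M⁻¹ EM x₀`, `EM x₀ J = J - (Σ J) δ_{x₀}`.
* `maj_wM` : integer model, majorant `M⁻¹`.
* `maj_nwt`, `maj_wt` : scalar masses on the torus; `pr_neu`: the majorant on neutral matrices.
-/

namespace Vale.Agent.P159.H447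

open Finset Matrix MeasureTheory ProbabilityTheory
open Vale.Agent.P159.TM.H104 (EM Ex Cv K3 Lg li nh Gr)
open Vale.Agent.P159.H37
open Vale.Agent.P159.H159 (GT)
open Vale.Agent.P159.H963 (GW MF nM Neu pin nwt gw_wT mf_smul Pn ntr_gap gap_pin pin_of_ne
  pin_of_zero)
open Vale.Agent.P159.TM.SpecC (Tor wT)

noncomputable section

section gen

variable {V : Type} [Fintype V] [DecidableEq V]

/-- move the total charge to `x₀` -/
def E0 (x₀ : V) : Matrix V V ℝ := Matrix.of fun x y => (if x = y then 1 else 0) -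
  if x = x₀ then 1 else 0

lemma E0_mulVec (x₀ : V) (J : V → ℝ) (x : V) :
    (E0 x₀ *ᵥ J) x = J x - if x = x₀ then ∑ y, J y else 0 := by
  simp only [E0, Matrix.mulVec, dotProduct, Matrix.of_apply, sub_mul, Finset.sum_sub_distrib,
    ite_mul, one_mul, zero_mul]
  rw [Finset.sum_ite_eq]
  simp only [Finset.mem_univ, if_true]
  congr 1
  split_ifs with h
  · rfl
  · simp

lemma E0_neu (x₀ : V) (J : V → ℝ) : Neu (E0 x₀ *ᵥ J) := by
  unfold H963.Neu
  simp only [E0_mulVec, Finset.sum_sub_distrib]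
  rw [Finset.sum_ite_eq']
  simp

lemma E0_of_neu (x₀ : V) {J : V → ℝ} (hJ : Neu J) : E0 x₀ *ᵥ J = J := by
  funext x
  rw [E0_mulVec]
  unfold H963.Neu at hJ
  rw [hJ]
  simp

lemma li_E0 (x₀ : V) (J : V → ℝ) {h : V → ℤ} (h0 : h x₀ = 0) : li (E0 x₀ *ᵥ J) h = li J h := by
  unfold TM.H104.li
  simp only [E0_mulVec, sub_mul, Finset.sum_sub_distrib, ite_mul, zero_mul]
  rw [Finset.sum_ite_eq']
  simp [h0]

lemma Lg_E0 {w : (V → ℤ) → ℝ} {M : Matrix V V ℝ} {m : ℝ} (x₀ : V) (J : V → ℝ) :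
    Lg (nM w M m x₀) (E0 x₀ *ᵥ J) = Lg (nM w M m x₀) J := by
  unfold TM.H104.Lg TM.H104.T
  congr 1
  refine tsum_congr fun h => ?_
  by_cases h0 : h x₀ = 0
  · rw [li_E0 x₀ J h0]
  · unfold H963.nM
    rw [pin_of_ne h0]
    ring

variable [Nonempty V]

/-- the pinned neutral weight has a Gaussian tail -/
theorem gt_nM {w : (V → ℤ) → ℝ} (hw : GW w) {M : Matrix V V ℝ} {m : ℝ} (hM : MF M m) (x₀ : V) :
    GT (nM w M m x₀) := by
  obtain ⟨Wb, hb⟩ := hw.bdd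
  obtain ⟨m0, hm0, hc⟩ := hM.coer
  set c : ℝ := m0 / (2 * (1 + Fintype.card V)) with hcd
  have hc0 : 0 < c := by positivity
  refine ⟨c / 2, max Wb 0, by positivity, fun h => ?_⟩
  by_cases h0 : h x₀ = 0
  · unfold H963.nM
    rw [pin_of_zero h0]
    unfold wM
    refine mul_le_mul ((hb h).trans (le_max_left _ _)) (Real.exp_le_exp.2 ?_) (Real.exp_pos _).le
      (le_max_right _ _)
    have h1 := gap_pin hm0.le (ntr_gap hM.symm hM.row hc) x₀ (re h)
    have h2 : ∑ x, (re h x - re h x₀) ^ 2 = ∑ x, (h x : ℝ) ^ 2 := by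
      refine Finset.sum_congr rfl fun x _ => ?_
      simp only [re, h0, Int.cast_zero, sub_zero]
    rw [h2] at h1
    linarith
  · unfold H963.nM
    rw [pin_of_ne h0]
    have := le_max_right Wb 0
    positivity

/-- **`Maj` for the neutral model** -/
theorem maj_nM {w : (V → ℤ) → ℝ} (hw : GW w) {M : Matrix V V ℝ} {m : ℝ} (hM : MF M m) (x₀ : V) :
    Maj (nM w M m x₀) ((E0 x₀)ᵀ * M⁻¹ * E0 x₀) where
  em := hw.em_nM hM x₀
  ev := hw.ev_nM M m x₀
  pk := hw.pk_nM hM x₀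
  gt := gt_nM hw hM x₀
  symm := by
    rw [Matrix.transpose_mul, Matrix.transpose_mul, Matrix.transpose_transpose,
      Matrix.transpose_nonsing_inv, hM.symm, Matrix.mul_assoc]
  le J := by
    have h1 := hw.Lg_nM_le_inv hM x₀ (E0_neu x₀ J)
    rw [Lg_E0] at h1
    have h2 : 0 ≤ qf (Gm (nM w M m x₀)) J := H114.qf_Cm_nonneg (hw.em_nM hM x₀) 0 J
    rw [← qf_conj]
    unfold Rs
    linarith

omit [Nonempty V] in
/-- `Maj` for the integer model -/
theorem maj_wM {w : (V → ℤ) → ℝ} (hw : GW w) {M : Matrix V V ℝ} {m : ℝ} (hM : MF M m) :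
    Maj (wM w M) M⁻¹ where
  em := hw.em_wM hM
  ev := ev_wM hw.ev M
  pk := hw.pk_wM hM
  gt := by
    obtain ⟨Wb, hb⟩ := hw.bdd
    obtain ⟨m0, hm0, hc⟩ := hM.coer
    exact H159.gt_wM hb hm0 hc
  symm := by rw [Matrix.transpose_nonsing_inv, hM.symm]
  le J := by
    have h1 := hw.Lg_le hM (M⁻¹ *ᵥ J)
    rw [hM.mulVec_inv, hM.qf_inv] at h1
    have h2 : 0 ≤ qf (Gm (wM w M)) J := H114.qf_Cm_nonneg (hw.em_wM hM) 0 J
    unfold Rs
    linarith

omit [Nonempty V] in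
/-- the neutral majorant on a matrix with neutral columns -/
lemma pr_neu (x₀ : V) (N : Matrix V V ℝ) {I : Type*} [Fintype I] {A : Matrix V I ℝ}
    (hA : ∀ i, ∑ x, A x i = 0) :
    pr ((E0 x₀)ᵀ * N * E0 x₀) (A * Aᵀ) = pr N (A * Aᵀ) := by
  have h1 : E0 x₀ * A = A := by
    ext x i
    have h2 := congrFun (E0_of_neu x₀ (J := fun y => A y i) (hA i)) x
    rw [Matrix.mul_apply]
    exact h2
  rw [← trH_conj, ← trH_conj]
  congr 1
  calc Aᵀ * ((E0 x₀)ᵀ * N * E0 x₀) * A = (E0 x₀ * A)ᵀ * N * (E0 x₀ * A) := by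
        rw [Matrix.transpose_mul]
        simp only [Matrix.mul_assoc]
    _ = Aᵀ * N * A := by rw [h1]

omit [Nonempty V] in
lemma pr_scalar (t : ℝ) {I : Type*} [Fintype I] (A : Matrix V I ℝ) :
    pr (t • (1 : Matrix V V ℝ)) (A * Aᵀ) = t * ∑ x, ∑ i, A x i ^ 2 := by
  unfold pr
  simp only [Matrix.smul_apply, smul_eq_mul, Matrix.one_apply, mul_ite, mul_one, mul_zero,
    ite_mul, zero_mul]
  rw [Finset.mul_sum]
  refine Finset.sum_congr rfl fun x _ => ?_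
  rw [Finset.sum_ite_eq]
  simp only [Finset.mem_univ, if_true, Matrix.mul_apply, Matrix.transpose_apply]
  congr 1
  exact Finset.sum_congr rfl fun i _ => by ring

omit [Nonempty V] in
lemma inv_smul_one {t : ℝ} (ht : 0 < t) :
    (t • (1 : Matrix V V ℝ))⁻¹ = t⁻¹ • (1 : Matrix V V ℝ) := by
  refine Matrix.inv_eq_right_inv ?_
  rw [Matrix.smul_mul, Matrix.mul_smul, smul_smul, Matrix.one_mul, mul_inv_cancel₀ ht.ne',
    one_smul]

end gen

/-! ### scalar masses on the torus -/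

section torus

variable {N : ℕ} [NeZero N] {b t : ℝ}

/-- the majorant of `nwt` -/
def Bnwt (N : ℕ) [NeZero N] (t : ℝ) (x₀ : Tor N) : Matrix (Tor N) (Tor N) ℝ :=
  (E0 x₀)ᵀ * (t • (1 : Matrix (Tor N) (Tor N) ℝ))⁻¹ * E0 x₀

theorem maj_nwt (hb : 0 ≤ b) (ht : 0 < t) (x₀ : Tor N) : Maj (nwt N b t x₀) (Bnwt N t x₀) :=
  maj_nM (gw_wT hb) (mf_smul ht) x₀

theorem maj_wt (hb : 0 ≤ b) (ht : 0 < t) :
    Maj (wt N b t) (t • (1 : Matrix (Tor N) (Tor N) ℝ))⁻¹ :=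
  maj_wM (gw_wT hb) (mf_smul ht)

lemma pr_Bnwt (ht : 0 < t) (x₀ : Tor N) {I : Type*} [Fintype I] {A : Matrix (Tor N) I ℝ}
    (hA : ∀ i, ∑ x, A x i = 0) : pr (Bnwt N t x₀) (A * Aᵀ) = t⁻¹ * ∑ x, ∑ i, A x i ^ 2 := by
  unfold Bnwt
  rw [pr_neu x₀ _ hA, inv_smul_one ht, pr_scalar]

end torus

end

end Vale.Agent.P159.H447
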