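import Vale.Agent.P159.H447.Sit10
import Vale.Agent.P159.H663.Drl1

/-!
P159 (helper447), **TYPS, part 11: the door in field letters** (`T = tT N q`, helper663's `Drl1`;
`RF N b t F = Rs (nwt N b t 0) (Pt t F)`).

* `RF_off` : `RF (S (F - T F)) ≤ dav S F`; `RF_tent` : `RF (S T F) ≤ (RF (2 S F) + dav (-2 S) F) / 2`;
* `door_RF` : **`E RF (S (F - T F)) ≤ C (t N²)⁴ (1 + S²)³ (2 ^ n √t) ^ c`** under `nuS`, every real `S`;
* `door_prob` : Markov; `tent_typ` : `T F` typical, from the cell input `TypE` at amplitude `4 Y`.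
-/

set_option linter.unusedSectionVars false

namespace Vale.Agent.P159.H447

open Finset Matrix MeasureTheory Filter Topology
open Vale.Agent.P159.TM.H104 (EM Ex Cv Lg li nh Gr)
open Vale.Agent.P159.H37
open Vale.Agent.P159.TM.Spec (V)
open Vale.Agent.P159.TM.SpecC (wT)
open Vale.Agent.P159.H963 (Pn nM pin ntr nwt nMC obsN MF Neu Pn_transpose Pn_mul_Pn neu_Pn gw_wT)
open Vale.Agent.P159.H883 (nuM Enu CI XG BW bw_wT Zp Wt)
open Vale.Agent.P159.H276 (bxT)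
open Vale.Agent.P159.H239 (TypE)
open Vale.Agent.P159.H963.Core (RF)
open Vale.Agent.P159.H663.Dr (tT)

noncomputable section

variable {N l : ℕ} [NeZero N] {b t s : ℝ}

lemma tent_eq (q : ℕ) (F : V N → ℝ) : tent N q F = tT N q F := rfl

lemma src_Pt (t : ℝ) (F : V N → ℝ) : src N t F = H817.Pt t F := by
  rw [src_eq]
  unfold H817.Pt
  rw [mulVec_smul]

lemma RF_src (F : V N → ℝ) : RF N b t F = Rs (nwt N b t 0) (src N t F) := by
  rw [src_Pt]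
  rfl

lemma src_smul (t c : ℝ) (F : V N → ℝ) : src N t (c • F) = c • src N t F := mulVec_smul _ _ _

lemma src_sub (t : ℝ) (F G : V N → ℝ) : src N t (F - G) = src N t F - src N t G := mulVec_sub _ _ _

/-- the tent average of a source is the source of the tent average -/
lemma src_tT (hl : 0 < l) (t : ℝ) (F : V N → ℝ) : src N t (tT N l F) = tT N l (src N t F) := by
  rw [src_eq, src_eq, H663.Dr.tT_smul]
  congr 1
  rw [H963.Pn_mulVec, H963.Pn_mulVec, H663.Dr.sum_tT hl]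
  have e : (fun x => F x - (∑ y, F y) / (Fintype.card (V N) : ℝ)) =
      fun x => F x + -((∑ y, F y) / (Fintype.card (V N) : ℝ)) := by
    funext x
    rw [sub_eq_add_neg]
  rw [e, H663.Dr.tT_addc hl]
  funext x
  rw [sub_eq_add_neg]

/-- `RF` off the tent kernel -/
theorem RF_off (hb : 0 ≤ b) (ht : 0 < t) (hl : l ∣ N) (S : ℝ) (F : V N → ℝ) :
    RF N b t (S • (F - tT N l F)) ≤ dav N l b t S F := by
  have hl0 : 0 < l := Nat.pos_of_dvd_of_pos hl (NeZero.pos N)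
  rw [RF_src, src_smul, src_sub, src_tT hl0]
  exact rsn_tent hb ht hl S F

/-- `RF` of the tent average -/
theorem RF_tent (hb : 0 ≤ b) (ht : 0 < t) (hl : l ∣ N) (S : ℝ) (F : V N → ℝ) :
    RF N b t (S • tT N l F) ≤ (RF N b t ((2 * S) • F) + dav N l b t (-(2 * S)) F) / 2 := by
  have hl0 : 0 < l := Nat.pos_of_dvd_of_pos hl (NeZero.pos N)
  rw [RF_src, src_smul, src_tT hl0, RF_src, src_smul]
  exact tent_R hb ht hl S F

lemma cont_RF (hb : 0 ≤ b) (ht : 0 < t) : Continuous (RF N b t) := by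
  have e : RF N b t = fun F => Rs (nwt N b t 0) (src N t F) := funext fun F => RF_src F
  rw [e]
  exact (cont_rsn hb ht 0).comp (cont_mulVec _)

lemma cont_tT (q : ℕ) : Continuous fun F : V N → ℝ => tT N q F := by
  unfold tT bxT
  fun_prop

/-- **THE DOOR, field letters** -/
theorem door_RF (hb : 0 < b) : ∃ C c : ℝ, 0 ≤ C ∧ 0 < c ∧ c ≤ 1 ∧
    ∀ (N : ℕ) [NeZero N] (n p : ℕ), 2 ^ n ∣ N → 2 ^ p ∣ N →
    ∀ t : ℝ, 0 < t → t * ((2 : ℝ) ^ n) ^ 2 ≤ 1 → 1 < t * 4 ^ (p + 1) → 1 ≤ t * (N : ℝ) ^ 2 →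
    ∀ S : ℝ,
    Integrable (fun F => RF N b t (S • (F - tT N (2 ^ n) F))) (nuS N b t) ∧
    ∫ F, RF N b t (S • (F - tT N (2 ^ n) F)) ∂(nuS N b t) ≤
      C * ((t * (N : ℝ) ^ 2) ^ 4 * (1 + S ^ 2) ^ 3) * ((2 : ℝ) ^ n * √t) ^ c := by
  obtain ⟨C, c, hC, hc, hc1, h⟩ := door_R hb
  refine ⟨C, c, hC, hc, hc1, ?_⟩
  intro N _ n p hn hp t ht htn htp htN S
  obtain ⟨r1, r2⟩ := h N n p hn hp t ht htn htp htN S
  have hm : Continuous fun F : V N → ℝ => RF N b t (S • (F - tT N (2 ^ n) F)) :=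
    (cont_RF hb.le ht).comp ((continuous_id.sub (cont_tT _)).const_smul S)
  have h0 : ∀ F : V N → ℝ, 0 ≤ RF N b t (S • (F - tT N (2 ^ n) F)) := fun F => by
    rw [RF_src]
    exact rsn_nonneg hb.le ht 0 _
  have hI : Integrable (fun F => RF N b t (S • (F - tT N (2 ^ n) F))) (nuS N b t) := by
    refine r1.mono' hm.measurable.aestronglyMeasurable (Filter.Eventually.of_forall fun F => ?_)
    rw [Real.norm_eq_abs, abs_of_nonneg (h0 F)]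
    exact RF_off hb.le ht hn S F
  exact ⟨hI, (integral_mono hI r1 fun F => RF_off hb.le ht hn S F).trans r2⟩

lemma markov_S (hb : 0 < b) (ht : 0 < t) {g : (V N → ℝ) → ℝ} (hI : Integrable g (nuS N b t))
    (h0 : ∀ F, 0 ≤ g F) {ρ B : ℝ} (hρ : 0 < ρ) (hB : ∫ F, g F ∂(nuS N b t) ≤ B) :
    (nuS N b t).real {F | ρ < g F} ≤ B / ρ := by
  have hpr := prob_nuS (N := N) hb ht
  have h1 := mul_meas_ge_le_integral_of_nonneg (μ := nuS N b t)
    (Filter.Eventually.of_forall h0) hI ρ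
  have h2 : (nuS N b t).real {F | ρ < g F} ≤ (nuS N b t).real {F | ρ ≤ g F} :=
    measureReal_mono fun F hF => by
      simp only [Set.mem_ofPred_eq] at hF ⊢
      exact hF.le
  rw [le_div_iff₀ hρ]
  calc (nuS N b t).real {F | ρ < g F} * ρ ≤ (nuS N b t).real {F | ρ ≤ g F} * ρ :=
        mul_le_mul_of_nonneg_right h2 hρ.le
    _ = ρ * (nuS N b t).real {F | ρ ≤ g F} := mul_comm _ _
    _ ≤ B := h1.trans hB

/-- **the door in probability** -/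
theorem door_prob (hb : 0 < b) : ∃ C c : ℝ, 0 ≤ C ∧ 0 < c ∧ c ≤ 1 ∧
    ∀ (N : ℕ) [NeZero N] (n p : ℕ), 2 ^ n ∣ N → 2 ^ p ∣ N →
    ∀ t : ℝ, 0 < t → t * ((2 : ℝ) ^ n) ^ 2 ≤ 1 → 1 < t * 4 ^ (p + 1) → 1 ≤ t * (N : ℝ) ^ 2 →
    ∀ S ρ : ℝ, 0 < ρ →
    (nuS N b t).real {F | ρ < RF N b t (S • (F - tT N (2 ^ n) F))} ≤
      C * ((t * (N : ℝ) ^ 2) ^ 4 * (1 + S ^ 2) ^ 3) * ((2 : ℝ) ^ n * √t) ^ c / ρ := by
  obtain ⟨C, c, hC, hc, hc1, h⟩ := door_RF hb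
  refine ⟨C, c, hC, hc, hc1, ?_⟩
  intro N _ n p hn hp t ht htn htp htN S ρ hρ
  obtain ⟨r1, r2⟩ := h N n p hn hp t ht htn htp htN S
  exact markov_S hb ht r1 (fun F => by rw [RF_src]; exact rsn_nonneg hb.le ht 0 _) hρ r2

/-- **the tent average of the field is typical** -/
theorem tent_typ (hb : 0 < b) : ∃ C c : ℝ, 0 ≤ C ∧ 0 < c ∧ c ≤ 1 ∧
    ∀ (N : ℕ) [NeZero N] (n p : ℕ), 2 ^ n ∣ N → 2 ^ p ∣ N → ∀ [NeZero (N / 2 ^ n)],
    ∀ t : ℝ, 0 < t → t * ((2 : ℝ) ^ n) ^ 2 ≤ 1 → t * ((2 : ℝ) ^ p) ^ 2 ≤ 1 →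
      1 < t * 4 ^ (p + 1) → 9 ≤ t * (N : ℝ) ^ 2 →
    ∀ Y ρ q : ℝ, 1 ≤ Y → 0 < ρ →
      (∀ᶠ s in 𝓝[>] (0 : ℝ), TypE N (2 ^ n) b t s (4 * Y) ρ q) →
    (nuS N b t).real {F | 2 * ρ < RF N b t (Y • tT N (2 ^ n) F)} ≤
      2 * q + C * ((t * (N : ℝ) ^ 2) ^ 4 * (1 + Y ^ 2) ^ 3) * ((2 : ℝ) ^ n * √t) ^ c *
        (1 + 1 / ρ) := by
  obtain ⟨C1, c1, hC1, hc1, hc1', h1⟩ := door_R hb
  obtain ⟨C2, c2, hC2, hc2, hc2', h2⟩ := sit_typ_scal hb
  refine ⟨64 * C1 + 64 * C2, min c1 c2, by positivity, lt_min hc1 hc2,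
    (min_le_left _ _).trans hc1', ?_⟩
  intro N _ n p hn hp _ t ht htn htp htp1 htN Y ρ q hY hρ hq
  have hpr := prob_nuS (N := N) hb ht
  set X : ℝ := (2 : ℝ) ^ n * √t with hX
  have hX0 : 0 < X := by have := Real.sqrt_pos.2 ht; positivity
  have hX2 : X ^ 2 = t * ((2 : ℝ) ^ n) ^ 2 := by
    rw [hX, mul_pow, Real.sq_sqrt ht.le]
    ring
  have hX1 : X ≤ 1 := (pow_le_one_iff_of_nonneg hX0.le two_ne_zero).1 (hX2.le.trans htn)
  set A : ℝ := (t * (N : ℝ) ^ 2) ^ 4 with hA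
  have hA0 : 0 ≤ A := by positivity
  have hY0 : 0 < Y := by linarith
  have a1 := h1 N n p hn hp t ht htn htp1 (by linarith) (-(2 * (Y : ℝ)))
  have b1 := markov_S hb ht a1.1 (fun F => dav_nonneg hb.le ht _ F) (show (0 : ℝ) < 2 * ρ by
    positivity) a1.2
  have b2 := h2 N n p hn hp t ht htn htp htp1 htN (2 * Y) ρ q (by linarith) hρ (by
    filter_upwards [hq] with s hs
    rwa [show 2 * (2 * Y) = 4 * Y by ring])
  have hsub : {F | 2 * ρ < RF N b t (Y • tT N (2 ^ n) F)} ⊆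
      {F | 2 * ρ < Rs (nwt N b t 0) ((2 * Y) • src N t F)} ∪
        {F | 2 * ρ < dav N (2 ^ n) b t (-(2 * Y)) F} := by
    intro F hF
    by_contra hcon
    rw [Set.mem_union, not_or] at hcon
    obtain ⟨g1, g2⟩ := hcon
    simp only [Set.mem_ofPred_eq, not_lt] at g1 g2
    have h3 := RF_tent hb.le ht hn Y F
    rw [RF_src ((2 * Y) • F), src_smul] at h3
    have h4 : 2 * ρ < RF N b t (Y • tT N (2 ^ n) F) := hF
    linarith
  have k1 : X ^ c1 ≤ X ^ min c1 c2 := Real.rpow_le_rpow_of_exponent_ge hX0 hX1 (min_le_left _ _)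
  have k2 : X ^ c2 ≤ X ^ min c1 c2 := Real.rpow_le_rpow_of_exponent_ge hX0 hX1 (min_le_right _ _)
  have hK : 0 ≤ X ^ min c1 c2 := Real.rpow_nonneg hX0.le _
  have y1 : (1 + (-(2 * Y)) ^ 2) ^ 3 ≤ 64 * (1 + Y ^ 2) ^ 3 := by
    have : 1 + (-(2 * Y)) ^ 2 ≤ 4 * (1 + Y ^ 2) := by nlinarith [sq_nonneg Y]
    calc (1 + (-(2 * Y)) ^ 2) ^ 3 ≤ (4 * (1 + Y ^ 2)) ^ 3 :=
          pow_le_pow_left₀ (by positivity) this 3
      _ = _ := by ring
  have y2 : (2 * Y) ^ 6 ≤ 64 * (1 + Y ^ 2) ^ 3 := by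
    have : Y ^ 2 ≤ 1 + Y ^ 2 := by linarith
    calc (2 * Y) ^ 6 = 64 * (Y ^ 2) ^ 3 := by ring
      _ ≤ 64 * (1 + Y ^ 2) ^ 3 := by
          have := pow_le_pow_left₀ (sq_nonneg Y) this 3
          linarith
  have hρ' : (1 : ℝ) / (2 * ρ) ≤ 1 + 1 / ρ := by
    have : (1 : ℝ) / (2 * ρ) ≤ 1 / ρ := one_div_le_one_div_of_le hρ (by linarith)
    have h0 : (0 : ℝ) < 1 / ρ := by positivity
    linarith
  have hρ0 : (0 : ℝ) ≤ 1 + 1 / ρ := by positivity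
  set G : ℝ := A * (1 + Y ^ 2) ^ 3 with hG
  have hG0 : 0 ≤ G := by positivity
  have e1 : C1 * (A * (1 + (-(2 * Y)) ^ 2) ^ 3) * X ^ c1 / (2 * ρ) ≤
      64 * C1 * G * X ^ min c1 c2 * (1 + 1 / ρ) := by
    rw [div_eq_mul_one_div]
    refine mul_le_mul ?_ hρ' (by positivity) (by positivity)
    refine mul_le_mul ?_ k1 (Real.rpow_nonneg hX0.le _) (by positivity)
    calc C1 * (A * (1 + (-(2 * Y)) ^ 2) ^ 3) ≤ C1 * (A * (64 * (1 + Y ^ 2) ^ 3)) :=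
          mul_le_mul_of_nonneg_left (mul_le_mul_of_nonneg_left y1 hA0) hC1
      _ = 64 * C1 * G := by rw [hG]; ring
  have e2 : C2 * (A * (2 * Y) ^ 6) * X ^ c2 * (1 + 1 / ρ) ≤
      64 * C2 * G * X ^ min c1 c2 * (1 + 1 / ρ) := by
    refine mul_le_mul_of_nonneg_right ?_ hρ0
    refine mul_le_mul ?_ k2 (Real.rpow_nonneg hX0.le _) (by positivity)
    calc C2 * (A * (2 * Y) ^ 6) ≤ C2 * (A * (64 * (1 + Y ^ 2) ^ 3)) :=
          mul_le_mul_of_nonneg_left (mul_le_mul_of_nonneg_left y2 hA0) hC2.le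
      _ = 64 * C2 * G := by rw [hG]; ring
  calc (nuS N b t).real {F | 2 * ρ < RF N b t (Y • tT N (2 ^ n) F)}
      ≤ (nuS N b t).real ({F | 2 * ρ < Rs (nwt N b t 0) ((2 * Y) • src N t F)} ∪
        {F | 2 * ρ < dav N (2 ^ n) b t (-(2 * Y)) F}) := measureReal_mono hsub
    _ ≤ _ := measureReal_union_le _ _
    _ ≤ (2 * q + C2 * (A * (2 * Y) ^ 6) * X ^ c2 * (1 + 1 / ρ)) +
        C1 * (A * (1 + (-(2 * Y)) ^ 2) ^ 3) * X ^ c1 / (2 * ρ) := add_le_add b2 b1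
    _ ≤ 2 * q + (64 * C1 + 64 * C2) * G * X ^ min c1 c2 * (1 + 1 / ρ) := by
        have : (64 * C1 + 64 * C2) * G * X ^ min c1 c2 * (1 + 1 / ρ) =
            64 * C1 * G * X ^ min c1 c2 * (1 + 1 / ρ) +
              64 * C2 * G * X ^ min c1 c2 * (1 + 1 / ρ) := by ring
        rw [this]
        linarith

end

end Vale.Agent.P159.H447
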