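import Vale.Agent.P159.H447.Sit5

/-!
P159 (helper447), **TYPS, part 6**: small linear images of the source of the channel of all sites;
probabilities under `nuM` from probabilities of the channels.
-/

set_option linter.unusedSectionVars false

namespace Vale.Agent.P159.H447

open Finset Matrix MeasureTheory Filter Topology
open Vale.Agent.P159.TM.H104 (EM Ex Cv Lg li nh Gr)
open Vale.Agent.P159.H37
open Vale.Agent.P159.TM.Spec (V)
open Vale.Agent.P159.TM.SpecC (wT)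
open Vale.Agent.P159.H963 (Pn nM pin ntr nwt nMC obsN MF Neu Pn_transpose Pn_mul_Pn neu_Pn gw_wT)
open Vale.Agent.P159.H883 (nuM Enu CI XG BW bw_wT Zp)
open Vale.Agent.P159.H462 (chm Ech_chm chI_iff chm_prob)
open Vale.Agent.P159.H692 (M6)
open Vale.Agent.P159.H663 (ChI)

noncomputable section

variable {N : ℕ} [NeZero N] {b t s : ℝ}

/-! ### calculus of `Rs` at scalar mass -/

lemma rsn_nonneg (hb : 0 ≤ b) (ht : 0 < t) (x₀ : V N) (J : V N → ℝ) : 0 ≤ Rs (nwt N b t x₀) J :=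
  H789.Rs_nonneg (em_nwt' hb ht x₀) ((gw_wT hb).ev_nM _ _ x₀) ((gw_wT hb).pk_nM (mf_scal ht) x₀) J

lemma rsn_mid (hb : 0 ≤ b) (ht : 0 < t) (x₀ : V N) (A B : V N → ℝ) :
    Rs (nwt N b t x₀) (A + B) ≤
      (Rs (nwt N b t x₀) ((2 : ℝ) • A) + Rs (nwt N b t x₀) ((2 : ℝ) • B)) / 2 := by
  have h := (H789.Rs_convex (em_nwt' hb ht x₀) ((gw_wT hb).ev_nM _ _ x₀)
    ((gw_wT hb).pk_nM (mf_scal ht) x₀)).2
    (Set.mem_univ ((2 : ℝ) • A)) (Set.mem_univ ((2 : ℝ) • B)) (show (0 : ℝ) ≤ 1 / 2 by norm_num)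
    (show (0 : ℝ) ≤ 1 / 2 by norm_num) (by norm_num)
  have e : (1 / 2 : ℝ) • ((2 : ℝ) • A) + (1 / 2 : ℝ) • ((2 : ℝ) • B) = A + B := by
    ext x
    simp only [Pi.add_apply, Pi.smul_apply, smul_eq_mul]
    ring
  rw [e] at h
  simp only [smul_eq_mul] at h
  have h' : Rs (nwt N b t x₀) (A + B) ≤ 1 / 2 * Rs (nwt N b t x₀) ((2 : ℝ) • A) +
      1 / 2 * Rs (nwt N b t x₀) ((2 : ℝ) • B) := h
  linarith

lemma rsn_scale (hb : 0 ≤ b) (ht : 0 < t) (x₀ : V N) (J : V N → ℝ) {a : ℝ} (ha : 0 ≤ a)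
    (ha1 : a ≤ 1) : Rs (nwt N b t x₀) (a • J) ≤ a * Rs (nwt N b t x₀) J := by
  have h := (H789.Rs_convex (em_nwt' hb ht x₀) ((gw_wT hb).ev_nM _ _ x₀)
    ((gw_wT hb).pk_nM (mf_scal ht) x₀)).2
    (Set.mem_univ J) (Set.mem_univ (0 : V N → ℝ)) ha (sub_nonneg.2 ha1) (by ring)
  rw [smul_zero, add_zero] at h
  simp only [smul_eq_mul] at h
  rw [H789.Rs_zero, mul_zero, add_zero] at h
  exact h

lemma rsn_le (hb : 0 ≤ b) (ht : 0 < t) (x₀ : V N) {J : V N → ℝ} (hJ : Neu J) :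
    Rs (nwt N b t x₀) J ≤ (∑ x, J x ^ 2) / t / 2 := by
  have hE := em_nwt' (N := N) hb ht x₀
  have h1 : Rs (nwt N b t x₀) J ≤ Lg (nwt N b t x₀) J - Lg (nwt N b t x₀) 0 := by
    unfold Rs
    have h : 0 ≤ qf (Gm (nwt N b t x₀)) J := H864.qf_Cm_nonneg hE 0 J
    linarith
  have h2 := (gw_wT (N := N) hb).Lg_nM_le_inv (mf_scal ht) x₀ hJ
  have h3 := H159.qf_inv_neu_le (mf_scal (N := N) ht) ht (fun u _ => (qf_smul_one' t u).ge) hJ
  have h4 : Lg (nwt N b t x₀) J - Lg (nwt N b t x₀) 0 ≤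
      qf (t • (1 : Matrix (V N) (V N) ℝ))⁻¹ J / 2 := h2
  linarith

lemma cont_rsn (hb : 0 ≤ b) (ht : 0 < t) (x₀ : V N) : Continuous fun J => Rs (nwt N b t x₀) J :=
  H692.continuous_Rs (em_nwt' hb ht x₀)

lemma cont_mulVec (A : Matrix (V N) (V N) ℝ) : Continuous fun J : V N → ℝ => A *ᵥ J := by
  refine continuous_pi fun x => ?_
  simp only [mulVec, dotProduct]
  fun_prop

/-! ### small images -/

lemma sum_cellP_sq {l : ℕ} (hl : l ∣ N) : ∑ x, ∑ y, cellP N l x y ^ 2 = ((N / l : ℕ) : ℝ) ^ 2 := by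
  have := H159.nez_div hl
  rw [← H864.trace_cellP hl, Matrix.trace]
  refine Finset.sum_congr rfl fun x _ => ?_
  have h := congrFun (congrFun (H864.cellP_mul_self hl) x) x
  rw [Matrix.mul_apply] at h
  rw [diag_apply, ← h]
  refine Finset.sum_congr rfl fun y _ => ?_
  have h2 := congrFun (congrFun (H864.cellP_tr N l) x) y
  rw [Matrix.transpose_apply] at h2
  rw [h2]
  ring

/-- **ANY IMAGE, crude constant** -/
theorem any_site (hb : 0 ≤ b) : ∃ C : ℝ, 0 < C ∧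
    ∀ (N : ℕ) [NeZero N] (p : ℕ), 2 ^ p ∣ N →
    ∀ t : ℝ, 0 < t → t * ((2 : ℝ) ^ p) ^ 2 ≤ 1 → 1 < t * 4 ^ (p + 1) → 1 ≤ t * (N : ℝ) ^ 2 →
    ∀ s : ℝ, 0 < s → s ≤ t → s * (N : ℝ) ^ 2 ≤ kb b →
    ∀ (T : Matrix (V N) (V N) ℝ) (kT : ℝ), 1 ≤ kT →
      (∀ v : V N → ℝ, ∑ x, (Tᵀ *ᵥ v) x ^ 2 ≤ kT * ∑ x, v x ^ 2) → (∀ J, Neu (T *ᵥ J)) →
    ChI (nwt N b s 0) 0 (obS N (t - s)) (fun J => Rs (nwt N b t 0) ((2 : ℝ) • (T *ᵥ J))) ∧
    Ech (nwt N b s 0) 0 (obS N (t - s)) (fun J => Rs (nwt N b t 0) ((2 : ℝ) • (T *ᵥ J))) ≤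
      C * ((t * (N : ℝ) ^ 2) ^ 4 * kT ^ 3) := by
  obtain ⟨C, c, hC, hc, hc1, h⟩ := rough_site hb
  have hk := kb_pos hb
  refine ⟨32 * C + 32 * (22 / kb b), by positivity, ?_⟩
  intro N _ p hp t ht htp htp1 htN s hs hst hsN T kT hkT hT hneu
  have hμ := em_nwt' (N := N) hb hs (0 : V N)
  have hμt := em_nwt' (N := N) hb ht (0 : V N)
  have hkT0 : 0 < kT := by linarith
  set P := cellP N (2 ^ p) with hP
  -- rough part
  have hT2 : ∀ v : V N → ℝ, ∑ x, (((2 : ℝ) • T)ᵀ *ᵥ v) x ^ 2 ≤ 4 * kT * ∑ x, v x ^ 2 := by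
    intro v
    have e : ∑ x, (((2 : ℝ) • T)ᵀ *ᵥ v) x ^ 2 = 4 * ∑ x, (Tᵀ *ᵥ v) x ^ 2 := by
      rw [Finset.mul_sum]
      refine Finset.sum_congr rfl fun x _ => ?_
      rw [transpose_smul, smul_mulVec, Pi.smul_apply, smul_eq_mul]
      ring
    rw [e, mul_assoc]
    exact mul_le_mul_of_nonneg_left (hT v) (by norm_num)
  obtain ⟨r1, r2⟩ := h N p p hp hp t ht htp htp1 htN s hs hst hsN ((2 : ℝ) • T) (4 * kT)
    (by linarith) hT2
  -- coarse part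
  have hm6 := m6_site hb hs hst htN hsN hkT0 hT
  have hcp := chm_prob hμ 0 (obS N (t - s))
  have hmap : Measurable fun g : V N → ℝ => T *ᵥ ((obS N (t - s))ᵀ *ᵥ g) := by
    refine measurable_pi_lambda _ fun x => ?_
    simp only [mulVec, dotProduct]
    fun_prop
  have hpr : IsProbabilityMeasure ((chm (nwt N b s 0) 0 (obS N (t - s))).map
      fun g => T *ᵥ ((obS N (t - s))ᵀ *ᵥ g)) := Measure.isProbabilityMeasure_map hmap.aemeasurable
  have hsq : ∀ x : V N, EGr fun J : V N → ℝ => ((P *ᵥ (T *ᵥ J)) x) ^ 2 := fun x => by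
    have e : ∀ J : V N → ℝ, (P *ᵥ (T *ᵥ J)) x = (Tᵀ *ᵥ (P x)) ⬝ᵥ J := fun J => by
      show P x ⬝ᵥ (T *ᵥ J) = _
      rw [dotProduct_mulVec, ← mulVec_transpose]
    simp only [e]
    exact H692.egr_pow (H663.EGr.dot _) 2
  have h2 : ∀ x : V N, Ech (nwt N b s 0) 0 (obS N (t - s)) (fun J => ((P *ᵥ (T *ᵥ J)) x) ^ 2) ≤
      22 / kb b * (t * (t * (N : ℝ) ^ 2)) * kT * ∑ y, P x y ^ 2 := by
    intro x
    have h3 := hm6.le2 (P x)
    rw [integral_map hmap.aemeasurable ((H692.meas_dot _).pow_const 2).aestronglyMeasurable] at h3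
    rw [Ech_chm hμ]
    simp only [zero_add]
    exact h3
  have hc2 : ∀ J : V N → ℝ, Rs (nwt N b t 0) ((4 : ℝ) • (P *ᵥ (T *ᵥ J))) ≤
      8 / t * ∑ x, ((P *ᵥ (T *ᵥ J)) x) ^ 2 := by
    intro J
    have hn : Neu (P *ᵥ (T *ᵥ J)) := by
      have e : P *ᵥ (T *ᵥ J) = T *ᵥ J - (1 - P) *ᵥ (T *ᵥ J) := by
        rw [sub_mulVec, one_mulVec]
        abel
      rw [e]
      refine (hneu J).sub (H692.sum_of_cellP hp ?_)
      rw [mulVec_mulVec, Matrix.mul_sub, Matrix.mul_one, H864.cellP_idem hp, sub_self,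
        Matrix.zero_mulVec]
    refine (rsn_le hb ht 0 (hn.smul 4)).trans (le_of_eq ?_)
    have e : ∑ x, ((4 : ℝ) • (P *ᵥ (T *ᵥ J))) x ^ 2 = 16 * ∑ x, ((P *ᵥ (T *ᵥ J)) x) ^ 2 := by
      rw [Finset.mul_sum]
      exact Finset.sum_congr rfl fun x _ => by rw [Pi.smul_apply, smul_eq_mul]; ring
    rw [e]
    ring
  have hES : EGr fun J : V N → ℝ => 8 / t * ∑ x, ((P *ᵥ (T *ᵥ J)) x) ^ 2 := by
    have h3 : ∀ S : Finset (V N), EGr fun J : V N → ℝ => ∑ x ∈ S, ((P *ᵥ (T *ᵥ J)) x) ^ 2 := by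
      classical
      intro S
      induction S using Finset.induction_on with
      | empty => simpa using EGr.const (V := V N) 0
      | insert x S hx ih =>
        simp only [Finset.sum_insert hx]
        exact (hsq x).add ih
    exact (h3 univ).cmul (8 / t)
  have hEc : Ech (nwt N b s 0) 0 (obS N (t - s)) (fun J => 8 / t * ∑ x, ((P *ᵥ (T *ᵥ J)) x) ^ 2) ≤
      32 * (22 / kb b) * (2 * ((t * (N : ℝ) ^ 2) ^ 4 * kT ^ 3)) / 2 := by
    rw [Ech_cmul]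
    have h3 : ∀ S : Finset (V N), Ech (nwt N b s 0) 0 (obS N (t - s))
        (fun J => ∑ x ∈ S, ((P *ᵥ (T *ᵥ J)) x) ^ 2) ≤
        ∑ x ∈ S, 22 / kb b * (t * (t * (N : ℝ) ^ 2)) * kT * ∑ y, P x y ^ 2 := by
      classical
      intro S
      induction S using Finset.induction_on with
      | empty =>
        simp only [Finset.sum_empty]
        rw [Ech_const hμ]
      | insert x S hx ih =>
        simp only [Finset.sum_insert hx]
        have hSE : EGr fun J : V N → ℝ => ∑ x ∈ S, ((P *ᵥ (T *ᵥ J)) x) ^ 2 := by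
          have h4 : ∀ S : Finset (V N), EGr fun J : V N → ℝ => ∑ x ∈ S, ((P *ᵥ (T *ᵥ J)) x) ^ 2 := by
            intro S
            induction S using Finset.induction_on with
            | empty => simpa using EGr.const (V := V N) 0
            | insert x S hx ih =>
              simp only [Finset.sum_insert hx]
              exact (hsq x).add ih
          exact h4 S
        rw [Ech_add hμ 0 _ (hsq x) hSE]
        exact add_le_add (h2 x) ih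
    have h4 := h3 univ
    rw [← Finset.mul_sum, sum_cellP_sq hp] at h4
    have hNp : ((N / 2 ^ p : ℕ) : ℝ) ^ 2 ≤ 4 * (t * (N : ℝ) ^ 2) := by
      rw [Nat.cast_div hp (by positivity), div_pow, div_le_iff₀ (by positivity)]
      have e : ((2 ^ p : ℕ) : ℝ) ^ 2 = 4 ^ p := by
        push_cast
        rw [← pow_mul, mul_comm, pow_mul]
        norm_num
      rw [e]
      have h5 : 1 ≤ 4 * (t * 4 ^ p) := by
        rw [pow_succ] at htp1
        linarith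
      calc (N : ℝ) ^ 2 = (N : ℝ) ^ 2 * 1 := (mul_one _).symm
        _ ≤ (N : ℝ) ^ 2 * (4 * (t * 4 ^ p)) := mul_le_mul_of_nonneg_left h5 (by positivity)
        _ = _ := by ring
    have h6 : 22 / kb b * (t * (t * (N : ℝ) ^ 2)) * kT * ((N / 2 ^ p : ℕ) : ℝ) ^ 2 ≤
        22 / kb b * (t * (t * (N : ℝ) ^ 2)) * kT * (4 * (t * (N : ℝ) ^ 2)) :=
      mul_le_mul_of_nonneg_left hNp (by positivity)
    have h7 := mul_le_mul_of_nonneg_left (h4.trans h6) (show 0 ≤ 8 / t by positivity)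
    refine h7.trans ?_
    set a := t * (N : ℝ) ^ 2 with ha
    have e : 8 / t * (22 / kb b * (t * a) * kT * (4 * a)) = 32 * (22 / kb b) * (a ^ 2 * kT) := by
      field_simp
      ring
    rw [e]
    have h8 : a ^ 2 * kT ≤ a ^ 4 * kT ^ 3 := by
      have h9 : a ^ 2 ≤ a ^ 4 := pow_le_pow_right₀ htN (by norm_num)
      have h10 : kT ≤ kT ^ 3 := by
        calc kT = kT ^ 1 := (pow_one _).symm
          _ ≤ kT ^ 3 := pow_le_pow_right₀ hkT (by norm_num)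
      exact mul_le_mul h9 h10 hkT0.le (by positivity)
    calc 32 * (22 / kb b) * (a ^ 2 * kT) ≤ 32 * (22 / kb b) * (a ^ 4 * kT ^ 3) :=
          mul_le_mul_of_nonneg_left h8 (by positivity)
      _ = _ := by ring
  have hcI : ChI (nwt N b s 0) 0 (obS N (t - s)) (fun J => 8 / t * ∑ x, ((P *ᵥ (T *ᵥ J)) x) ^ 2) :=
    ChI.of_EGr hμ 0 _ hES
  -- sum
  have hpt : ∀ J : V N → ℝ, Rs (nwt N b t 0) ((2 : ℝ) • (T *ᵥ J)) ≤
      (1 / 2) * Rs (nwt N b t 0) ((2 : ℝ) • ((1 - P) *ᵥ (((2 : ℝ) • T) *ᵥ J))) +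
        (1 / 2) * (8 / t * ∑ x, ((P *ᵥ (T *ᵥ J)) x) ^ 2) := by
    intro J
    have e : (2 : ℝ) • (T *ᵥ J) = (1 - P) *ᵥ (((2 : ℝ) • T) *ᵥ J) + (2 : ℝ) • (P *ᵥ (T *ᵥ J)) := by
      rw [smul_mulVec, sub_mulVec, one_mulVec, mulVec_smul]
      abel
    rw [e]
    refine (rsn_mid hb ht 0 _ _).trans ?_
    have e2 : (2 : ℝ) • ((2 : ℝ) • (P *ᵥ (T *ᵥ J))) = (4 : ℝ) • (P *ᵥ (T *ᵥ J)) := by
      rw [smul_smul]
      norm_num
    rw [e2]
    have := hc2 J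
    linarith
  have hsum := (r1.cmul (1 / 2)).add (hcI.cmul (1 / 2))
  have hmeas : Measurable fun J : V N → ℝ => Rs (nwt N b t 0) ((2 : ℝ) • (T *ᵥ J)) :=
    ((cont_rsn hb ht 0).comp ((cont_mulVec T).const_smul (2 : ℝ))).measurable
  have hI : ChI (nwt N b s 0) 0 (obS N (t - s))
      (fun J => Rs (nwt N b t 0) ((2 : ℝ) • (T *ᵥ J))) :=
    ChI.mono hμ hmeas hsum fun J => by
      rw [abs_of_nonneg (rsn_nonneg hb ht 0 _)]
      exact hpt J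
  refine ⟨hI, ?_⟩
  have h9 := H663.Ech_mono' hμ hI hsum hpt
  rw [H663.Ech_add' (r1.cmul (1 / 2)) (hcI.cmul (1 / 2)), Ech_cmul, Ech_cmul] at h9
  have h10 : ((2 : ℝ) ^ p * √t) ^ c ≤ 1 := by
    refine Real.rpow_le_one (by positivity) ?_ hc.le
    have h11 : ((2 : ℝ) ^ p * √t) ^ 2 ≤ 1 := by
      rw [mul_pow, Real.sq_sqrt ht.le]
      linarith
    exact (pow_le_one_iff_of_nonneg (by positivity) (by norm_num)).1 h11
  have h12 : C * ((t * (N : ℝ) ^ 2) ^ 4 * (4 * kT) ^ 3) * ((2 : ℝ) ^ p * √t) ^ c ≤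
      C * ((t * (N : ℝ) ^ 2) ^ 4 * (4 * kT) ^ 3) :=
    mul_le_of_le_one_right (by positivity) h10
  have h13 : C * ((t * (N : ℝ) ^ 2) ^ 4 * (4 * kT) ^ 3) =
      64 * C * ((t * (N : ℝ) ^ 2) ^ 4 * kT ^ 3) := by ring
  have h14 := r2.trans h12
  rw [h13] at h14
  obtain ⟨X, hX⟩ : ∃ X : ℝ, X = (t * (N : ℝ) ^ 2) ^ 4 * kT ^ 3 := ⟨_, rfl⟩
  rw [← hX] at h14 hEc ⊢
  have hX0 : 0 ≤ X := by rw [hX]; positivity
  have hX1 : 0 ≤ 22 / kb b * X := by positivity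
  calc _ ≤ _ := h9
    _ ≤ 1 / 2 * (64 * C * X) + 1 / 2 * (32 * (22 / kb b) * (2 * X) / 2) :=
        add_le_add (mul_le_mul_of_nonneg_left h14 (by norm_num))
          (mul_le_mul_of_nonneg_left hEc (by norm_num))
    _ ≤ _ := by linarith

end

end Vale.Agent.P159.H447
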