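import Vale.Agent.P159.H447.Cg8

/-!
P159 / module CGT, part 3 (helper447): the whole torus, without cut.  Source `CNᵀ A g`,
`A Aᵀ = Sgn N l b T s`.

* `FulH.bad` : `Rs` and `T` of `κ CNᵀ A g` are small up to probability `p + 6 e^(-√lam/10)`;
* `FulH.AP` : a-priori probability from AP on blocks covering the torus;
* `FulH.exact` : the same bad set under the EXACT channel law.
-/

set_option linter.unusedSectionVars false

namespace Vale.Agent.P159.H447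

open Finset Matrix MeasureTheory
open Vale.Agent.P159.TM.H104 (EM Ex Cv K3 Lg li nh Gr)
open Vale.Agent.P159.H37
open Vale.Agent.P159.H159 (pr Ct)
open Vale.Agent.P159.TM.Spec (V)
open Vale.Agent.P159.TM.SpecC (wT)
open Vale.Agent.P159.H963 (GrI Neu pin Pn nwt nMC obsN Gnc gw_wT mf_smul)
open Vale.Agent.P159.H859 (Sgn dB dB_tr psd_of)
open Vale.Agent.P159.H730 (wN)

noncomputable section

variable {N l : ℕ} [NeZero N] [NeZero (N / l)]
variable {b T s : ℝ} {I : Type*} [Fintype I] {A : Matrix (V (N / l)) I ℝ}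

/-- one prior, whole torus -/
structure Ful (N l : ℕ) [NeZero N] [NeZero (N / l)] (b T s : ℝ)
    (A : Matrix (V (N / l)) I ℝ) : Prop where
  b0 : 0 < b
  dl : l ∣ N
  s0 : 0 < s
  sT : s < T
  cov : A * Aᵀ = Sgn N l b T s

namespace Ful

variable (h : Ful N l b T s A)
include h

lemma T0 : 0 < T := h.s0.trans h.sT

lemma maj : Maj (nwt N b T 0) (Bnwt N T 0) := maj_nwt h.b0.le h.T0 0

/-- upper bound of the covariance -/
theorem up : ((T ^ 2 / s) • ((CN N l)ᵀ * CN N l) -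
    ((CN N l)ᵀ * A) * ((CN N l)ᵀ * A)ᵀ).PosSemidef := by
  have h1 : ((T ^ 2 / s) • (1 : Matrix (V (N / l)) (V (N / l)) ℝ) - A * Aᵀ).PosSemidef := by
    rw [h.cov]
    have hT : (Sgn N l b T s)ᵀ = Sgn N l b T s := by
      rw [← h.cov, H859.gram_symm]
    refine psd_of ?_ fun u => ?_
    · rw [Matrix.transpose_sub, Matrix.transpose_smul, Matrix.transpose_one, hT]
    · rw [H859.qf_sub_m, H864.qf_smul_mat]
      have h2 := H859.Sgn_up_all (N := N) h.b0 h.dl h.T0 h.s0 h.sT u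
      have h3 : qf (1 : Matrix (V (N / l)) (V (N / l)) ℝ) u = ∑ x, u x ^ 2 := by
        rw [H37.qf_eq, Matrix.one_mulVec]
        unfold dotProduct
        exact Finset.sum_congr rfl fun x _ => by ring
      rw [h3]
      linarith
  have h4 := psd_conj_sub h1 (CN N l)ᵀ
  rw [Matrix.transpose_transpose, Matrix.mul_smul, Matrix.smul_mul, Matrix.mul_one] at h4
  have e : (CN N l)ᵀ * (A * Aᵀ) * CN N l = ((CN N l)ᵀ * A) * ((CN N l)ᵀ * A)ᵀ := by
    rw [Matrix.transpose_mul, Matrix.transpose_transpose]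
    simp only [Matrix.mul_assoc]
  rw [e] at h4
  exact h4

/-- **the fourth cumulant of the whole source** -/
theorem K4 : K4S (nwt N b T 0) (((CN N l)ᵀ * A) * ((CN N l)ᵀ * A)ᵀ)
    (((CN N l)ᵀ * A) * ((CN N l)ᵀ * A)ᵀ) ≤
      (T ^ 2 / s) ^ 2 * K4S (nwt N b T 0) (SN N l) (SN N l) := by
  have h1 := K4S_psd h.maj.em h.maj.ev h.maj.pk (psd_gram ((CN N l)ᵀ * A)) h.up
  rw [K4S_smul2, CN_gram h.dl] at h1
  exact h1

/-- **smallness of `Rs` and `T`**, amplitude `κ`, Gaussian law -/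
theorem bad {κ D lam p : ℝ} {n : ℕ} (hD : 0 < D)
    (hK : κ ^ 4 * ((T ^ 2 / s) ^ 2 * K4S (nwt N b T 0) (SN N l) (SN N l)) ≤ D)
    (hl : 0 ≤ lam)
    (hp : (gau I).real {g | 1 < Rs (nwt N b T 0) (((2 : ℝ) ^ (n + 1) * κ) •
      (((CN N l)ᵀ * A) *ᵥ g))} ≤ p) :
    (gau I).real {g | ¬(Rs (nwt N b T 0) (κ • (((CN N l)ᵀ * A) *ᵥ g)) ≤ cl n (8 * (lam * D)) ∧
      Tq (nwt N b T 0) (κ • (((CN N l)ᵀ * A) *ᵥ g)) ≤ cl n (8 * (lam * D)))} ≤
      p + 6 * Real.exp (-(√lam / 10)) := by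
  have e : (κ • ((CN N l)ᵀ * A)) * (κ • ((CN N l)ᵀ * A))ᵀ =
      (κ ^ 2) • (((CN N l)ᵀ * A) * ((CN N l)ᵀ * A)ᵀ) := by
    rw [Matrix.transpose_smul, Matrix.smul_mul, Matrix.mul_smul, smul_smul, pow_two]
  have h1 : K4S (nwt N b T 0) ((κ • ((CN N l)ᵀ * A)) * (κ • ((CN N l)ᵀ * A))ᵀ)
      ((κ • ((CN N l)ᵀ * A)) * (κ • ((CN N l)ᵀ * A))ᵀ) ≤ D := by
    rw [e, K4S_smul2]
    refine le_trans ?_ hK
    have e2 : (κ ^ 2) ^ 2 = κ ^ 4 := by ring
    rw [e2]
    have e4 : 0 ≤ κ ^ 4 := Even.pow_nonneg (by decide) κ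
    exact mul_le_mul_of_nonneg_left h.K4 e4
  have h2 := h.maj.RT_prob (κ • ((CN N l)ᵀ * A)) hD h1 n hl (p := p) (by
    simp only [Matrix.smul_mulVec, smul_smul]
    exact hp)
  simp only [Matrix.smul_mulVec] at h2
  exact h2

/-- **the a-priori probability from AP on blocks covering the torus** -/
theorem AP {ι : Type*} (S : Finset ι)
    (Bl : ι → Finset (V (N / l))) (hd : ∀ i ∈ S, ∀ j ∈ S, i ≠ j → Disjoint (Bl i) (Bl j))
    (hw : S.biUnion Bl = Finset.univ) {X a Y : ℝ} (ha : 1 ≤ a) (hY : 0 ≤ Y)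
    (hX : a * (S.card * (Y * √(T / s))) ≤ X)
    (hB : ∀ i ∈ S, (gau (V (N / l))).real
      {g | 1 < Rs (nwt N b T 0) (X • ((√T • ((CN N l)ᵀ * dB (Bl i))) *ᵥ g))} ≤ 1 / 30) :
    (gau I).real {g | 1 < Rs (nwt N b T 0) (Y • (((CN N l)ᵀ * A) *ᵥ g))} ≤
      2 * (S.card * Real.exp (-(a ^ 2 / 7))) := by
  classical
  have T0 := h.T0
  have s0 := h.s0
  refine h.maj.AP_p S (fun i => √T • ((CN N l)ᵀ * dB (Bl i))) (X := X) (a := a) (Y := Y)
    (κ := √(T / s)) ha hY (Real.sqrt_nonneg _) hX ?_ hB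
  have e0 : dB (Finset.univ : Finset (V (N / l))) = 1 := by
    unfold H859.dB
    simp
  have e1 : ∑ i ∈ S, √T • ((CN N l)ᵀ * dB (Bl i)) = √T • (CN N l)ᵀ := by
    rw [← Finset.smul_sum]
    congr 1
    rw [← Matrix.mul_sum, H859.dB_sum S Bl hd, hw, e0, Matrix.mul_one]
  have e2 : (√T • (CN N l)ᵀ) * (√T • (CN N l)ᵀ)ᵀ = T • ((CN N l)ᵀ * CN N l) := by
    rw [Matrix.transpose_smul, Matrix.smul_mul, Matrix.mul_smul, smul_smul,
      Real.mul_self_sqrt T0.le, Matrix.transpose_transpose]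
  rw [e1, e2, Real.sq_sqrt (by positivity), smul_smul]
  have e3 : T / s * T = T ^ 2 / s := by ring
  rw [e3]
  exact h.up

lemma meas_Rs : Measurable fun J : V N → ℝ => Rs (nwt N b T 0) J :=
  (H159.egr_Rs h.maj.em h.maj.gt).meas

/-- **the bad set under the exact law of the source** -/
theorem exact {κ ρ η P p : ℝ}
    (h0 : Ech (wN N l b T s) 0 (obsN N l (T - s))
      ({J : V N → ℝ | Rs (nwt N b T 0) J ≤ η}ᶜ.indicator fun _ => (1 : ℝ)) ≤ P)
    (hp : (gau I).real {g | ¬Rs (nwt N b T 0) (κ • (((CN N l)ᵀ * A) *ᵥ g)) ≤ ρ} ≤ p) :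
    Ech (wN N l b T s) 0 (obsN N l (T - s))
      ({J : V N → ℝ | Rs (nwt N b T 0) (κ • J) ≤ ρ}ᶜ.indicator fun _ => (1 : ℝ)) ≤
      P + Real.exp η * p := by
  have hm : MeasurableSet {J : V N → ℝ | Rs (nwt N b T 0) (κ • J) ≤ ρ} :=
    measurableSet_le (h.meas_Rs.comp (measurable_const_smul κ)) measurable_const
  have hm0 : MeasurableSet {J : V N → ℝ | Rs (nwt N b T 0) J ≤ η} :=
    measurableSet_le h.meas_Rs measurable_const
  refine (bad_law h.b0.le h.dl h.s0 h.sT h.cov hm hm0 fun J hJ => hJ).trans ?_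
  exact add_le_add h0 (mul_le_mul_of_nonneg_left hp (Real.exp_pos _).le)

end Ful

end

end Vale.Agent.P159.H447
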