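import Vale.Agent.P159.H801.Wode3

/-!
P159 / LINKW (helper447): the size of the letters at the critical point, from the flow theorem T3:
`y_n` and `x_n` are of order `1 / n`.
-/

open Filter Topology

namespace Vale.Agent.P159.H447

open Vale.Agent.P159.H801

variable {xs x y : ℕ → ℝ} {κ c r q q2 B A : ℝ} {N : ℕ} {w : ℕ → ℕ}

/-- `1 / (C n) ≤ y_n ≤ C / n` and `|x_n| ≤ C / n` -/
theorem T3_order (h : T3 xs y κ c r q B A w N) (hq : 1 ≤ q2)
    (hx : ∀ᶠ n in atTop, |x n - xs n| ≤ y n ^ q2) :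
    ∃ C : ℝ, 0 < C ∧ ∀ᶠ n : ℕ in atTop, 1 / (C * n) ≤ y n ∧ y n ≤ C / n ∧ |x n| ≤ C / n := by
  have hA := h.A0
  have hκ := h.fl.κ0
  set R : ℝ := Real.sqrt (κ * A) with hR
  have h0 : 0 < R := Real.sqrt_pos.2 (by positivity)
  refine ⟨2 * R + 2 / R + 1 / κ + 1, by positivity, ?_⟩
  set C : ℝ := 2 * R + 2 / R + 1 / κ + 1 with hC
  have hC0 : 0 < C := by positivity
  have e1 := h.ny.eventually (gt_mem_nhds (show R < 2 * R by linarith))
  have e2 := h.ny.eventually (lt_mem_nhds (show R / 2 < R by linarith))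
  have e3 := h.nx.eventually (gt_mem_nhds (show 1 / κ < 1 / κ + 1 by linarith))
  have e4 := h.nx.eventually (lt_mem_nhds (show -(1 / κ + 1) < 1 / κ by
    have : 0 < 1 / κ := by positivity
    linarith))
  have e5 := h.fl.ev_one
  filter_upwards [e1, e2, e3, e4, e5, hx, eventually_gt_atTop 0] with n h1 h2 h3 h4 h5 h6 hn
  have hn' : (0 : ℝ) < n := by exact_mod_cast hn
  have hy := h.fl.y0 n
  have k1 : 1 / (2 * R * n) ≤ y n := by
    rw [div_le_iff₀ (by positivity)]
    have h7 : (n : ℝ)⁻¹ * (1 / y n) < 2 * R := h1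
    rw [inv_mul_eq_div, div_div, div_lt_iff₀ (by positivity)] at h7
    nlinarith
  have k2 : y n ≤ 2 / R / n := by
    rw [div_div, le_div_iff₀ (by positivity)]
    have h7 : R / 2 < (n : ℝ)⁻¹ * (1 / y n) := h2
    rw [inv_mul_eq_div, div_div, lt_div_iff₀ (by positivity)] at h7
    nlinarith
  have k3 : |xs n| ≤ (1 / κ + 1) / n := by
    rw [abs_le]
    constructor
    · rw [← neg_div, div_le_iff₀ hn']
      linarith
    · rw [le_div_iff₀ hn']
      linarith
  refine ⟨?_, k2.trans ?_, ?_⟩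
  · refine le_trans ?_ k1
    refine div_le_div_of_nonneg_left zero_le_one (by positivity) ?_
    refine mul_le_mul_of_nonneg_right ?_ hn'.le
    have : 0 < 2 / R := by positivity
    have : 0 < 1 / κ := by positivity
    rw [hC]
    linarith
  · refine div_le_div_of_nonneg_right ?_ hn'.le
    have : 0 < 1 / κ := by positivity
    rw [hC]
    linarith
  · have k4 : y n ^ q2 ≤ y n := by
      have := Real.rpow_le_rpow_of_exponent_ge hy h5 hq
      rwa [Real.rpow_one] at this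
    have k5 : |x n| ≤ |x n - xs n| + |xs n| := by
      have := abs_add_le (x n - xs n) (xs n)
      rwa [sub_add_cancel] at this
    have k6 : 2 / R / n + (1 / κ + 1) / n ≤ C / n := by
      rw [← add_div]
      refine div_le_div_of_nonneg_right ?_ hn'.le
      rw [hC]
      linarith
    linarith

/-- **the form of LINKW**: powers of `n` -/
theorem T3_pow (h : T3 xs y κ c r q B A w N) (hq : 1 ≤ q2)
    (hx : ∀ᶠ n in atTop, |x n - xs n| ≤ y n ^ q2) {s : ℝ} (hs1 : s < 1) :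
    ∀ᶠ n : ℕ in atTop, (n : ℝ) ^ (-(2 - s)) ≤ y n ∧ y n ≤ (n : ℝ) ^ (-s) ∧
      |x n| ≤ (n : ℝ) ^ (-s) := by
  obtain ⟨C, hC, h1⟩ := T3_order h hq hx
  have h2 : Tendsto (fun n : ℕ => (n : ℝ) ^ (1 - s)) atTop atTop :=
    (tendsto_rpow_atTop (by linarith : 0 < 1 - s)).comp tendsto_natCast_atTop_atTop
  filter_upwards [h1, h2.eventually_ge_atTop C, eventually_gt_atTop 0] with n hn h3 h4
  have hn' : (0 : ℝ) < n := by exact_mod_cast h4
  obtain ⟨k1, k2, k3⟩ := hn
  have e1 : C / n ≤ (n : ℝ) ^ (-s) := by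
    rw [div_le_iff₀ hn']
    have : (n : ℝ) ^ (-s) * n = (n : ℝ) ^ (1 - s) := by
      nth_rw 2 [← Real.rpow_one (n : ℝ)]
      rw [← Real.rpow_add hn']
      congr 1
      ring
    rw [this]
    exact h3
  have e2 : (n : ℝ) ^ (-(2 - s)) ≤ 1 / (C * n) := by
    rw [le_div_iff₀ (by positivity)]
    calc (n : ℝ) ^ (-(2 - s)) * (C * n) ≤ (n : ℝ) ^ (-(2 - s)) * ((n : ℝ) ^ (1 - s) * n) := by
          gcongr
      _ = (n : ℝ) ^ (0 : ℝ) := by
          nth_rw 3 [← Real.rpow_one (n : ℝ)]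
          rw [← Real.rpow_add hn', ← Real.rpow_add hn']
          congr 1
          ring
      _ = 1 := Real.rpow_zero _
  exact ⟨e2.trans k1, k2.trans e1, k3.trans e1⟩

end Vale.Agent.P159.H447
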