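import Vale.Agent.P159.H447.MassD
import Vale.Agent.P159.H864.Cel2

/-!
P159 / module MASS, part G (helper447): the mass flow on the cell torus.  In the letters of
helper864 (`GM`, `Gck`, `PiCk`, `MC N l t τ = t (1 - P) + τ P`):

* `hasDerivAt_PiCk`: `d/dτ PiCk(τ,k) = dPik(τ,k) ≥ 0`;
* `sum_dPik`: `∑_k Gck(τ,k)² dPik(τ,k) = K4S(P,P)/2` (exact), and the version with weights;
* `mass_step`: for `0 < a < c ≤ t` there is `τ ∈ (a,c)` with
  `K4S_τ(P,P)/2 ≤ (c-a)⁻¹ ∑_k Gck(a,k)² (PiCk(c,k) - PiCk(a,k))`.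
-/

set_option linter.unusedSectionVars false

namespace Vale.Agent.P159.H447

open Finset Matrix Filter Topology
open Vale.Agent.P159.TM.H764 (Gh cN sN dt ch EE frm grd)
open Vale.Agent.P159.TM.H104 (EM Ex Cv K3 Lg li nh Gr)
open Vale.Agent.P159.H37
open Vale.Agent.P159.TM.Spec (V)
open Vale.Agent.P159.TM.SpecC (wT ms)
open Vale.Agent.P159.H864 (TI sym MC GM Gck PiCk cobV DM mlt)

noncomputable section

variable {N l : ℕ} [NeZero N] [NeZero (N / l)] {b t τ a : ℝ}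

/-- standing hypotheses for every cell mass -/
lemma dm_MC' (hb : 0 < b) (hl : l ∣ N) (ht : 0 < t) (hτ : 0 < τ) : DM (wT b N) (MC N l t τ) := by
  rcases le_total τ t with h | h
  · exact H864.dm_MC hb hl hτ h
  · refine H864.dm_wT hb (H864.MC_tr N l t τ) ht fun u => ?_
    rw [H864.qf_MC]
    have h1 := mul_nonneg (sub_nonneg.2 h) (H864.qf_cellP_nonneg hl u)
    nlinarith

lemma w_cell (hl : l ∣ N) (b t τ : ℝ) :
    wM (wM (wT b N) (MC N l t 0)) (τ • ((cobV N l)ᵀ * cobV N l)) = wM (wT b N) (MC N l t τ) := by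
  rw [wM_wM, ← H864.cellP_eq hl]
  have h := H864.MC_add N l t τ 0
  rw [sub_zero] at h
  rw [h]

lemma Gc_cell (hl : l ∣ N) (b t τ : ℝ) :
    Gc (cobV N l) (wM (wM (wT b N) (MC N l t 0)) (τ • ((cobV N l)ᵀ * cobV N l))) =
      H864.Gc l (GM N l b t τ) := by
  rw [w_cell hl]
  rfl

theorem md_cell (hb : 0 < b) (hl : l ∣ N) (ht : 0 < t) (ha : 0 < a) :
    MD (cobV N l) (wM (wT b N) (MC N l t 0)) a where
  nn h := mul_nonneg (H864.wT_nonneg hb.le h) (Real.exp_pos _).le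
  ev := H864.ev_wTM _
  em := by
    rw [w_cell hl]
    exact (dm_MC' hb hl ht ha).em
  det τ hτ := by
    rw [Gc_cell hl]
    exact det_of_pos fun v hv => H864.Gc_pd hl (dm_MC' hb hl ht (ha.trans hτ)).gpos hv
  pk τ hτ := by
    rw [w_cell hl]
    exact (dm_MC' hb hl ht (ha.trans hτ)).pk

/-- matrix of the derivative of the self energy in the mass -/
def dPiM (N l : ℕ) [NeZero N] [NeZero (N / l)] (b t τ : ℝ) : Matrix (V (N / l)) (V (N / l)) ℝ :=
  (1 / 2 : ℝ) • ((H864.Gc l (GM N l b t τ))⁻¹ *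
    K4c (cobV N l) (cellP N l) (wM (wT b N) (MC N l t τ)) * (H864.Gc l (GM N l b t τ))⁻¹)

/-- derivative of the self energy in the mass -/
def dPik (N l : ℕ) [NeZero N] [NeZero (N / l)] (b t τ : ℝ) (k : V (N / l)) : ℝ :=
  sym (dPiM N l b t τ) k

theorem hdm_cell (hb : 0 < b) (hl : l ∣ N) (ht : 0 < t) (hτ : 0 < τ) :
    HDM (fun τ => (H864.Gc l (GM N l b t τ))⁻¹ - τ • (1 : Matrix (V (N / l)) (V (N / l)) ℝ))
      (dPiM N l b t τ) τ := by
  have hM := md_cell (a := τ / 2) hb hl ht (by linarith)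
  have h := hdm_PiC (cobV N l) hM.nn hM.ev hM.em (show τ / 2 < τ by linarith)
    (hM.det τ (by linarith))
  have e1 : PiC (cobV N l) (wM (wT b N) (MC N l t 0)) = fun τ =>
      (H864.Gc l (GM N l b t τ))⁻¹ - τ • (1 : Matrix (V (N / l)) (V (N / l)) ℝ) := by
    funext τ
    unfold PiC
    rw [Gc_cell hl]
  rw [e1, Gc_cell hl, w_cell hl] at h
  unfold dPiM
  rw [H864.cellP_eq hl]
  exact h

lemma ti_PiCell (hl : l ∣ N) (b t τ : ℝ) :
    TI ((H864.Gc l (GM N l b t τ))⁻¹ - τ • (1 : Matrix (V (N / l)) (V (N / l)) ℝ)) :=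
  (H864.ti_Gc_GM hl b t τ).inv.sub (H864.TI.one.smul τ)

theorem ti_dPiM (hb : 0 < b) (hl : l ∣ N) (ht : 0 < t) (hτ : 0 < τ) : TI (dPiM N l b t τ) := by
  have h := hdm_cell (N := N) (l := l) hb hl ht hτ
  constructor
  · intro c x y
    refine (h (x + c) (y + c)).unique ?_
    refine (h x y).congr_of_eventuallyEq (Eventually.of_forall fun s => ?_)
    exact (ti_PiCell hl b t s).tr c x y
  · intro x y
    refine (h x y).unique ?_
    refine (h y x).congr_of_eventuallyEq (Eventually.of_forall fun s => ?_)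
    exact (ti_PiCell hl b t s).sy x y

lemma Gck_pos' (hb : 0 < b) (hl : l ∣ N) (ht : 0 < t) (hτ : 0 < τ) (k : V (N / l)) :
    0 < Gck N l b t τ k :=
  H864.sym_pos_of_pd (H864.ti_Gc_GM hl b t τ) (fun _ hφ => H864.Gc_pd hl
    (dm_MC' hb hl ht hτ).gpos hφ) k

lemma sym_PiCell (hb : 0 < b) (hl : l ∣ N) (ht : 0 < t) (hτ : 0 < τ) (k : V (N / l)) :
    sym ((H864.Gc l (GM N l b t τ))⁻¹ - τ • (1 : Matrix (V (N / l)) (V (N / l)) ℝ)) k =
      PiCk N l b t τ k := by
  rw [H864.sym_sub, H864.sym_inv' (H864.ti_Gc_GM hl b t τ) fun k => (Gck_pos' hb hl ht hτ k).ne',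
    H864.sym_smul_one]
  rfl

/-- **the self energy of the cells is differentiable in the mass** -/
theorem hasDerivAt_PiCk (hb : 0 < b) (hl : l ∣ N) (ht : 0 < t) (hτ : 0 < τ) (k : V (N / l)) :
    HasDerivAt (fun τ => PiCk N l b t τ k) (dPik N l b t τ k) τ := by
  have h := hdm_cell (N := N) (l := l) hb hl ht hτ
  have h1 : HasDerivAt (fun τ => sym ((H864.Gc l (GM N l b t τ))⁻¹ -
      τ • (1 : Matrix (V (N / l)) (V (N / l)) ℝ)) k) (dPik N l b t τ k) τ := by
    unfold dPik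
    simp only [H864.sym_def]
    exact HasDerivAt.fun_sum fun z _ => (h 0 z).mul_const _
  refine h1.congr_of_eventuallyEq ?_
  filter_upwards [lt_mem_nhds hτ] with s hs
  exact (sym_PiCell hb hl ht hs k).symm

/-- the fourth cumulant of the cells in terms of the derivative of the self energy -/
theorem K4c_cell (hb : 0 < b) (hl : l ∣ N) (ht : 0 < t) (hτ : 0 < τ) :
    (1 / 2 : ℝ) • K4c (cobV N l) (cellP N l) (wM (wT b N) (MC N l t τ)) =
      H864.Gc l (GM N l b t τ) * dPiM N l b t τ * H864.Gc l (GM N l b t τ) := by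
  have hd : IsUnit (H864.Gc l (GM N l b t τ)).det :=
    H864.isUnit_det (H864.ti_Gc_GM hl b t τ) fun k => (Gck_pos' hb hl ht hτ k).ne'
  unfold dPiM
  set G := H864.Gc l (GM N l b t τ)
  set K := K4c (cobV N l) (cellP N l) (wM (wT b N) (MC N l t τ))
  rw [Matrix.mul_smul, Matrix.smul_mul]
  congr 1
  rw [Matrix.mul_assoc (G⁻¹) K, ← Matrix.mul_assoc G, Matrix.mul_nonsing_inv _ hd, Matrix.one_mul,
    Matrix.mul_assoc, Matrix.nonsing_inv_mul _ hd, Matrix.mul_one]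

theorem sym_K4c (hb : 0 < b) (hl : l ∣ N) (ht : 0 < t) (hτ : 0 < τ) (k : V (N / l)) :
    1 / 2 * sym (K4c (cobV N l) (cellP N l) (wM (wT b N) (MC N l t τ))) k =
      Gck N l b t τ k ^ 2 * dPik N l b t τ k := by
  rw [← H864.sym_smul, K4c_cell hb hl ht hτ,
    H864.sym_mul ((H864.ti_Gc_GM hl b t τ).mul (ti_dPiM hb hl ht hτ)) (H864.ti_Gc_GM hl b t τ),
    H864.sym_mul (H864.ti_Gc_GM hl b t τ) (ti_dPiM hb hl ht hτ)]
  unfold Gck dPik
  ring

lemma ti_K4c (hb : 0 < b) (hl : l ∣ N) (ht : 0 < t) (hτ : 0 < τ) :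
    TI (K4c (cobV N l) (cellP N l) (wM (wT b N) (MC N l t τ))) := by
  have h := K4c_cell (N := N) (l := l) hb hl ht hτ
  have h2 : K4c (cobV N l) (cellP N l) (wM (wT b N) (MC N l t τ)) =
      (2 : ℝ) • (H864.Gc l (GM N l b t τ) * dPiM N l b t τ * H864.Gc l (GM N l b t τ)) := by
    rw [← h, smul_smul]
    norm_num
  rw [h2]
  exact (((H864.ti_Gc_GM hl b t τ).mul (ti_dPiM hb hl ht hτ)).mul (H864.ti_Gc_GM hl b t τ)).smul 2

lemma trace_mul_K4c {V' I : Type*} [Fintype V'] [Fintype I] {μ : (V' → ℤ) → ℝ} (hμ : EM μ)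
    (C : Matrix I V' ℝ) (S : Matrix V' V' ℝ) (B : Matrix I I ℝ) :
    (B * K4c C S μ).trace = K4S μ (Cᵀ * B * C) S := by
  have h1 : Cᵀ * B * C = ∑ i, ∑ j, B i j • vecMulVec (C i) (C j) := by
    ext x y
    simp only [Matrix.mul_apply, Matrix.sum_apply, Matrix.smul_apply, vecMulVec_apply,
      Matrix.transpose_apply, smul_eq_mul, Finset.sum_mul]
    rw [Finset.sum_comm]
    exact Finset.sum_congr rfl fun i _ => Finset.sum_congr rfl fun j _ => by ring
  rw [h1, K4S_sum_left hμ]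
  unfold Matrix.trace
  have h2 : ∀ i, (B * K4c C S μ).diag i = ∑ j, B i j * K4S μ (vecMulVec (C j) (C i)) S := by
    intro i
    rw [Matrix.diag_apply, Matrix.mul_apply]
    rfl
  refine Finset.sum_congr rfl fun i _ => ?_
  rw [h2, K4S_sum_left hμ]
  refine Finset.sum_congr rfl fun j _ => ?_
  rw [K4S_smul_left]
  have h3 : vecMulVec (C j) (C i) = (vecMulVec (C i) (C j))ᵀ := by
    ext x y
    rw [Matrix.transpose_apply, vecMulVec_apply, vecMulVec_apply, mul_comm]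
  rw [h3, K4S_tr_left]

/-- **exact trace identity, with weights**: `B` translation invariant on the cell torus -/
theorem sum_dPik_mul (hb : 0 < b) (hl : l ∣ N) (ht : 0 < t) (hτ : 0 < τ)
    {B : Matrix (V (N / l)) (V (N / l)) ℝ} (hB : TI B) :
    ∑ k, sym B k * (Gck N l b t τ k ^ 2 * dPik N l b t τ k) =
      1 / 2 * K4S (wM (wT b N) (MC N l t τ)) ((cobV N l)ᵀ * B * cobV N l) (cellP N l) := by
  rw [← trace_mul_K4c (dm_MC' hb hl ht hτ).em, (hB.mul (ti_K4c hb hl ht hτ)).trace_eq,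
    Finset.mul_sum]
  refine Finset.sum_congr rfl fun k _ => ?_
  rw [H864.sym_mul hB (ti_K4c hb hl ht hτ), ← sym_K4c hb hl ht hτ]
  ring

/-- **exact trace identity** -/
theorem sum_dPik (hb : 0 < b) (hl : l ∣ N) (ht : 0 < t) (hτ : 0 < τ) :
    ∑ k, Gck N l b t τ k ^ 2 * dPik N l b t τ k =
      1 / 2 * K4S (wM (wT b N) (MC N l t τ)) (cellP N l) (cellP N l) := by
  have h := sum_dPik_mul hb hl ht hτ (N := N) (l := l) (B := 1) H864.TI.one
  simp only [H864.sym_one, one_mul, Matrix.mul_one] at h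
  rw [h, ← H864.cellP_eq hl]

theorem dPik_nonneg (hb : 0 < b) (hl : l ∣ N) (ht : 0 < t) (hτ : 0 < τ) (k : V (N / l)) :
    0 ≤ dPik N l b t τ k := by
  have hD := dm_MC' (N := N) (l := l) hb hl ht hτ
  have h1 : 0 ≤ sym (K4c (cobV N l) (cellP N l) (wM (wT b N) (MC N l t τ))) k := by
    refine H864.sym_nonneg_of_psd (ti_K4c hb hl ht hτ) (fun u => ?_) k
    rw [← bf_self, K4c_bf hD.em, H864.cellP_eq hl]
    exact K4S_rank_nonneg hD.em hD.ev hD.pk _ _
  have h2 := sym_K4c (N := N) (l := l) hb hl ht hτ k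
  have h3 := Gck_pos' (N := N) (l := l) hb hl ht hτ k
  have h4 : 0 ≤ Gck N l b t τ k ^ 2 * dPik N l b t τ k := by
    rw [← h2]
    positivity
  exact nonneg_of_mul_nonneg_right h4 (by positivity)

/-- **the mass step**: one mass `τ` in `(a,c)`, arbitrary weights -/
theorem mass_avg (hb : 0 < b) (hl : l ∣ N) (ht : 0 < t) {a c : ℝ} (ha : 0 < a) (hac : a < c)
    (W : V (N / l) → ℝ) :
    ∃ τ ∈ Set.Ioo a c, ∑ k, W k * dPik N l b t τ k =
      (c - a)⁻¹ * ∑ k, W k * (PiCk N l b t c k - PiCk N l b t a k) := by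
  have hd : ∀ τ, 0 < τ → HasDerivAt (fun τ => ∑ k, W k * PiCk N l b t τ k)
      (∑ k, W k * dPik N l b t τ k) τ := fun τ hτ =>
    HasDerivAt.fun_sum fun k _ => (hasDerivAt_PiCk hb hl ht hτ k).const_mul (W k)
  obtain ⟨τ, hτ, h⟩ := exists_hasDerivAt_eq_slope
    (fun τ => ∑ k, W k * PiCk N l b t τ k) (fun τ => ∑ k, W k * dPik N l b t τ k) hac
    (fun τ hτ => (hd τ (ha.trans_le hτ.1)).continuousAt.continuousWithinAt)
    fun τ hτ => hd τ (ha.trans hτ.1)
  refine ⟨τ, hτ, h.trans ?_⟩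
  rw [div_eq_inv_mul]
  congr 1
  rw [← Finset.sum_sub_distrib]
  exact Finset.sum_congr rfl fun k _ => by ring

/-- **the mass step for the fourth cumulant of the cells** -/
theorem mass_step (hb : 0 < b) (hl : l ∣ N) {a c : ℝ} (ha : 0 < a) (hac : a < c) (hct : c ≤ t) :
    ∃ τ ∈ Set.Ioo a c, 1 / 2 * K4S (wM (wT b N) (MC N l t τ)) (cellP N l) (cellP N l) ≤
      (c - a)⁻¹ * ∑ k, Gck N l b t a k ^ 2 * (PiCk N l b t c k - PiCk N l b t a k) := by
  have ht : 0 < t := ha.trans (hac.trans_le hct)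
  obtain ⟨τ, hτ, h⟩ := mass_avg hb hl ht ha hac fun k => Gck N l b t a k ^ 2
  have hτ0 : 0 < τ := ha.trans hτ.1
  refine ⟨τ, hτ, ?_⟩
  rw [← sum_dPik hb hl ht hτ0, ← h]
  refine Finset.sum_le_sum fun k _ => mul_le_mul_of_nonneg_right ?_ (dPik_nonneg hb hl ht hτ0 k)
  exact pow_le_pow_left₀ (Gck_pos' hb hl ht hτ0 k).le
    (H864.Gck_mono hb hl ha hτ.1.le (hτ.2.le.trans hct) k) 2

/-- the reverse inequality -/
theorem mass_step_ge (hb : 0 < b) (hl : l ∣ N) {a c : ℝ} (ha : 0 < a) (hac : a < c) (hct : c ≤ t) :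
    ∃ τ ∈ Set.Ioo a c,
      (c - a)⁻¹ * ∑ k, Gck N l b t c k ^ 2 * (PiCk N l b t c k - PiCk N l b t a k) ≤
        1 / 2 * K4S (wM (wT b N) (MC N l t τ)) (cellP N l) (cellP N l) := by
  have ht : 0 < t := ha.trans (hac.trans_le hct)
  obtain ⟨τ, hτ, h⟩ := mass_avg hb hl ht ha hac fun k => Gck N l b t c k ^ 2
  have hτ0 : 0 < τ := ha.trans hτ.1
  refine ⟨τ, hτ, ?_⟩
  rw [← sum_dPik hb hl ht hτ0, ← h]
  refine Finset.sum_le_sum fun k _ => mul_le_mul_of_nonneg_right ?_ (dPik_nonneg hb hl ht hτ0 k)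
  exact pow_le_pow_left₀ (Gck_pos' hb hl ht (ha.trans hac) k).le
    (H864.Gck_mono hb hl hτ0 hτ.2.le hct k) 2

/-! ### monotonicity in the cells -/

/-- `l ∣ l'`: coarser cells -/
theorem cellP_mul_cellP {l' : ℕ} [NeZero (N / l')] (hl : l ∣ N) (hl' : l' ∣ N) (h : l ∣ l') :
    cellP N l * cellP N l' = cellP N l' := by
  have hlp : (0 : ℝ) < l := by exact_mod_cast H864.l_pos hl
  ext x y
  rw [Matrix.mul_apply]
  have e1 : ∀ z : V N, cellP N l x z * cellP N l' z y = if (H864.cl z : V (N / l)) = H864.cl x then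
      ((l : ℝ) ^ 2)⁻¹ * cellP N l' x y else 0 := by
    intro z
    rw [H864.cellP_apply hl]
    by_cases hz : (H864.cl x : V (N / l)) = H864.cl z
    · rw [if_pos hz, if_pos hz.symm, H864.cellP_apply hl', H864.cellP_apply hl']
      have h2 : (H864.cl x : V (N / l')) = H864.cl z := by
        obtain ⟨m, rfl⟩ := h
        have h3 : ∀ u v : ZMod N, (H864.cl1 u : ZMod (N / l)) = H864.cl1 v →
            (H864.cl1 u : ZMod (N / (l * m))) = H864.cl1 v := by
          intro u v huv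
          have h4 := congrArg ZMod.val huv
          rw [H864.cl1_val hl, H864.cl1_val hl] at h4
          refine ZMod.val_injective _ ?_
          rw [H864.cl1_val hl', H864.cl1_val hl', ← Nat.div_div_eq_div_mul,
            ← Nat.div_div_eq_div_mul, h4]
        have h5 := Prod.ext_iff.1 hz
        exact Prod.ext (h3 _ _ h5.1) (h3 _ _ h5.2)
      rw [h2]
    · rw [if_neg hz, if_neg fun h => hz h.symm, zero_mul]
  rw [Finset.sum_congr rfl fun z _ => e1 z, ← Finset.sum_filter, Finset.sum_const, nsmul_eq_mul,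
    H864.card_cell hl]
  field_simp

theorem K4S_cells_mono {l' : ℕ} [NeZero (N / l')] (hl : l ∣ N) (hl' : l' ∣ N) (h : l ∣ l')
    {μ : (V N → ℤ) → ℝ} (hμ : EM μ) (he : Ev μ) (hK : PK μ) :
    K4S μ (cellP N l') (cellP N l') ≤ K4S μ (cellP N l) (cellP N l) := by
  have h1 := cellP_mul_cellP hl hl' h
  have h2 : cellP N l' * cellP N l = cellP N l' := by
    have := congrArg Matrix.transpose h1
    rwa [Matrix.transpose_mul, H864.cellP_tr, H864.cellP_tr] at this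
  have h3 := K4S_mono hμ he hK (c := 1) zero_le_one (cob N l') (cellP N l - cellP N l') (cob N l)
    (by
      rw [one_smul, Matrix.transpose_sub, H864.cellP_tr, H864.cellP_tr, Matrix.sub_mul,
        Matrix.mul_sub, Matrix.mul_sub, H864.cellP_mul_self hl, H864.cellP_mul_self hl', h1, h2,
        sub_self, sub_zero]
      rfl)
  rw [one_pow, one_mul] at h3
  exact h3

end

end Vale.Agent.P159.H447
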