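import Vale.Agent.P159.H159.Grow
import Vale.Agent.P159.H730.Gibp
import Vale.Agent.P159.H789.Ray
import Vale.Agent.P159.H363.Gain
import Vale.Agent.P159.H363.Pob2
import Vale.Agent.P159.H447.MassF

/-!
P159 / module CONTRG, part 0 (helper447): Gaussian calculus for `C²` functions of exponential
growth, in particular for `Rs μ`, `μ` with a Gaussian tail.

* `C2 Φ g1 g2` : gradient `g1`, Hessian `g2`; instance `C2.Rs`.
* `C2.var` : `E ((a·g)² - |a|²) Φ(X g) = E <X a, Φ''(X g) X a>`.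
* `C2.ray` : `d/dτ E Φ((X + τ Z) g) = E tr (Φ''((X + τ Z) g) Z (X + τ Z)ᵀ)`.
-/

namespace Vale.Agent.P159.H447

open Finset Matrix MeasureTheory ProbabilityTheory
open Vale.Agent.P159.TM.H104 (EM Ex Cv K3 Lg li nh Gr)
open Vale.Agent.P159.H37
open Vale.Agent.P159.H159 (GT egr_lin egr_coord egr_sum egr_Rs egr_mn egr_Cm egr_qf)

noncomputable section

variable {V I : Type*} [Fintype V] [Fintype I]

/-! ### integrability -/

lemma int_egr {Ψ : (I → ℝ) → ℝ} (h : EGr Ψ) : Integrable Ψ (gau I) := by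
  obtain ⟨C, hC, hb⟩ := h.bdd
  exact ((integrable_exp_norm (I := I) C).const_mul C).mono' h.meas.aestronglyMeasurable
    (Filter.Eventually.of_forall fun g => by rw [Real.norm_eq_abs]; exact hb g)

lemma egr_mat {Φ : (V → ℝ) → ℝ} (h : EGr Φ) (X : Matrix V I ℝ) :
    EGr fun g : I → ℝ => Φ (X *ᵥ g) := by
  have := egr_lin h 0 X
  simpa only [zero_add] using this

lemma egr_dot (a : I → ℝ) : EGr fun g : I → ℝ => a ⬝ᵥ g := by
  unfold dotProduct
  exact egr_sum _ fun i _ => (egr_coord i).cmul (a i)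

/-- Gaussian integration by parts for functions of exponential growth -/
lemma ibp_egr [DecidableEq I] (e : I) {G G' : (I → ℝ) → ℝ} (hG : EGr G) (hG' : EGr G')
    (hd : ∀ J x, HasDerivAt (fun y => G (Function.update J e y)) (G' (Function.update J e x)) x) :
    ∫ J, J e * G J ∂(gau I) = ∫ J, G' J ∂(gau I) :=
  H730.gau_ibp e G G' hd (int_egr hG) (int_egr ((egr_coord e).mul hG)) (int_egr hG')

/-! ### the structure -/

/-- gradient and Hessian with exponential growth -/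
structure C2 (Φ : (V → ℝ) → ℝ) (g1 : (V → ℝ) → V → ℝ) (g2 : (V → ℝ) → Matrix V V ℝ) : Prop where
  e0 : EGr Φ
  e1 : ∀ x, EGr fun J => g1 J x
  e2 : ∀ x y, EGr fun J => g2 J x y
  d1 : ∀ (J u : V → ℝ) (s : ℝ),
    HasDerivAt (fun s : ℝ => Φ (J + s • u)) (∑ x, u x * g1 (J + s • u) x) s
  d2 : ∀ (x : V) (J u : V → ℝ) (s : ℝ),
    HasDerivAt (fun s : ℝ => g1 (J + s • u) x) (∑ y, g2 (J + s • u) x y * u y) s

/-- the gradient of `Rs μ` -/
def gR (μ : (V → ℤ) → ℝ) (J : V → ℝ) : V → ℝ := fun x => mn μ J x - (Gm μ *ᵥ J) x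

/-- the Hessian of `Rs μ` -/
def NR (μ : (V → ℤ) → ℝ) (J : V → ℝ) : Matrix V V ℝ := Cm μ J - Gm μ

variable {μ : (V → ℤ) → ℝ}

lemma hasDerivAt_mulVec (M : Matrix V V ℝ) (x : V) (J u : V → ℝ) (s : ℝ) :
    HasDerivAt (fun s : ℝ => (M *ᵥ (J + s • u)) x) (∑ y, M x y * u y) s := by
  have h : (fun s : ℝ => (M *ᵥ (J + s • u)) x) = fun s => (M *ᵥ J) x + s * ∑ y, M x y * u y := by
    funext s
    rw [mulVec_add, mulVec_smul]
    simp only [Pi.add_apply, Pi.smul_apply, smul_eq_mul, Matrix.mulVec, dotProduct]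
  rw [h]
  have h2 := ((hasDerivAt_id s).mul_const (∑ y, M x y * u y)).const_add ((M *ᵥ J) x)
  simpa only [one_mul, id] using h2

theorem C2.Rs (hμ : EM μ) (hG : GT μ) : C2 (Rs μ) (gR μ) (NR μ) where
  e0 := egr_Rs hμ hG
  e1 x := by
    unfold gR
    refine (egr_mn hμ hG x).sub ?_
    unfold Matrix.mulVec dotProduct
    exact egr_sum _ fun y _ => (egr_coord y).cmul _
  e2 x y := by
    unfold NR
    exact (egr_Cm hμ hG x y).sub (EGr.const _)
  d1 J u s := by
    refine (H789.hasDerivAt_Rs hμ J u s).congr_deriv ?_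
    rw [H789.Ex_li hμ, bf_eq]
    unfold gR mn dotProduct
    rw [← Finset.sum_sub_distrib]
    exact Finset.sum_congr rfl fun x _ => by ring
  d2 x J u s := by
    classical
    have h1 := TM.H104.hasDerivAt_Ex hμ (H159.gr_co x) J u s
    have h2 := (h1.sub (hasDerivAt_mulVec (Gm μ) x J u s))
    refine h2.congr_deriv ?_
    have h3 : Cv μ (J + s • u) (fun h => (h x : ℝ)) (li u) =
        ∑ y, Cm μ (J + s • u) x y * u y := by
      have h4 := H789.bf_Cm hμ (J + s • u) (Pi.single x 1) u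
      have h5 : li (Pi.single x (1 : ℝ)) = fun h : V → ℤ => (h x : ℝ) := by
        funext h
        unfold TM.H104.li
        simp [Pi.single_apply]
      rw [h5] at h4
      rw [← h4, H789.bf_single_left]
      rfl
    rw [h3]
    unfold NR
    simp only [Matrix.sub_apply]
    rw [← Finset.sum_sub_distrib]
    exact Finset.sum_congr rfl fun y _ => by ring

namespace C2

variable {Φ : (V → ℝ) → ℝ} {g1 : (V → ℝ) → V → ℝ} {g2 : (V → ℝ) → Matrix V V ℝ}

omit [Fintype V] in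
lemma upd_eq [DecidableEq I] (X : Matrix V I ℝ) (J : I → ℝ) (e : I) (y : ℝ) :
    X *ᵥ (Function.update J e y) = X *ᵥ (Function.update J e 0) + y • colv X e := by
  have h : Function.update J e y = Function.update J e 0 + y • (Pi.single e (1 : ℝ)) := by
    funext i
    by_cases hi : i = e
    · subst hi
      simp
    · simp [Function.update_of_ne hi, Pi.single_eq_of_ne hi]
  rw [h, mulVec_add, mulVec_smul]
  congr 2
  funext x
  unfold colv
  simp

omit [Fintype V] in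
lemma ray_mulVec (X Z : Matrix V I ℝ) (τ : ℝ) (g : I → ℝ) :
    (X + τ • Z) *ᵥ g = X *ᵥ g + τ • (Z *ᵥ g) := by
  rw [add_mulVec, smul_mulVec]

lemma abs_mulVec_le (X : Matrix V I ℝ) (g : I → ℝ) :
    ∑ x, |(X *ᵥ g) x| ≤ (∑ x, ∑ i, |X x i|) * ∑ i, |g i| := by
  rw [Finset.sum_mul]
  refine Finset.sum_le_sum fun x _ => ?_
  simp only [Matrix.mulVec, dotProduct]
  refine (Finset.abs_sum_le_sum_abs _ _).trans ?_
  rw [Finset.sum_mul]
  refine Finset.sum_le_sum fun i _ => ?_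
  rw [abs_mul]
  exact mul_le_mul_of_nonneg_left (Finset.single_le_sum (f := fun i => |g i|)
    (fun _ _ => abs_nonneg _) (Finset.mem_univ i)) (abs_nonneg _)

variable (h : C2 Φ g1 g2)
include h

/-- first Stein identity -/
theorem stein1 [DecidableEq I] (X : Matrix V I ℝ) (e : I) :
    ∫ g, g e * Φ (X *ᵥ g) ∂(gau I) = ∫ g, ∑ x, X x e * g1 (X *ᵥ g) x ∂(gau I) := by
  refine ibp_egr e (egr_mat h.e0 X)
    (egr_sum _ fun x _ => (egr_mat (h.e1 x) X).cmul _) fun J s => ?_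
  have h1 := h.d1 (X *ᵥ (Function.update J e 0)) (colv X e) s
  simp only [← upd_eq] at h1
  exact h1

/-- second Stein identity -/
theorem stein2 [DecidableEq I] (X : Matrix V I ℝ) (e : I) (x : V) :
    ∫ g, g e * g1 (X *ᵥ g) x ∂(gau I) = ∫ g, ∑ y, g2 (X *ᵥ g) x y * X y e ∂(gau I) := by
  refine ibp_egr e (egr_mat (h.e1 x) X)
    (egr_sum _ fun y _ => (egr_mat (h.e2 x y) X).mul (EGr.const _)) fun J s => ?_
  have h1 := h.d2 x (X *ᵥ (Function.update J e 0)) (colv X e) s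
  simp only [← upd_eq] at h1
  exact h1

/-- `E (a·g) g1(X g) x = E (g2(X g) X a) x` -/
theorem stein2_dot (X : Matrix V I ℝ) (a : I → ℝ) (x : V) :
    ∫ g, (a ⬝ᵥ g) * g1 (X *ᵥ g) x ∂(gau I) = ∫ g, ∑ y, g2 (X *ᵥ g) x y * (X *ᵥ a) y ∂(gau I) := by
  classical
  have e1 : ∀ g : I → ℝ, (a ⬝ᵥ g) * g1 (X *ᵥ g) x = ∑ e, a e * (g e * g1 (X *ᵥ g) x) := by
    intro g
    unfold dotProduct
    rw [Finset.sum_mul]
    exact Finset.sum_congr rfl fun e _ => by ring
  simp only [e1]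
  rw [integral_finsetSum _ fun e _ =>
    ((int_egr ((egr_coord e).mul (egr_mat (h.e1 x) X))).const_mul (a e))]
  have e2 : ∀ g : I → ℝ, ∑ y, g2 (X *ᵥ g) x y * (X *ᵥ a) y =
      ∑ e, a e * ∑ y, g2 (X *ᵥ g) x y * X y e := by
    intro g
    simp only [Matrix.mulVec, dotProduct, Finset.mul_sum]
    rw [Finset.sum_comm]
    exact Finset.sum_congr rfl fun e _ => Finset.sum_congr rfl fun y _ => by ring
  simp only [e2]
  rw [integral_finsetSum _ fun e _ => ((int_egr (egr_sum _ fun y _ =>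
    (egr_mat (h.e2 x y) X).mul (EGr.const _))).const_mul (a e))]
  refine Finset.sum_congr rfl fun e _ => ?_
  rw [integral_const_mul, integral_const_mul, h.stein2 X e x]

/-- **the second order identity** `E (a·g)² Φ(X g) = |a|² E Φ(X g) + E <X a, g2(X g) X a>` -/
theorem var (X : Matrix V I ℝ) (a : I → ℝ) :
    ∫ g, ((a ⬝ᵥ g) ^ 2 - ∑ i, a i ^ 2) * Φ (X *ᵥ g) ∂(gau I) =
      ∫ g, qf (g2 (X *ᵥ g)) (X *ᵥ a) ∂(gau I) := by
  classical
  have hΦ := egr_mat h.e0 X
  -- integration by parts of `(a·g) Φ`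
  have h1 : ∀ e, ∫ g, g e * ((a ⬝ᵥ g) * Φ (X *ᵥ g)) ∂(gau I) =
      ∫ g, (a e * Φ (X *ᵥ g) + (a ⬝ᵥ g) * ∑ x, X x e * g1 (X *ᵥ g) x) ∂(gau I) := by
    intro e
    refine ibp_egr e ((egr_dot a).mul hΦ) ((hΦ.cmul (a e)).add ((egr_dot a).mul
      (egr_sum _ fun x _ => (egr_mat (h.e1 x) X).cmul _))) fun J s => ?_
    have d1 := h.d1 (X *ᵥ (Function.update J e 0)) (colv X e) s
    simp only [← upd_eq] at d1
    have d2 : HasDerivAt (fun y : ℝ => a ⬝ᵥ Function.update J e y) (a e) s := by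
      have e1 : (fun y : ℝ => a ⬝ᵥ Function.update J e y) =
          fun y => a ⬝ᵥ Function.update J e 0 + y * a e := by
        funext y
        have e2 : Function.update J e y = Function.update J e 0 + y • (Pi.single e (1 : ℝ)) := by
          funext i
          by_cases hi : i = e
          · subst hi
            simp
          · simp [Function.update_of_ne hi, Pi.single_eq_of_ne hi]
        rw [e2, dotProduct_add, dotProduct_smul, dotProduct_single, smul_eq_mul, mul_one]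
      rw [e1]
      have h2 := ((hasDerivAt_id s).mul_const (a e)).const_add (a ⬝ᵥ Function.update J e 0)
      simpa only [one_mul, id] using h2
    exact d2.mul d1
  have iΦ := int_egr hΦ
  have i1 : ∀ e, Integrable (fun g : I → ℝ => g e * ((a ⬝ᵥ g) * Φ (X *ᵥ g))) (gau I) := fun e =>
    int_egr ((egr_coord e).mul ((egr_dot a).mul hΦ))
  have i2 : ∀ x, Integrable (fun g : I → ℝ => (a ⬝ᵥ g) * g1 (X *ᵥ g) x) (gau I) := fun x =>
    int_egr ((egr_dot a).mul (egr_mat (h.e1 x) X))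
  have h2 : ∫ g, (a ⬝ᵥ g) ^ 2 * Φ (X *ᵥ g) ∂(gau I) = (∑ i, a i ^ 2) * ∫ g, Φ (X *ᵥ g) ∂(gau I) +
      ∑ x, (X *ᵥ a) x * ∫ g, (a ⬝ᵥ g) * g1 (X *ᵥ g) x ∂(gau I) := by
    have e1 : ∀ g : I → ℝ, (a ⬝ᵥ g) ^ 2 * Φ (X *ᵥ g) =
        ∑ e, a e * (g e * ((a ⬝ᵥ g) * Φ (X *ᵥ g))) := by
      intro g
      rw [sq]
      nth_rewrite 1 [dotProduct]
      rw [Finset.sum_mul, Finset.sum_mul]
      exact Finset.sum_congr rfl fun e _ => by ring
    simp only [e1]
    rw [integral_finsetSum _ fun e _ => (i1 e).const_mul _]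
    simp only [integral_const_mul, h1]
    have e2 : ∀ e, ∫ g, (a e * Φ (X *ᵥ g) + (a ⬝ᵥ g) * ∑ x, X x e * g1 (X *ᵥ g) x) ∂(gau I) =
        a e * ∫ g, Φ (X *ᵥ g) ∂(gau I) + ∑ x, X x e * ∫ g, (a ⬝ᵥ g) * g1 (X *ᵥ g) x ∂(gau I) := by
      intro e
      have e3 : ∀ g : I → ℝ, (a ⬝ᵥ g) * ∑ x, X x e * g1 (X *ᵥ g) x =
          ∑ x, X x e * ((a ⬝ᵥ g) * g1 (X *ᵥ g) x) := by
        intro g
        rw [Finset.mul_sum]
        exact Finset.sum_congr rfl fun x _ => by ring
      simp only [e3]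
      rw [integral_add (iΦ.const_mul _) (integrable_finsetSum _ fun x _ => (i2 x).const_mul _),
        integral_const_mul, integral_finsetSum _ fun x _ => (i2 x).const_mul _]
      simp only [integral_const_mul]
    simp only [e2, mul_add, Finset.sum_add_distrib]
    congr 1
    · rw [Finset.sum_mul]
      exact Finset.sum_congr rfl fun e _ => by ring
    · simp only [Finset.mul_sum]
      rw [Finset.sum_comm]
      refine Finset.sum_congr rfl fun x _ => ?_
      simp only [Matrix.mulVec, dotProduct, Finset.sum_mul]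
      exact Finset.sum_congr rfl fun e _ => by ring
  have i3 : Integrable (fun g : I → ℝ => (a ⬝ᵥ g) ^ 2 * Φ (X *ᵥ g)) (gau I) := by
    have := int_egr (((egr_dot a).mul (egr_dot a)).mul hΦ)
    refine this.congr (Filter.Eventually.of_forall fun g => ?_)
    simp only [sq]
  simp only [sub_mul]
  rw [integral_sub i3 (iΦ.const_mul _), integral_const_mul, h2, add_sub_cancel_left]
  have e4 : ∀ g : I → ℝ, qf (g2 (X *ᵥ g)) (X *ᵥ a) =
      ∑ x, (X *ᵥ a) x * ∑ y, g2 (X *ᵥ g) x y * (X *ᵥ a) y := by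
    intro g
    unfold qf
    refine Finset.sum_congr rfl fun x _ => ?_
    rw [Finset.mul_sum]
    exact Finset.sum_congr rfl fun y _ => by ring
  simp only [e4]
  rw [integral_finsetSum _ fun x _ => (int_egr (egr_sum _ fun y _ =>
    (egr_mat (h.e2 x y) X).mul (EGr.const _))).const_mul _]
  refine Finset.sum_congr rfl fun x _ => ?_
  rw [integral_const_mul, h.stein2_dot X a x]

/-- `E Σ_x (Z g)_x g1(Y g)_x = E tr (g2(Y g) Z Yᵀ)` -/
theorem drift (Y Z : Matrix V I ℝ) :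
    ∫ g, ∑ x, (Z *ᵥ g) x * g1 (Y *ᵥ g) x ∂(gau I) =
      ∫ g, pr (g2 (Y *ᵥ g)) (Z * Yᵀ) ∂(gau I) := by
  classical
  have e1 : ∀ g : I → ℝ, ∑ x, (Z *ᵥ g) x * g1 (Y *ᵥ g) x =
      ∑ x, ∑ e, Z x e * (g e * g1 (Y *ᵥ g) x) := by
    intro g
    refine Finset.sum_congr rfl fun x _ => ?_
    simp only [Matrix.mulVec, dotProduct, Finset.sum_mul]
    exact Finset.sum_congr rfl fun e _ => by ring
  have i1 : ∀ x e, Integrable (fun g : I → ℝ => Z x e * (g e * g1 (Y *ᵥ g) x)) (gau I) :=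
    fun x e => (int_egr ((egr_coord e).mul (egr_mat (h.e1 x) Y))).const_mul _
  simp only [e1]
  rw [integral_finsetSum _ fun x _ => integrable_finsetSum _ fun e _ => i1 x e]
  have e2 : ∀ g : I → ℝ, pr (g2 (Y *ᵥ g)) (Z * Yᵀ) =
      ∑ x, ∑ e, Z x e * ∑ y, g2 (Y *ᵥ g) x y * Y y e := by
    intro g
    unfold pr
    refine Finset.sum_congr rfl fun x _ => ?_
    simp only [Matrix.mul_apply, Matrix.transpose_apply, Finset.mul_sum]
    rw [Finset.sum_comm]
    exact Finset.sum_congr rfl fun e _ => Finset.sum_congr rfl fun y _ => by ring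
  simp only [e2]
  have i2 : ∀ x e, Integrable (fun g : I → ℝ => Z x e * ∑ y, g2 (Y *ᵥ g) x y * Y y e) (gau I) :=
    fun x e => (int_egr (egr_sum _ fun y _ =>
      (egr_mat (h.e2 x y) Y).mul (EGr.const _))).const_mul _
  rw [integral_finsetSum _ fun x _ => integrable_finsetSum _ fun e _ => i2 x e]
  refine Finset.sum_congr rfl fun x _ => ?_
  rw [integral_finsetSum _ fun e _ => i1 x e, integral_finsetSum _ fun e _ => i2 x e]
  refine Finset.sum_congr rfl fun e _ => ?_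
  rw [integral_const_mul, integral_const_mul, h.stein2 Y e x]

/-- **derivative of the ray function** -/
theorem ray (X Z : Matrix V I ℝ) (τ₀ : ℝ) :
    HasDerivAt (fun τ : ℝ => ∫ g, Φ (X *ᵥ g + τ • (Z *ᵥ g)) ∂(gau I))
      (∫ g, pr (g2 ((X + τ₀ • Z) *ᵥ g)) (Z * (X + τ₀ • Z)ᵀ) ∂(gau I)) τ₀ := by
  choose C hC hb using fun x => (h.e1 x).bdd
  set A : ℝ := ∑ x, ∑ i, |X x i| with hA
  set B : ℝ := ∑ x, ∑ i, |Z x i| with hB
  have hA0 : 0 ≤ A := Finset.sum_nonneg fun _ _ => Finset.sum_nonneg fun _ _ => abs_nonneg _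
  have hB0 : 0 ≤ B := Finset.sum_nonneg fun _ _ => Finset.sum_nonneg fun _ _ => abs_nonneg _
  set K : ℝ := A + (|τ₀| + 1) * B with hK
  have key := hasDerivAt_integral_of_dominated_loc_of_deriv_le (μ := gau I) (𝕜 := ℝ)
    (F := fun (τ : ℝ) (g : I → ℝ) => Φ (X *ᵥ g + τ • (Z *ᵥ g)))
    (F' := fun (τ : ℝ) (g : I → ℝ) => ∑ x, (Z *ᵥ g) x * g1 (X *ᵥ g + τ • (Z *ᵥ g)) x)
    (x₀ := τ₀) (s := Metric.ball τ₀ 1)
    (bound := fun g => ∑ x, B * C x * Real.exp ((1 + C x * K) * ∑ i, |g i|))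
    (Metric.ball_mem_nhds τ₀ one_pos)
    (Filter.Eventually.of_forall fun τ => ?_) ?_ ?_
    (Filter.Eventually.of_forall fun g τ hτ => ?_) ?_
    (Filter.Eventually.of_forall fun g τ _ => h.d1 (X *ᵥ g) (Z *ᵥ g) τ)
  · have h1 := key.2
    have h2 := h.drift (X + τ₀ • Z) Z
    simp only [ray_mulVec] at h2 ⊢
    rw [← h2]
    exact h1
  · have h1 := (egr_mat h.e0 (X + τ • Z)).meas
    simp only [ray_mulVec] at h1
    exact h1.aestronglyMeasurable
  · have h1 := int_egr (egr_mat h.e0 (X + τ₀ • Z))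
    simp only [ray_mulVec] at h1
    exact h1
  · refine (Finset.measurable_sum _ fun x _ => ?_).aestronglyMeasurable
    have h1 := (egr_mat (h.e1 x) (X + τ₀ • Z)).meas
    simp only [ray_mulVec] at h1
    exact ((measurable_pi_apply x).comp (H552.meas_mulVec Z)).mul h1
  · rw [Real.norm_eq_abs]
    refine (Finset.abs_sum_le_sum_abs _ _).trans (Finset.sum_le_sum fun x _ => ?_)
    set S : ℝ := ∑ i, |g i| with hS
    have hS0 : 0 ≤ S := Finset.sum_nonneg fun _ _ => abs_nonneg _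
    have hτ' : |τ| ≤ |τ₀| + 1 := by
      rw [Metric.mem_ball, Real.dist_eq] at hτ
      have := abs_add_le (τ - τ₀) τ₀
      rw [sub_add_cancel] at this
      linarith
    have a1 : |(Z *ᵥ g) x| ≤ B * S :=
      (Finset.single_le_sum (f := fun x => |(Z *ᵥ g) x|) (fun _ _ => abs_nonneg _)
        (Finset.mem_univ x)).trans (abs_mulVec_le Z g)
    have a2 : ∑ y, |(X *ᵥ g + τ • (Z *ᵥ g)) y| ≤ K * S := by
      have b1 : ∑ y, |(X *ᵥ g + τ • (Z *ᵥ g)) y| ≤
          ∑ y, |(X *ᵥ g) y| + |τ| * ∑ y, |(Z *ᵥ g) y| := by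
        rw [Finset.mul_sum, ← Finset.sum_add_distrib]
        refine Finset.sum_le_sum fun y _ => ?_
        rw [Pi.add_apply, Pi.smul_apply, smul_eq_mul, ← abs_mul]
        exact abs_add_le _ _
      have b2 := abs_mulVec_le X g
      have b3 := abs_mulVec_le Z g
      have b4 : |τ| * ∑ y, |(Z *ᵥ g) y| ≤ (|τ₀| + 1) * (B * S) :=
        mul_le_mul hτ' b3 (Finset.sum_nonneg fun _ _ => abs_nonneg _) (by positivity)
      calc _ ≤ A * S + (|τ₀| + 1) * (B * S) := by linarith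
        _ = K * S := by rw [hK]; ring
    have a3 : |g1 (X *ᵥ g + τ • (Z *ᵥ g)) x| ≤ C x * Real.exp (C x * (K * S)) :=
      (hb x _).trans (mul_le_mul_of_nonneg_left
        (Real.exp_le_exp.2 (mul_le_mul_of_nonneg_left a2 (hC x))) (hC x))
    have a4 : S ≤ Real.exp S := by linarith [Real.add_one_le_exp S]
    rw [abs_mul]
    calc |(Z *ᵥ g) x| * |g1 (X *ᵥ g + τ • (Z *ᵥ g)) x|
        ≤ (B * Real.exp S) * (C x * Real.exp (C x * (K * S))) :=
          mul_le_mul (a1.trans (mul_le_mul_of_nonneg_left a4 hB0)) a3 (abs_nonneg _)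
            (by positivity)
      _ = B * C x * Real.exp ((1 + C x * K) * S) := by
          have e1 : (1 + C x * K) * S = S + C x * (K * S) := by ring
          rw [e1, Real.exp_add]
          ring
  · exact integrable_finsetSum _ fun x _ => (integrable_exp_norm _).const_mul _

end C2

end

end Vale.Agent.P159.H447
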