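import Vale.Agent.P159.H447.Cg1

/-!
P159 / module CONTRG, part 2 (helper447): **the trace form of the contraction for Gaussian
backgrounds** `F' = (X + Z) g`, `F'' = F' + H g'`, `X Zᵀ = 0` (so `Z Zᵀ` is any covariance below the
covariance of `F'`): the mean excess Hessian `NR μ = Cm μ - Gm μ` of the two laws, tested against
`Z Zᵀ`, differs by an explicit error.
-/

namespace Vale.Agent.P159.H447

open Finset Matrix MeasureTheory ProbabilityTheory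
open Vale.Agent.P159.TM.H104 (EM Ex Cv K3 Lg li nh Gr)
open Vale.Agent.P159.H37
open Vale.Agent.P159.H159 (GT egr_lin egr_coord egr_sum egr_Rs egr_mn egr_Cm egr_qf)
open Vale.Agent.P159.H239 (Dom2 Dom Met TR ray rayk rhs)

noncomputable section

variable {V : Type} [Fintype V] {μ : (V → ℤ) → ℝ} {Bm : Matrix V V ℝ}
variable {I K : Type*} [Fintype I] [Fintype K]

lemma Q_int (Bm : Matrix V V ℝ) (A : Matrix V I ℝ) :
    Integrable (fun g : I → ℝ => qf Bm (A *ᵥ g) / 2) (gau I) :=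
  (int_egr (egr_mat (egr_qf Bm) A)).div_const 2

omit [Fintype V] in
lemma orth_tr {X Z : Matrix V I ℝ} (h : X * Zᵀ = 0) : Z * Xᵀ = 0 := by
  have := congrArg Matrix.transpose h
  rwa [Matrix.transpose_mul, Matrix.transpose_transpose, Matrix.transpose_zero] at this

omit [Fintype V] in
/-- covariance of `(X + τ Z) g` -/
lemma cov_ray {X Z : Matrix V I ℝ} (h : X * Zᵀ = 0) (τ : ℝ) :
    (X + τ • Z) * (X + τ • Z)ᵀ = X * Xᵀ + (τ ^ 2) • (Z * Zᵀ) := by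
  rw [Matrix.transpose_add, Matrix.transpose_smul, Matrix.add_mul, Matrix.mul_add, Matrix.mul_add,
    Matrix.mul_smul, Matrix.smul_mul, Matrix.smul_mul, Matrix.mul_smul, h, orth_tr h, smul_zero,
    smul_smul, add_zero, zero_add, pow_two]

lemma psd_ray {X Z : Matrix V I ℝ} (h : X * Zᵀ = 0) {τ c : ℝ} (hc : 1 ≤ c) (hτ : τ ^ 2 ≤ c) :
    (c • ((X + Z) * (X + Z)ᵀ) - (X + τ • Z) * (X + τ • Z)ᵀ).PosSemidef := by
  have h1 := cov_ray h 1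
  rw [one_smul, one_pow, one_smul] at h1
  have e : c • ((X + Z) * (X + Z)ᵀ) - (X + τ • Z) * (X + τ • Z)ᵀ =
      (c - 1) • (X * Xᵀ) + (c - τ ^ 2) • (Z * Zᵀ) := by
    rw [h1, cov_ray h τ, smul_add, sub_smul, sub_smul, one_smul]
    abel
  rw [e]
  exact ((psd_gram X).smul (sub_nonneg.2 hc)).add ((psd_gram Z).smul (sub_nonneg.2 hτ))

lemma psd_ray_z {X Z : Matrix V I ℝ} (h : X * Zᵀ = 0) {e c : ℝ} (hc : 0 ≤ c) (he : e ^ 2 ≤ c) :
    (c • ((X + Z) * (X + Z)ᵀ) - (e • Z) * (e • Z)ᵀ).PosSemidef := by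
  have h1 := cov_ray h 1
  rw [one_smul, one_pow, one_smul] at h1
  have e1 : (e • Z) * (e • Z)ᵀ = (e ^ 2) • (Z * Zᵀ) := by
    rw [Matrix.transpose_smul, Matrix.smul_mul, Matrix.mul_smul, smul_smul, pow_two]
  have e2 : c • ((X + Z) * (X + Z)ᵀ) - (e • Z) * (e • Z)ᵀ =
      c • (X * Xᵀ) + (c - e ^ 2) • (Z * Zᵀ) := by
    rw [h1, e1, smul_add, sub_smul]
    abel
  rw [e2]
  exact ((psd_gram X).smul hc).add ((psd_gram Z).smul (sub_nonneg.2 he))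

namespace Maj

variable (h : Maj μ Bm)
include h

theorem Q_set (A : Matrix V I ℝ) {q : ℝ} (hq : 0 < q) (hA : pr Bm (A * Aᵀ) ≤ q) {S : Set (I → ℝ)}
    (hS : MeasurableSet S) {β : ℝ} (hβ : (gau I).real S ≤ β) :
    ∫ g in S, qf Bm (A *ᵥ g) / 2 ∂(gau I) ≤ 6 * q * √β := by
  obtain ⟨i1, b1⟩ := h.Q_mom A hq hA 1
  have e : ∀ g : I → ℝ, (qf Bm (A *ᵥ g) / 2) ^ 2 = qf Bm (A *ᵥ g) ^ (2 * 1) / 4 := fun g => by
    rw [div_pow, mul_one]
    norm_num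
  refine cs_set (Q_int Bm A) ?_ (by positivity) ?_ hS hβ
  · simp only [e]
    exact i1.div_const 4
  · simp only [e]
    rw [integral_div]
    have h2 : ((2 * 1).factorial : ℝ) = 2 := by norm_num [Nat.factorial]
    rw [h2] at b1
    nlinarith

theorem Q_tot (A : Matrix V I ℝ) {q : ℝ} (hq : 0 < q) (hA : pr Bm (A * Aᵀ) ≤ q) :
    ∫ g, qf Bm (A *ᵥ g) / 2 ∂(gau I) ≤ 6 * q := by
  have h1 := h.Q_set A hq hA MeasurableSet.univ (β := 1) measureReal_le_one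
  rwa [Measure.restrict_univ, Real.sqrt_one, mul_one] at h1

theorem d_ray {X Z : Matrix V I ℝ} (hXZ : X * Zᵀ = 0) :
    HasDerivAt (ray (gau I) (Rs μ) (fun g => X *ᵥ g) (fun g => Z *ᵥ g))
      (∫ g, pr (NR μ ((X + Z) *ᵥ g)) (Z * Zᵀ) ∂(gau I)) 1 := by
  have hZ2 : Z * (X + (1 : ℝ) • Z)ᵀ = Z * Zᵀ := by
    rw [one_smul, Matrix.transpose_add, Matrix.mul_add, orth_tr hXZ, zero_add]
  have := (C2.Rs h.em h.gt).ray X Z 1
  rw [hZ2, one_smul] at this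
  exact this

theorem d_rayk {X Z : Matrix V I ℝ} (hXZ : X * Zᵀ = 0) (H : Matrix V K ℝ) :
    HasDerivAt (rayk (gau I) ((gau K).map fun k => H *ᵥ k) (Rs μ) (fun g => X *ᵥ g)
      (fun g => Z *ᵥ g))
      (∫ g, pr (NR μ (fromCols (X + Z) H *ᵥ g)) (Z * Zᵀ) ∂(gau (I ⊕ K))) 1 := by
  have hC2 := C2.Rs h.em h.gt
  have mH : Measurable fun k : K → ℝ => H *ᵥ k := H552.meas_mulVec H
  have h1 := hC2.ray (fromCols X H) (fromCols Z (0 : Matrix V K ℝ)) 1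
  have e1 : fromCols Z (0 : Matrix V K ℝ) *
      (fromCols X H + (1 : ℝ) • fromCols Z (0 : Matrix V K ℝ))ᵀ = Z * Zᵀ := by
    rw [one_smul, Matrix.transpose_add, Matrix.mul_add, Matrix.transpose_fromCols,
      Matrix.transpose_fromCols, Matrix.fromCols_mul_fromRows, Matrix.fromCols_mul_fromRows,
      orth_tr hXZ, Matrix.zero_mul, Matrix.zero_mul, zero_add, add_zero, zero_add]
  have e2 : fromCols X H + (1 : ℝ) • fromCols Z (0 : Matrix V K ℝ) = fromCols (X + Z) H := by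
    ext i (j | j)
    · simp
    · simp
  rw [e1, e2] at h1
  have e3 : rayk (gau I) ((gau K).map fun k => H *ᵥ k) (Rs μ) (fun g => X *ᵥ g)
      (fun g => Z *ᵥ g) = fun τ : ℝ => ∫ g, Rs μ (fromCols X H *ᵥ g +
      τ • (fromCols Z (0 : Matrix V K ℝ) *ᵥ g)) ∂(gau (I ⊕ K)) := by
    funext τ
    have i1 := int_egr (egr_mat hC2.e0 (fromCols X H + τ • fromCols Z (0 : Matrix V K ℝ)))
    simp only [C2.ray_mulVec] at i1
    rw [H363.integral_gau_sum _ i1]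
    unfold rayk
    refine integral_congr_ae (Filter.Eventually.of_forall fun g => ?_)
    simp only
    rw [integral_map (f := fun y => Rs μ (X *ᵥ g + τ • (Z *ᵥ g) + y)) mH.aemeasurable
      (h.mR.comp (measurable_const_add _)).aestronglyMeasurable]
    refine integral_congr_ae (Filter.Eventually.of_forall fun k => ?_)
    simp only [Matrix.fromCols_mulVec_sumElim, Matrix.zero_mulVec, add_zero]
    congr 1
    abel
  rw [e3]
  exact h1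

/-- probability of a good set for a covariance `≤ 4 Y Yᵀ` -/
theorem prob4 {Y0 Y : Matrix V I ℝ} (hY : (((2 : ℝ) ^ 2) • (Y0 * Y0ᵀ) - Y * Yᵀ).PosSemidef)
    {n : ℕ} {D lam p : ℝ} (hD : 0 < D) (hl : 0 ≤ lam) (hK : K4S μ (Y * Yᵀ) (Y * Yᵀ) ≤ D)
    (hp : (gau I).real {g | 1 < Rs μ ((2 : ℝ) ^ (n + 2) • (Y0 *ᵥ g))} ≤ p) :
    (gau I).real {g | Y *ᵥ g ∉ Gs μ n (lam * D)} ≤ 2 * p + 6 * Real.exp (-(√lam / 10)) := by
  refine h.Gs_prob Y hD hK n hl ?_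
  refine (h.prob_psd ((2 : ℝ) ^ (n + 1)) 2 hY 1).trans ?_
  rw [← pow_succ]
  linarith

omit h in
theorem rhs_one {Ω E : Type*} [MeasurableSpace Ω] [MeasurableSpace E] (P : Measure Ω)
    [IsProbabilityMeasure P] (κ : Measure E) (Q : E → ℝ) (a : Ω → E) (A : Set Ω) (C : Set E)
    (ra rc : ℝ) : H239.rhs P κ Q a (fun _ => 1) A C ra rc = 10 * (√ra * √rc) +
      (κ.real Cᶜ * ∫ ω, Q (a ω) ∂P + ∫ y in Cᶜ, Q y ∂κ) +
      (∫ ω in Aᶜ, Q (a ω) ∂P + (∫ y, Q y ∂κ) * P.real Aᶜ) := by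
  unfold H239.rhs
  rw [setIntegral_const, integral_const]
  simp

/-- **trace form of the contraction, Gaussian backgrounds** -/
theorem trace_XZ {X Z : Matrix V I ℝ} (hXZ : X * Zᵀ = 0) {H : Matrix V K ℝ}
    {n : ℕ} {D DH e lam p pH β q : ℝ} (he0 : 0 < e) (he1 : e ≤ 1) (hD : 0 < D) (hDH : 0 < DH)
    (hl : 0 ≤ lam) (hq : 0 < q) (hβ1 : β ≤ 1)
    (hKD : K4S μ ((X + Z) * (X + Z)ᵀ) ((X + Z) * (X + Z)ᵀ) ≤ D)
    (hKH : K4S μ (H * Hᵀ) (H * Hᵀ) ≤ DH)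
    (hra : cl n (128 * (lam * D)) ≤ 1) (hrc : cl n (8 * (lam * DH)) ≤ 1)
    (hp : (gau I).real {g | 1 < Rs μ ((2 : ℝ) ^ (n + 2) • ((X + Z) *ᵥ g))} ≤ p)
    (hpH : (gau K).real {g | 1 < Rs μ ((2 : ℝ) ^ (n + 1) • (H *ᵥ g))} ≤ pH)
    (hβ : 8 * p + 24 * Real.exp (-(√lam / 10)) ≤ β) (hβH : pH + 6 * Real.exp (-(√lam / 10)) ≤ β)
    (hqA : pr Bm ((X + Z) * (X + Z)ᵀ) ≤ q) (hqH : pr Bm (H * Hᵀ) ≤ q) :
    |∫ g, pr (NR μ (fromCols (X + Z) H *ᵥ g)) (Z * Zᵀ) ∂(gau (I ⊕ K)) -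
      ∫ g, pr (NR μ ((X + Z) *ᵥ g)) (Z * Zᵀ) ∂(gau I)| ≤
    (20 * (√(cl n (128 * (lam * D))) * √(cl n (8 * (lam * DH)))) +
      20 * (√(cl n (128 * (lam * D))) * √(cl n (8 * (lam * (e ^ 4 * D))))) +
      2 * cl n (8 * (lam * (e ^ 4 * D))) + 264 * (q * √β)) / e := by
  set ra := cl n (128 * (lam * D)) with hradef
  set rc := cl n (8 * (lam * DH)) with hrcdef
  set rh := cl n (8 * (lam * (e ^ 4 * D))) with hrhdef
  set ex := Real.exp (-(√lam / 10)) with hex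
  have hra0 : 0 ≤ ra := cl_nonneg _ _
  have hrc0 : 0 ≤ rc := cl_nonneg _ _
  have hrh0 : 0 ≤ rh := cl_nonneg _ _
  have he2 : e ^ 2 ≤ 1 := pow_le_one₀ he0.le he1
  have he4 : e ^ 4 ≤ 1 := pow_le_one₀ he0.le he1
  have hlD : 0 ≤ lam * D := mul_nonneg hl hD.le
  have hrhra : rh ≤ ra := by
    refine cl_mono n ?_
    nlinarith
  have hrh : rh ≤ 1 := hrhra.trans hra
  have hp0 : 0 ≤ p := measureReal_nonneg.trans hp
  have hpH0 : 0 ≤ pH := measureReal_nonneg.trans hpH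
  have hex0 : 0 < ex := Real.exp_pos _
  have hβ0 : 0 ≤ β := by linarith
  have hββ : β ≤ √β := by
    refine Real.le_sqrt_of_sq_le ?_
    nlinarith
  set κ : Measure (V → ℝ) := (gau K).map fun k => H *ᵥ k with hκdef
  have mH : Measurable fun k : K → ℝ => H *ᵥ k := H552.meas_mulVec H
  have : IsProbabilityMeasure κ := Measure.isProbabilityMeasure_map mH.aemeasurable
  set Q : (V → ℝ) → ℝ := fun J => qf Bm J / 2 with hQ
  have hdom : Dom2 (Rs μ) Q := h.dom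
  have hQ0 : ∀ F, 0 ≤ Q F := fun F => hdom.toDom.Q_nonneg F
  set x : (I → ℝ) → V → ℝ := fun g => X *ᵥ g with hx
  set z : (I → ℝ) → V → ℝ := fun g => Z *ᵥ g with hz
  have mx : Measurable x := H552.meas_mulVec X
  have mz : Measurable z := H552.meas_mulVec Z
  have hκsym : κ.map (fun y => -y) = κ := H239.gau_map_neg H
  have hκQ : Integrable Q κ :=
    (integrable_map_measure hdom.mQ.aestronglyMeasurable mH.aemeasurable).2 (Q_int Bm H)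
  have hray : ∀ (τ : ℝ) (g : I → ℝ), x g + τ • z g = (X + τ • Z) *ᵥ g := fun τ g =>
    (C2.ray_mulVec X Z τ g).symm
  -- derivatives
  have d1 := h.d_ray hXZ
  have d2 := h.d_rayk hXZ H
  -- the good sets
  set A : Set (I → ℝ) := {g | (X + (1 : ℝ) • Z) *ᵥ g ∈ Gs μ n (lam * (16 * D))} ∩
    ({g | (X + (1 + e) • Z) *ᵥ g ∈ Gs μ n (lam * (16 * D))} ∩
    ({g | (X + (1 - e) • Z) *ᵥ g ∈ Gs μ n (lam * (16 * D))} ∩
    {g | (e • Z) *ᵥ g ∈ Gs μ n (lam * (e ^ 4 * D))})) with hAdef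
  set C : Set (V → ℝ) := Gs μ n (lam * DH) with hCdef
  have mGs : ∀ (Y : Matrix V I ℝ) (b : ℝ), MeasurableSet {g : I → ℝ | Y *ᵥ g ∈ Gs μ n b} :=
    fun Y b => (h.Gs_meas n b).preimage (H552.meas_mulVec Y)
  have hA : MeasurableSet A := (mGs _ _).inter ((mGs _ _).inter ((mGs _ _).inter (mGs _ _)))
  have hC : MeasurableSet C := h.Gs_meas n _
  have hK16 : ∀ τ : ℝ, τ ^ 2 ≤ 4 →
      K4S μ ((X + τ • Z) * (X + τ • Z)ᵀ) ((X + τ • Z) * (X + τ • Z)ᵀ) ≤ 16 * D := by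
    intro τ hτ
    have h1 := K4S_psd h.em h.ev h.pk (psd_gram (X + τ • Z))
      (psd_ray hXZ (by norm_num : (1 : ℝ) ≤ 4) hτ)
    rw [K4S_smul2] at h1
    nlinarith
  have hKe : K4S μ ((e • Z) * (e • Z)ᵀ) ((e • Z) * (e • Z)ᵀ) ≤ e ^ 4 * D := by
    have h1 := K4S_psd h.em h.ev h.pk (psd_gram (e • Z))
      (psd_ray_z hXZ (sq_nonneg e) (le_refl (e ^ 2)))
    rw [K4S_smul2] at h1
    have : (e ^ 2) ^ 2 = e ^ 4 := by ring
    rw [this] at h1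
    exact h1.trans (mul_le_mul_of_nonneg_left hKD (by positivity))
  have hτ1 : (1 : ℝ) ^ 2 ≤ 4 := by norm_num
  have hτ2 : (1 + e) ^ 2 ≤ 4 := by nlinarith
  have hτ3 : (1 - e) ^ 2 ≤ 4 := by nlinarith
  have hps : ∀ τ : ℝ, τ ^ 2 ≤ 4 →
      (((2 : ℝ) ^ 2) • ((X + Z) * (X + Z)ᵀ) - (X + τ • Z) * (X + τ • Z)ᵀ).PosSemidef := by
    intro τ hτ
    have e4 : ((2 : ℝ) ^ 2) = 4 := by norm_num
    rw [e4]
    exact psd_ray hXZ (by norm_num) hτ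
  have hpz : (((2 : ℝ) ^ 2) • ((X + Z) * (X + Z)ᵀ) - (e • Z) * (e • Z)ᵀ).PosSemidef :=
    psd_ray_z hXZ (by norm_num) (he2.trans (by norm_num))
  have hPA : (gau I).real Aᶜ ≤ β := by
    have hsub : Aᶜ ⊆ {g | (X + (1 : ℝ) • Z) *ᵥ g ∉ Gs μ n (lam * (16 * D))} ∪
        ({g | (X + (1 + e) • Z) *ᵥ g ∉ Gs μ n (lam * (16 * D))} ∪
        ({g | (X + (1 - e) • Z) *ᵥ g ∉ Gs μ n (lam * (16 * D))} ∪
        {g | (e • Z) *ᵥ g ∉ Gs μ n (lam * (e ^ 4 * D))})) := by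
      rw [hAdef, Set.compl_inter, Set.compl_inter, Set.compl_inter]
      exact Set.Subset.rfl
    have b1 := h.prob4 (hps 1 hτ1) (D := 16 * D) (by positivity) hl (hK16 1 hτ1) hp
    have b2 := h.prob4 (hps (1 + e) hτ2) (D := 16 * D) (by positivity) hl (hK16 (1 + e) hτ2) hp
    have b3 := h.prob4 (hps (1 - e) hτ3) (D := 16 * D) (by positivity) hl (hK16 (1 - e) hτ3) hp
    have b4 := h.prob4 hpz (D := e ^ 4 * D) (by positivity) hl hKe hp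
    refine (measureReal_mono hsub).trans ?_
    refine (measureReal_union_le _ _).trans ?_
    have c1 := measureReal_union_le (μ := gau I)
      {g | (X + (1 + e) • Z) *ᵥ g ∉ Gs μ n (lam * (16 * D))}
      ({g | (X + (1 - e) • Z) *ᵥ g ∉ Gs μ n (lam * (16 * D))} ∪
        {g | (e • Z) *ᵥ g ∉ Gs μ n (lam * (e ^ 4 * D))})
    have c2 := measureReal_union_le (μ := gau I)
      {g | (X + (1 - e) • Z) *ᵥ g ∉ Gs μ n (lam * (16 * D))}
      {g | (e • Z) *ᵥ g ∉ Gs μ n (lam * (e ^ 4 * D))}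
    linarith
  have hPC : (gau K).real {k | H *ᵥ k ∈ Cᶜ} ≤ β :=
    (h.Gs_prob H hDH hKH n hl hpH).trans hβH
  have hκC : κ.real Cᶜ ≤ β := by
    rw [hκdef, map_measureReal_apply mH hC.compl]
    exact hPC
  -- the good set properties
  have e16 : 8 * (lam * (16 * D)) = 128 * (lam * D) := by ring
  have hAR : ∀ τ : ℝ, τ = 1 ∨ τ = 1 + e ∨ τ = 1 - e → ∀ ω ∈ A,
      Rs μ (x ω + τ • z ω) ≤ 1 ∧ TR (Rs μ) (x ω + τ • z ω) ≤ ra := by
    intro τ hτ ω hω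
    rw [hray]
    have hmem : (X + τ • Z) *ᵥ ω ∈ Gs μ n (lam * (16 * D)) := by
      rcases hτ with rfl | rfl | rfl
      · exact hω.1
      · exact hω.2.1
      · exact hω.2.2.1
    obtain ⟨a1, -, a3⟩ := h.Gs_good hmem
    rw [e16] at a3
    exact ⟨a1, a3⟩
  have hAh : ∀ ω ∈ A, Rs μ (e • z ω) ≤ rh ∧ TR (Rs μ) (e • z ω) ≤ rh := by
    intro ω hω
    obtain ⟨-, a2, a3⟩ := h.Gs_good hω.2.2.2
    rw [Matrix.smul_mulVec] at a2 a3
    exact ⟨a2, a3⟩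
  have hCR : ∀ y ∈ C, Rs μ y ≤ 1 ∧ TR (Rs μ) y ≤ rc := by
    intro y hy
    obtain ⟨a1, -, a3⟩ := h.Gs_good hy
    exact ⟨a1, a3⟩
  -- moments of the majorant
  have hpr : ∀ Y : Matrix V I ℝ, (((2 : ℝ) ^ 2) • ((X + Z) * (X + Z)ᵀ) - Y * Yᵀ).PosSemidef →
      pr Bm (Y * Yᵀ) ≤ 4 * q := by
    intro Y hYp
    have h1 := pr_psd h.qf_nonneg hYp
    rw [pr_smul] at h1
    linarith
  have hq4 : 0 < 4 * q := by linarith
  have hQκ : ∫ y, Q y ∂κ ≤ 6 * q := by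
    rw [hκdef, integral_map mH.aemeasurable hdom.mQ.aestronglyMeasurable]
    exact h.Q_tot H hq hqH
  have hQκ0 : 0 ≤ ∫ y, Q y ∂κ := integral_nonneg hQ0
  have hQC : ∫ y in Cᶜ, Q y ∂κ ≤ 6 * q * √β := by
    rw [hκdef, setIntegral_map hC.compl hdom.mQ.aestronglyMeasurable mH.aemeasurable]
    exact h.Q_set H hq hqH (hC.compl.preimage mH) hPC
  have hQC0 : 0 ≤ ∫ y in Cᶜ, Q y ∂κ := integral_nonneg fun y => hQ0 y
  have hsβ : 0 ≤ √β := Real.sqrt_nonneg β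
  have hd : ∀ τ : ℝ, τ = 1 ∨ τ = 1 + e ∨ τ = 1 - e →
      rhs (gau I) κ Q (fun ω => x ω + τ • z ω) (fun _ => 1) A C ra rc ≤
        10 * (√ra * √rc) + 60 * (q * √β) := by
    intro τ hτ
    have hτ4 : τ ^ 2 ≤ 4 := by
      rcases hτ with rfl | rfl | rfl
      · exact hτ1
      · exact hτ2
      · exact hτ3
    rw [rhs_one]
    simp only [hray]
    have t1 : ∫ ω, Q ((X + τ • Z) *ᵥ ω) ∂(gau I) ≤ 6 * (4 * q) :=
      h.Q_tot _ hq4 (hpr _ (hps τ hτ4))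
    have t10 : 0 ≤ ∫ ω, Q ((X + τ • Z) *ᵥ ω) ∂(gau I) := integral_nonneg fun _ => hQ0 _
    have t2 : ∫ ω in Aᶜ, Q ((X + τ • Z) *ᵥ ω) ∂(gau I) ≤ 6 * (4 * q) * √β :=
      h.Q_set _ hq4 (hpr _ (hps τ hτ4)) hA.compl hPA
    have t3 : κ.real Cᶜ * ∫ ω, Q ((X + τ • Z) *ᵥ ω) ∂(gau I) ≤ √β * (6 * (4 * q)) :=
      mul_le_mul (hκC.trans hββ) t1 t10 hsβ
    have t4 : (∫ y, Q y ∂κ) * (gau I).real Aᶜ ≤ 6 * q * √β :=
      mul_le_mul hQκ (hPA.trans hββ) measureReal_nonneg (by positivity)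
    linarith only [t2, t3, t4, hQC]
  have key := hdom.trace_le (P := gau I) (κ := κ) (x := x) (z := z)
    (H789.Rs_convex h.em h.ev h.pk) hκQ hκsym mx mz (Q_int Bm X) (Q_int Bm Z) he0 d1 d2 hA hC
    hra0 hra hrc0 hrc hrh0 hrh hAR hAh hCR hd
  refine key.trans (div_le_div_of_nonneg_right ?_ he0.le)
  have t5 : ∫ ω in Aᶜ, Q (x ω + (1 : ℝ) • z ω) ∂(gau I) ≤ 6 * (4 * q) * √β := by
    simp only [hray]
    exact h.Q_set _ hq4 (hpr _ (hps 1 hτ1)) hA.compl hPA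
  have t6 : ∫ ω in Aᶜ, Q (e • z ω) ∂(gau I) ≤ 6 * (4 * q) * √β := by
    have : ∀ ω, e • z ω = (e • Z) *ᵥ ω := fun ω => (Matrix.smul_mulVec _ _ _).symm
    simp only [this]
    exact h.Q_set _ hq4 (hpr _ hpz) hA.compl hPA
  linarith only [t5, t6]

end Maj

end

end Vale.Agent.P159.H447
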