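import Vale.Agent.P159.H447.Cg2
import Vale.Agent.P159.H363.Law

/-!
P159 / module CONTRG, part 3 (helper447): **the direction form of the contraction for Gaussian
backgrounds** (no loss of a slope comparison), and both forms in terms of covariances only.

* `Maj.bump` : `F' = X g`, `F'' = F' + H g'`, `u = X a` :
  `|E <u, N(F'') u> - E <u, N(F') u>| ≤ |a|² (20 √(ra rc) + 642 q √β)`.
* `Maj.trace_contr`, `Maj.bump_contr` : any representations of the covariances.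
-/

namespace Vale.Agent.P159.H447

open Finset Matrix MeasureTheory ProbabilityTheory
open Vale.Agent.P159.TM.H104 (EM Ex Cv K3 Lg li nh Gr)
open Vale.Agent.P159.H37
open Vale.Agent.P159.H159 (GT egr_lin egr_coord egr_sum egr_Rs egr_mn egr_Cm egr_qf)
open Vale.Agent.P159.H239 (Dom2 Dom Met TR ray rayk rhs)

noncomputable section

variable {V : Type} [Fintype V] {μ : (V → ℤ) → ℝ} {Bm : Matrix V V ℝ}
variable {I J K : Type*} [Fintype I] [Fintype J] [Fintype K]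

/-! ### the weight `W = (a·g)² - |a|²` -/

/-- the weight of mean zero -/
def Wq (a g : I → ℝ) : ℝ := (a ⬝ᵥ g) ^ 2 - ∑ i, a i ^ 2

lemma qf_vv (a g : I → ℝ) : qf (vecMulVec a a) g = (a ⬝ᵥ g) ^ 2 := by
  rw [qf_dot, vecMulVec_mulVec, dotProduct_smul]
  simp only [MulOpposite.smul_eq_mul_unop, MulOpposite.unop_op, dotProduct_comm g a, pow_two]

lemma trH_vv (a : I → ℝ) : trH (vecMulVec a a) = ∑ i, a i ^ 2 := by
  unfold trH
  exact Finset.sum_congr rfl fun i _ => by rw [vecMulVec_apply, pow_two]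

lemma hsq_vv (a : I → ℝ) : hsq (vecMulVec a a) = (∑ i, a i ^ 2) ^ 2 := by
  unfold hsq
  rw [pow_two (∑ i, a i ^ 2), Finset.sum_mul_sum]
  exact Finset.sum_congr rfl fun i _ => Finset.sum_congr rfl fun j _ => by
    rw [vecMulVec_apply, mul_pow]

lemma dot_mom (a : I → ℝ) {α : ℝ} (hα : 0 < α) (ha : ∑ i, a i ^ 2 ≤ α) (p : ℕ) :
    Integrable (fun g : I → ℝ => ((a ⬝ᵥ g) ^ 2) ^ (2 * p)) (gau I) ∧
    ∫ g, ((a ⬝ᵥ g) ^ 2) ^ (2 * p) ∂(gau I) ≤ 3 / 2 * (2 * p).factorial * (48 * α ^ 2) ^ p := by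
  have h0 : 0 ≤ ∑ i, a i ^ 2 := Finset.sum_nonneg fun _ _ => sq_nonneg _
  have h1 : (∑ i, a i ^ 2) ^ 2 ≤ α ^ 2 := pow_le_pow_left₀ h0 ha 2
  have h3 : (√3 * α) ^ 2 = 3 * α ^ 2 := by rw [mul_pow, Real.sq_sqrt (by norm_num)]
  have h4 := qf_mom (vecMulVec a a) (σ := √3 * α) (by positivity)
    (by rw [h3, trH_vv, hsq_vv]; linarith) p
  simp only [qf_vv] at h4
  rw [h3, show 16 * (3 * α ^ 2) = 48 * α ^ 2 by ring] at h4
  exact h4

lemma dot_mom1 (a : I → ℝ) {α : ℝ} (hα : 0 < α) (ha : ∑ i, a i ^ 2 ≤ α) :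
    Integrable (fun g : I → ℝ => (a ⬝ᵥ g) ^ 4) (gau I) ∧
    ∫ g, (a ⬝ᵥ g) ^ 4 ∂(gau I) ≤ 144 * α ^ 2 := by
  have h1 := dot_mom a hα ha 1
  have e : ∀ x : ℝ, (x ^ 2) ^ (2 * 1) = x ^ 4 := fun x => by rw [← pow_mul]
  have h2 : ((2 * 1).factorial : ℝ) = 2 := by norm_num [Nat.factorial]
  simp only [e] at h1
  rw [h2] at h1
  exact ⟨h1.1, h1.2.trans (le_of_eq (by ring))⟩

lemma dot_mom2 (a : I → ℝ) {α : ℝ} (hα : 0 < α) (ha : ∑ i, a i ^ 2 ≤ α) :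
    Integrable (fun g : I → ℝ => (a ⬝ᵥ g) ^ 8) (gau I) ∧
    ∫ g, (a ⬝ᵥ g) ^ 8 ∂(gau I) ≤ 82944 * α ^ 4 := by
  have h1 := dot_mom a hα ha 2
  have e : ∀ x : ℝ, (x ^ 2) ^ (2 * 2) = x ^ 8 := fun x => by rw [← pow_mul]
  have h2 : ((2 * 2).factorial : ℝ) = 24 := by norm_num [Nat.factorial]
  simp only [e] at h1
  rw [h2] at h1
  exact ⟨h1.1, h1.2.trans (le_of_eq (by ring))⟩

lemma egr_Wq (a : I → ℝ) : EGr (Wq a) := by
  unfold Wq
  have h1 := ((egr_dot a).mul (egr_dot a)).sub (EGr.const (∑ i, a i ^ 2))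
  simpa only [← pow_two] using h1

lemma Wq_mean (a : I → ℝ) : ∫ g, Wq a g ∂(gau I) = 0 := by
  unfold Wq
  rw [integral_sub (H363.integrable_dot_sq a) (integrable_const _), H363.integral_dot_sq,
    integral_const]
  simp

lemma Wq_abs (a g : I → ℝ) : |Wq a g| ≤ (a ⬝ᵥ g) ^ 2 + ∑ i, a i ^ 2 := by
  have h0 : 0 ≤ ∑ i, a i ^ 2 := Finset.sum_nonneg fun _ _ => sq_nonneg _
  have h1 := sq_nonneg (a ⬝ᵥ g)
  unfold Wq
  rw [abs_le]
  constructor <;> linarith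

lemma Wq_l1 (a : I → ℝ) {α : ℝ} (ha : ∑ i, a i ^ 2 ≤ α) :
    ∫ g, |Wq a g| ∂(gau I) ≤ 2 * α := by
  have h1 : ∫ g, |Wq a g| ∂(gau I) ≤ ∫ g, ((a ⬝ᵥ g) ^ 2 + ∑ i, a i ^ 2) ∂(gau I) :=
    integral_mono (int_egr (egr_Wq a)).abs ((H363.integrable_dot_sq a).add (integrable_const _))
      fun g => Wq_abs a g
  rw [integral_add (H363.integrable_dot_sq a) (integrable_const _), H363.integral_dot_sq,
    integral_const] at h1
  simp only [probReal_univ, smul_eq_mul, one_mul] at h1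
  linarith

lemma Wq_set (a : I → ℝ) {α : ℝ} (hα : 0 < α) (ha : ∑ i, a i ^ 2 ≤ α) {S : Set (I → ℝ)}
    (hS : MeasurableSet S) {β : ℝ} (hβ : (gau I).real S ≤ β) :
    ∫ g in S, |Wq a g| ∂(gau I) ≤ 18 * α * √β := by
  have h0 : 0 ≤ ∑ i, a i ^ 2 := Finset.sum_nonneg fun _ _ => sq_nonneg _
  obtain ⟨i1, b1⟩ := dot_mom1 a hα ha
  have i2 : Integrable (fun g : I → ℝ => |Wq a g| ^ 2) (gau I) := by
    simp only [pow_two]
    exact int_egr ((egr_Wq a).abs.mul (egr_Wq a).abs)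
  refine cs_set (int_egr (egr_Wq a)).abs i2 (by positivity) ?_ hS hβ
  have h1 : ∀ g, |Wq a g| ^ 2 ≤ 2 * (a ⬝ᵥ g) ^ 4 + 2 * α ^ 2 := by
    intro g
    have h2 := pow_le_pow_left₀ (abs_nonneg _) (Wq_abs a g) 2
    have h3 : (∑ i, a i ^ 2) ^ 2 ≤ α ^ 2 := pow_le_pow_left₀ h0 ha 2
    have h4 := sq_nonneg ((a ⬝ᵥ g) ^ 2 - ∑ i, a i ^ 2)
    nlinarith
  have i3 : Integrable (fun g : I → ℝ => 2 * (a ⬝ᵥ g) ^ 4 + 2 * α ^ 2) (gau I) :=
    (i1.const_mul 2).add (integrable_const _)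
  refine (integral_mono i2 i3 h1).trans ?_
  rw [integral_add (i1.const_mul 2) (integrable_const _), integral_const_mul, integral_const]
  simp only [probReal_univ, smul_eq_mul, one_mul]
  nlinarith [sq_nonneg α]

namespace Maj

variable (h : Maj μ Bm)
include h

theorem Q_mom2 (A : Matrix V I ℝ) {q : ℝ} (hq : 0 < q) (hA : pr Bm (A * Aᵀ) ≤ q) :
    Integrable (fun g : I → ℝ => qf Bm (A *ᵥ g) ^ 4) (gau I) ∧
    ∫ g, qf Bm (A *ᵥ g) ^ 4 ∂(gau I) ≤ 82944 * q ^ 4 := by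
  have h1 := h.Q_mom A hq hA 2
  have h2 : ((2 * 2).factorial : ℝ) = 24 := by norm_num [Nat.factorial]
  rw [h2] at h1
  exact ⟨h1.1, h1.2.trans (le_of_eq (by ring))⟩

theorem WQ_set (a : I → ℝ) {α : ℝ} (hα : 0 < α) (ha : ∑ i, a i ^ 2 ≤ α) (A : Matrix V I ℝ)
    {q : ℝ} (hq : 0 < q) (hA : pr Bm (A * Aᵀ) ≤ q) {S : Set (I → ℝ)}
    (hS : MeasurableSet S) {β : ℝ} (hβ : (gau I).real S ≤ β) :
    ∫ g in S, |Wq a g| * (qf Bm (A *ᵥ g) / 2) ∂(gau I) ≤ 261 * (α * q) * √β := by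
  have h0 : 0 ≤ ∑ i, a i ^ 2 := Finset.sum_nonneg fun _ _ => sq_nonneg _
  obtain ⟨i1, b1⟩ := dot_mom2 a hα ha
  obtain ⟨i2, b2⟩ := h.Q_mom2 A hq hA
  have i0 : Integrable (fun g : I → ℝ => |Wq a g| * (qf Bm (A *ᵥ g) / 2)) (gau I) := by
    have h1 := int_egr ((egr_Wq a).abs.mul (egr_mat (egr_qf Bm) A))
    refine (h1.div_const 2).congr (Filter.Eventually.of_forall fun g => ?_)
    simp only
    ring
  have i3 : Integrable (fun g : I → ℝ => (|Wq a g| * (qf Bm (A *ᵥ g) / 2)) ^ 2) (gau I) := by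
    have e1 := (egr_Wq a).mul (egr_mat (egr_qf Bm) A)
    have h1 := int_egr (e1.mul e1)
    refine (h1.div_const 4).congr (Filter.Eventually.of_forall fun g => ?_)
    simp only
    rw [mul_pow, sq_abs]
    ring
  refine cs_set i0 i3 (by positivity) ?_ hS hβ
  set c : ℝ := (9 * q / (29 * α)) ^ 2 with hc
  have hc0 : 0 < c := by positivity
  have h1 : ∀ g, (|Wq a g| * (qf Bm (A *ᵥ g) / 2)) ^ 2 ≤
      c / 2 * (8 * (a ⬝ᵥ g) ^ 8 + 8 * α ^ 4) + 1 / (32 * c) * qf Bm (A *ᵥ g) ^ 4 := by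
    intro g
    set w := |Wq a g|
    set d := (a ⬝ᵥ g) ^ 2 with hd
    set Q := qf Bm (A *ᵥ g)
    have hw0 : 0 ≤ w := abs_nonneg _
    have hd0 : 0 ≤ d := sq_nonneg _
    have hw : w ≤ d + α := (Wq_abs a g).trans (by linarith)
    have hw4 : w ^ 4 ≤ 8 * d ^ 4 + 8 * α ^ 4 := by
      have e1 := pow_le_pow_left₀ hw0 hw 4
      have e2 : (d + α) ^ 4 ≤ 8 * d ^ 4 + 8 * α ^ 4 := by
        have f1 : (d + α) ^ 2 ≤ 2 * d ^ 2 + 2 * α ^ 2 := by nlinarith [sq_nonneg (d - α)]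
        have f2 := pow_le_pow_left₀ (sq_nonneg _) f1 2
        nlinarith [sq_nonneg (d ^ 2 - α ^ 2)]
      exact e1.trans e2
    have hsq : (w * (Q / 2)) ^ 2 ≤ c / 2 * w ^ 4 + 1 / (32 * c) * Q ^ 4 := by
      have f1 : c / 2 * w ^ 4 + 1 / (32 * c) * Q ^ 4 - (w * (Q / 2)) ^ 2 =
          (c * w ^ 2 - Q ^ 2 / 4) ^ 2 / (2 * c) := by
        field_simp
        ring
      have f2 : 0 ≤ (c * w ^ 2 - Q ^ 2 / 4) ^ 2 / (2 * c) := by positivity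
      linarith
    have f3 : c / 2 * w ^ 4 ≤ c / 2 * (8 * d ^ 4 + 8 * α ^ 4) :=
      mul_le_mul_of_nonneg_left hw4 (by positivity)
    have f4 : (a ⬝ᵥ g) ^ 8 = d ^ 4 := by rw [hd, ← pow_mul]
    rw [f4]
    exact hsq.trans (by linarith)
  have i4 : Integrable (fun g : I → ℝ => 8 * (a ⬝ᵥ g) ^ 8 + 8 * α ^ 4) (gau I) :=
    (i1.const_mul 8).add (integrable_const _)
  have i5 : Integrable (fun g : I → ℝ => c / 2 * (8 * (a ⬝ᵥ g) ^ 8 + 8 * α ^ 4) +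
      1 / (32 * c) * qf Bm (A *ᵥ g) ^ 4) (gau I) := (i4.const_mul _).add (i2.const_mul _)
  refine (integral_mono i3 i5 h1).trans ?_
  rw [integral_add (i4.const_mul _) (i2.const_mul _), integral_const_mul, integral_const_mul,
    integral_add (i1.const_mul 8) (integrable_const _), integral_const_mul, integral_const]
  simp only [probReal_univ, smul_eq_mul, one_mul]
  have e1 : c / 2 * (8 * ∫ g, (a ⬝ᵥ g) ^ 8 ∂(gau I) + 8 * α ^ 4) ≤
      c / 2 * (29 * α) ^ 4 := by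
    refine mul_le_mul_of_nonneg_left ?_ (by positivity)
    nlinarith [pow_pos hα 4]
  have e2 : 1 / (32 * c) * ∫ g, qf Bm (A *ᵥ g) ^ 4 ∂(gau I) ≤
      1 / (32 * c) * (16 * (9 * q) ^ 4) := by
    refine mul_le_mul_of_nonneg_left ?_ (by positivity)
    nlinarith [pow_pos hq 4]
  refine (add_le_add e1 e2).trans (le_of_eq ?_)
  rw [hc]
  field_simp
  ring

/-- **direction form of the contraction, Gaussian backgrounds** -/
theorem bump {X : Matrix V I ℝ} (a : I → ℝ) {H : Matrix V K ℝ}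
    {n : ℕ} {D DH lam p pH β q α : ℝ} (hD : 0 < D) (hDH : 0 < DH)
    (hl : 0 ≤ lam) (hq : 0 < q) (hβ1 : β ≤ 1) (hα : 0 < α) (ha : ∑ i, a i ^ 2 ≤ α)
    (hKD : K4S μ (X * Xᵀ) (X * Xᵀ) ≤ D) (hKH : K4S μ (H * Hᵀ) (H * Hᵀ) ≤ DH)
    (hra : cl n (8 * (lam * D)) ≤ 1) (hrc : cl n (8 * (lam * DH)) ≤ 1)
    (hp : (gau I).real {g | 1 < Rs μ ((2 : ℝ) ^ (n + 1) • (X *ᵥ g))} ≤ p)
    (hpH : (gau K).real {g | 1 < Rs μ ((2 : ℝ) ^ (n + 1) • (H *ᵥ g))} ≤ pH)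
    (hβ : p + 6 * Real.exp (-(√lam / 10)) ≤ β) (hβH : pH + 6 * Real.exp (-(√lam / 10)) ≤ β)
    (hqA : pr Bm (X * Xᵀ) ≤ q) (hqH : pr Bm (H * Hᵀ) ≤ q) :
    |∫ g, qf (NR μ (fromCols X H *ᵥ g)) (X *ᵥ a) ∂(gau (I ⊕ K)) -
      ∫ g, qf (NR μ (X *ᵥ g)) (X *ᵥ a) ∂(gau I)| ≤
    α * (20 * (√(cl n (8 * (lam * D))) * √(cl n (8 * (lam * DH)))) + 642 * (q * √β)) := by
  set ra := cl n (8 * (lam * D)) with hradef
  set rc := cl n (8 * (lam * DH)) with hrcdef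
  set ex := Real.exp (-(√lam / 10)) with hex
  have hra0 : 0 ≤ ra := cl_nonneg _ _
  have hrc0 : 0 ≤ rc := cl_nonneg _ _
  have hp0 : 0 ≤ p := measureReal_nonneg.trans hp
  have hex0 : 0 < ex := Real.exp_pos _
  have hβ0 : 0 ≤ β := by linarith
  have hsβ : 0 ≤ √β := Real.sqrt_nonneg β
  have hββ : β ≤ √β := by
    refine Real.le_sqrt_of_sq_le ?_
    nlinarith
  set κ : Measure (V → ℝ) := (gau K).map fun k => H *ᵥ k with hκdef
  have mH : Measurable fun k : K → ℝ => H *ᵥ k := H552.meas_mulVec H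
  have mX : Measurable fun g : I → ℝ => X *ᵥ g := H552.meas_mulVec X
  have : IsProbabilityMeasure κ := Measure.isProbabilityMeasure_map mH.aemeasurable
  set Q : (V → ℝ) → ℝ := fun J => qf Bm J / 2 with hQ
  have hdom : Dom2 (Rs μ) Q := h.dom
  have hQ0 : ∀ F, 0 ≤ Q F := fun F => hdom.toDom.Q_nonneg F
  have hκsym : κ.map (fun y => -y) = κ := H239.gau_map_neg H
  have hκQ : Integrable Q κ :=
    (integrable_map_measure hdom.mQ.aestronglyMeasurable mH.aemeasurable).2 (Q_int Bm H)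
  have hC2 := C2.Rs h.em h.gt
  have iW : Integrable (Wq a) (gau I) := int_egr (egr_Wq a)
  have iWQ : Integrable (fun g => |Wq a g| * Q (X *ᵥ g)) (gau I) := by
    have h1 := int_egr ((egr_Wq a).abs.mul (egr_mat (egr_qf Bm) X))
    refine (h1.div_const 2).congr (Filter.Eventually.of_forall fun g => ?_)
    simp only [hQ]
    ring
  -- the good sets
  set A : Set (I → ℝ) := {g | X *ᵥ g ∈ Gs μ n (lam * D)} with hAdef
  set C : Set (V → ℝ) := Gs μ n (lam * DH) with hCdef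
  have hA : MeasurableSet A := (h.Gs_meas n _).preimage mX
  have hC : MeasurableSet C := h.Gs_meas n _
  have hPA : (gau I).real Aᶜ ≤ β := (h.Gs_prob X hD hKD n hl hp).trans hβ
  have hPC : (gau K).real {k | H *ᵥ k ∈ Cᶜ} ≤ β := (h.Gs_prob H hDH hKH n hl hpH).trans hβH
  have hκC : κ.real Cᶜ ≤ β := by
    rw [hκdef, map_measureReal_apply mH hC.compl]
    exact hPC
  have hAR : ∀ ω ∈ A, Rs μ (X *ᵥ ω) ≤ 1 ∧ TR (Rs μ) (X *ᵥ ω) ≤ ra := fun ω hω => by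
    obtain ⟨a1, -, a3⟩ := h.Gs_good (n := n) (b := lam * D) hω
    exact ⟨a1, a3⟩
  have hCR : ∀ y ∈ C, Rs μ y ≤ 1 ∧ TR (Rs μ) y ≤ rc := fun y hy => by
    obtain ⟨a1, -, a3⟩ := h.Gs_good hy
    exact ⟨a1, a3⟩
  have key := H239.core_le (P := gau I) (κ := κ) (W := Wq a) (a := fun g => X *ᵥ g) hdom.toDom hκQ
    hκsym mX (Wq_mean a) iW iWQ hA hC hra0 hra hrc0 hrc hAR hCR
  -- identification of the left hand side
  have e1 : ∫ g, qf (NR μ (X *ᵥ g)) (X *ᵥ a) ∂(gau I) =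
      ∫ g, Wq a g * Rs μ (X *ᵥ g) ∂(gau I) := (hC2.var X a).symm
  have e2 : ∫ g, qf (NR μ (fromCols X H *ᵥ g)) (X *ᵥ a) ∂(gau (I ⊕ K)) =
      ∫ g, Wq a g * ∫ y, Rs μ (X *ᵥ g + y) ∂κ ∂(gau I) := by
    have h1 := hC2.var (fromCols X H) (Sum.elim a (0 : K → ℝ))
    have f1 : fromCols X H *ᵥ Sum.elim a (0 : K → ℝ) = X *ᵥ a := by
      rw [Matrix.fromCols_mulVec_sumElim, Matrix.mulVec_zero, add_zero]
    rw [f1] at h1
    rw [← h1]
    have i1 := int_egr ((egr_Wq (Sum.elim a (0 : K → ℝ))).mul (egr_mat hC2.e0 (fromCols X H)))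
    have i2 : Integrable (fun g : I ⊕ K → ℝ => ((Sum.elim a (0 : K → ℝ) ⬝ᵥ g) ^ 2 -
        ∑ i, Sum.elim a (0 : K → ℝ) i ^ 2) * Rs μ (fromCols X H *ᵥ g)) (gau (I ⊕ K)) := i1
    rw [H363.integral_gau_sum _ i2]
    refine integral_congr_ae (Filter.Eventually.of_forall fun g => ?_)
    simp only
    rw [hκdef, integral_map (f := fun y => Rs μ (X *ᵥ g + y)) mH.aemeasurable
      (hdom.mR.comp (measurable_const_add _)).aestronglyMeasurable, ← integral_const_mul]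
    refine integral_congr_ae (Filter.Eventually.of_forall fun k => ?_)
    simp only [Matrix.fromCols_mulVec_sumElim, sumElim_dotProduct_sumElim,
      zero_dotProduct, add_zero, Fintype.sum_sum_type, Sum.elim_inl, Sum.elim_inr, Pi.zero_apply]
    unfold Wq
    simp
  have iWR : Integrable (fun g : I → ℝ => Wq a g * Rs μ (X *ᵥ g)) (gau I) :=
    int_egr ((egr_Wq a).mul (egr_mat hC2.e0 X))
  have iWRk : Integrable (fun g : I → ℝ => Wq a g * ∫ y, Rs μ (X *ᵥ g + y) ∂κ) (gau I) := by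
    have h1 : ∀ g : I → ℝ, Wq a g * ∫ y, Rs μ (X *ᵥ g + y) ∂κ = Wq a g * Rs μ (X *ᵥ g) +
        (Wq a g * (∫ y, Rs μ y ∂κ) + (1 / 2) * (Wq a g * ∫ y, H239.dl (Rs μ) (X *ᵥ g) y ∂κ)) := by
      intro g
      rw [hdom.toDom.mean_add hκQ hκsym (X *ᵥ g)]
      ring
    simp only [h1]
    exact iWR.add ((iW.mul_const _).add
      ((H239.int_W_dl hdom.toDom hκQ mX iW iWQ).const_mul _))
  have e3 : ∫ g, Wq a g * (∫ y, Rs μ (X *ᵥ g + y) ∂κ - Rs μ (X *ᵥ g)) ∂(gau I) =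
      ∫ g, qf (NR μ (fromCols X H *ᵥ g)) (X *ᵥ a) ∂(gau (I ⊕ K)) -
      ∫ g, qf (NR μ (X *ᵥ g)) (X *ᵥ a) ∂(gau I) := by
    rw [e1, e2, ← integral_sub iWRk iWR]
    refine integral_congr_ae (Filter.Eventually.of_forall fun g => ?_)
    simp only
    ring
  rw [e3] at key
  refine key.trans ?_
  unfold H239.rhs
  have t1 : ∫ g, |Wq a g| ∂(gau I) ≤ 2 * α := Wq_l1 a ha
  have t10 : 0 ≤ ∫ g, |Wq a g| ∂(gau I) := integral_nonneg fun _ => abs_nonneg _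
  have t2 : ∫ g in Aᶜ, |Wq a g| ∂(gau I) ≤ 18 * α * √β := Wq_set a hα ha hA.compl hPA
  have t20 : 0 ≤ ∫ g in Aᶜ, |Wq a g| ∂(gau I) := integral_nonneg fun _ => abs_nonneg _
  have t3 : ∫ g, |Wq a g| * Q (X *ᵥ g) ∂(gau I) ≤ 261 * (α * q) := by
    have := h.WQ_set a hα ha X hq hqA MeasurableSet.univ (β := 1) measureReal_le_one
    rwa [Measure.restrict_univ, Real.sqrt_one, mul_one] at this
  have t30 : 0 ≤ ∫ g, |Wq a g| * Q (X *ᵥ g) ∂(gau I) :=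
    integral_nonneg fun _ => mul_nonneg (abs_nonneg _) (hQ0 _)
  have t4 : ∫ g in Aᶜ, |Wq a g| * Q (X *ᵥ g) ∂(gau I) ≤ 261 * (α * q) * √β :=
    h.WQ_set a hα ha X hq hqA hA.compl hPA
  have t5 : ∫ y, Q y ∂κ ≤ 6 * q := by
    rw [hκdef, integral_map mH.aemeasurable hdom.mQ.aestronglyMeasurable]
    exact h.Q_tot H hq hqH
  have t50 : 0 ≤ ∫ y, Q y ∂κ := integral_nonneg hQ0
  have t6 : ∫ y in Cᶜ, Q y ∂κ ≤ 6 * q * √β := by
    rw [hκdef, setIntegral_map hC.compl hdom.mQ.aestronglyMeasurable mH.aemeasurable]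
    exact h.Q_set H hq hqH (hC.compl.preimage mH) hPC
  have t60 : 0 ≤ ∫ y in Cᶜ, Q y ∂κ := integral_nonneg fun y => hQ0 y
  have u1 : 10 * (√ra * √rc) * ∫ g, |Wq a g| ∂(gau I) ≤ 10 * (√ra * √rc) * (2 * α) :=
    mul_le_mul_of_nonneg_left t1 (by positivity)
  have u2 : κ.real Cᶜ * ∫ g, |Wq a g| * Q (X *ᵥ g) ∂(gau I) ≤ √β * (261 * (α * q)) :=
    mul_le_mul (hκC.trans hββ) t3 t30 hsβ
  have u3 : (∫ y in Cᶜ, Q y ∂κ) * ∫ g, |Wq a g| ∂(gau I) ≤ 6 * q * √β * (2 * α) :=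
    mul_le_mul t6 t1 t10 (by positivity)
  have u4 : (∫ y, Q y ∂κ) * ∫ g in Aᶜ, |Wq a g| ∂(gau I) ≤ 6 * q * (18 * α * √β) :=
    mul_le_mul t5 t2 t20 (by positivity)
  linarith only [u1, u2, u3, u4, t4]

end Maj

end

end Vale.Agent.P159.H447
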