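import Vale.Agent.P159.H447.Cg3

/-!
P159 / module CONTRG, part 4 (helper447): **the contraction in terms of covariances only.**

`F' ~ A' g`, `F'' ~ A'' g` with `A'' A''ᵀ = A' A'ᵀ + H Hᵀ` (any representations), and
`H Hᵀ ≤ ε A' A'ᵀ`.  With `D ≥ K4S μ (Γ', Γ')`, the a-priori probability
`P(Rs μ (2^(n+2) F') > 1) ≤ p`, `q ≥ tr (Bm Γ')`, `β = 8 p + 24 exp (-√λ/10)`, `δ = 2^(-n)`:

* `Maj.trace_eps` : `0 ≤ S ≤ Γ'` :
  `|E'' tr (S N) - E' tr (S N)| ≤ (336 (32 λ D ε)^(1-δ) + 264 q √β) / √ε`,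
* `Maj.bump_eps` : `u = A' a` :
  `|E'' <u, N u> - E' <u, N u>| ≤ |a|² (160 (8 λ D ε)^(1-δ) + 642 q √β)`.
-/

namespace Vale.Agent.P159.H447

open Finset Matrix MeasureTheory ProbabilityTheory
open Vale.Agent.P159.TM.H104 (EM Ex Cv K3 Lg li nh Gr)
open Vale.Agent.P159.H37
open Vale.Agent.P159.H159 (GT egr_lin egr_coord egr_sum egr_Rs egr_mn egr_Cm egr_qf)

noncomputable section

variable {V : Type} [Fintype V] {μ : (V → ℤ) → ℝ} {Bm : Matrix V V ℝ}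
variable {I J K : Type*} [Fintype I] [Fintype J] [Fintype K]

/-! ### the closure function as a power -/

lemma cl_eq (n : ℕ) {y : ℝ} (hy : 0 ≤ y) : cl n y = 8 * y ^ (1 - (1 / 2 : ℝ) ^ n) := by
  unfold cl
  rw [Real.sqrt_eq_rpow, ← Real.rpow_mul hy]
  congr 2
  ring

lemma sqrt_cl_mul (n : ℕ) {x y : ℝ} (hx : 0 ≤ x) (hy : 0 ≤ y) :
    √(cl n x) * √(cl n y) = 8 * √(x * y) ^ (1 - (1 / 2 : ℝ) ^ n) := by
  rw [cl_eq n hx, cl_eq n hy, ← Real.sqrt_mul (by positivity)]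
  have e1 : 8 * x ^ (1 - (1 / 2 : ℝ) ^ n) * (8 * y ^ (1 - (1 / 2 : ℝ) ^ n)) =
      (8 * √(x * y) ^ (1 - (1 / 2 : ℝ) ^ n)) ^ 2 := by
    rw [mul_pow, ← Real.rpow_natCast (√(x * y) ^ _), ← Real.rpow_mul (Real.sqrt_nonneg _),
      mul_comm _ ((2 : ℕ) : ℝ), Real.rpow_mul (Real.sqrt_nonneg _), Real.rpow_natCast,
      Real.sq_sqrt (mul_nonneg hx hy), Real.mul_rpow hx hy]
    ring
  rw [e1, Real.sqrt_sq (by positivity)]

/-! ### laws -/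

lemma law_real {A : Matrix V I ℝ} {B : Matrix V J ℝ} (hAB : A * Aᵀ = B * Bᵀ) {U : Set (V → ℝ)}
    (hU : MeasurableSet U) :
    (gau I).real {g | A *ᵥ g ∈ U} = (gau J).real {g | B *ᵥ g ∈ U} := by
  have h1 := H363.law_eq A B hAB
  have h2 : ((gau I).map fun g => A *ᵥ g).real U = ((gau J).map fun g => B *ᵥ g).real U := by
    rw [h1]
  rw [map_measureReal_apply (H552.meas_mulVec A) hU,
    map_measureReal_apply (H552.meas_mulVec B) hU] at h2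
  exact h2

lemma egr_pr {N : (V → ℝ) → Matrix V V ℝ} (hN : ∀ x y, EGr fun J => N J x y)
    (S : Matrix V V ℝ) : EGr fun J => pr (N J) S := by
  unfold pr
  exact egr_sum _ fun x _ => egr_sum _ fun y _ => (hN x y).mul (EGr.const _)

lemma egr_qfN {N : (V → ℝ) → Matrix V V ℝ} (hN : ∀ x y, EGr fun J => N J x y)
    (u : V → ℝ) : EGr fun J => qf (N J) u := by
  unfold qf
  exact egr_sum _ fun x _ => egr_sum _ fun y _ => ((EGr.const _).mul (hN x y)).mul (EGr.const _)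

namespace Maj

variable (h : Maj μ Bm)
include h

theorem U_meas (c : ℝ) : MeasurableSet {F : V → ℝ | 1 < Rs μ (c • F)} :=
  measurableSet_lt measurable_const (h.mR.comp (measurable_const_smul c))

/-- the a-priori probability is nonincreasing when the field shrinks -/
theorem prob_scale (A : Matrix V I ℝ) {c c' : ℝ} (hc : 0 ≤ c) (hcc : c ≤ c') :
    (gau I).real {g | 1 < Rs μ (c • (A *ᵥ g))} ≤ (gau I).real {g | 1 < Rs μ (c' • (A *ᵥ g))} :=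
  measureReal_mono fun g (hg : 1 < Rs μ (c • (A *ᵥ g))) =>
    hg.trans_le (H789.Rs_ray_mono h.em h.ev h.pk (A *ᵥ g) hc hcc)

/-- **trace form, covariances only** -/
theorem trace_contr {A' : Matrix V I ℝ} {A'' : Matrix V J ℝ} {H : Matrix V K ℝ}
    {S : Matrix V V ℝ} (hS : S.PosSemidef) (hSA : (A' * A'ᵀ - S).PosSemidef)
    (hA'' : A'' * A''ᵀ = A' * A'ᵀ + H * Hᵀ)
    {n : ℕ} {D DH e lam p pH β q : ℝ} (he0 : 0 < e) (he1 : e ≤ 1) (hD : 0 < D) (hDH : 0 < DH)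
    (hl : 0 ≤ lam) (hq : 0 < q) (hβ1 : β ≤ 1)
    (hKD : K4S μ (A' * A'ᵀ) (A' * A'ᵀ) ≤ D) (hKH : K4S μ (H * Hᵀ) (H * Hᵀ) ≤ DH)
    (hra : cl n (128 * (lam * D)) ≤ 1) (hrc : cl n (8 * (lam * DH)) ≤ 1)
    (hp : (gau I).real {g | 1 < Rs μ ((2 : ℝ) ^ (n + 2) • (A' *ᵥ g))} ≤ p)
    (hpH : (gau K).real {g | 1 < Rs μ ((2 : ℝ) ^ (n + 1) • (H *ᵥ g))} ≤ pH)
    (hβ : 8 * p + 24 * Real.exp (-(√lam / 10)) ≤ β) (hβH : pH + 6 * Real.exp (-(√lam / 10)) ≤ β)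
    (hqA : pr Bm (A' * A'ᵀ) ≤ q) (hqH : pr Bm (H * Hᵀ) ≤ q) :
    |∫ g, pr (NR μ (A'' *ᵥ g)) S ∂(gau J) - ∫ g, pr (NR μ (A' *ᵥ g)) S ∂(gau I)| ≤
    (20 * (√(cl n (128 * (lam * D))) * √(cl n (8 * (lam * DH)))) +
      20 * (√(cl n (128 * (lam * D))) * √(cl n (8 * (lam * (e ^ 4 * D))))) +
      2 * cl n (8 * (lam * (e ^ 4 * D))) + 264 * (q * √β)) / e := by
  classical
  obtain ⟨X0, hX0⟩ := H239.exists_increment hSA
  obtain ⟨Z0, hZ0⟩ := H239.exists_increment hS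
  set X : Matrix V (V ⊕ V) ℝ := fromCols X0 (0 : Matrix V V ℝ) with hX
  set Z : Matrix V (V ⊕ V) ℝ := fromCols (0 : Matrix V V ℝ) Z0 with hZ
  have hXZ : X * Zᵀ = 0 := by
    rw [hX, hZ, Matrix.transpose_fromCols, Matrix.fromCols_mul_fromRows, Matrix.transpose_zero,
      Matrix.mul_zero, Matrix.zero_mul, add_zero]
  have hXX : X * Xᵀ = A' * A'ᵀ - S := by
    rw [hX, Matrix.transpose_fromCols, Matrix.fromCols_mul_fromRows, Matrix.transpose_zero,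
      Matrix.mul_zero, add_zero, ← hX0]
  have hZZ : Z * Zᵀ = S := by
    rw [hZ, Matrix.transpose_fromCols, Matrix.fromCols_mul_fromRows, Matrix.transpose_zero,
      Matrix.mul_zero, zero_add, ← hZ0]
  have hY : (X + Z) * (X + Z)ᵀ = A' * A'ᵀ := by
    have h1 := cov_ray hXZ 1
    rw [one_smul, one_pow, one_smul, hXX, hZZ, sub_add_cancel] at h1
    exact h1
  have hYH : fromCols (X + Z) H * (fromCols (X + Z) H)ᵀ = A'' * A''ᵀ := by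
    rw [Matrix.transpose_fromCols, Matrix.fromCols_mul_fromRows, hY, hA'']
  have hN := (egr_pr (C2.Rs h.em h.gt).e2 S).meas.stronglyMeasurable
  have h1 := h.trace_XZ hXZ (H := H) (n := n) (D := D) (DH := DH) (e := e) (lam := lam) (p := p)
    (pH := pH) (β := β) (q := q) he0 he1 hD hDH hl hq hβ1 (by rw [hY]; exact hKD) hKH hra hrc ?_
    hpH hβ hβH (by rw [hY]; exact hqA) hqH
  · rw [hZZ, H363.law_integral_eq (fromCols (X + Z) H) A'' hYH (fun F => pr (NR μ F) S) hN,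
      H363.law_integral_eq (X + Z) A' hY (fun F => pr (NR μ F) S) hN] at h1
    exact h1
  · refine (le_of_eq ?_).trans hp
    exact law_real hY (h.U_meas _)

/-- **direction form, covariances only** -/
theorem bump_contr {A' : Matrix V I ℝ} (a : I → ℝ) {A'' : Matrix V J ℝ} {H : Matrix V K ℝ}
    (hA'' : A'' * A''ᵀ = A' * A'ᵀ + H * Hᵀ)
    {n : ℕ} {D DH lam p pH β q α : ℝ} (hD : 0 < D) (hDH : 0 < DH)
    (hl : 0 ≤ lam) (hq : 0 < q) (hβ1 : β ≤ 1) (hα : 0 < α) (ha : ∑ i, a i ^ 2 ≤ α)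
    (hKD : K4S μ (A' * A'ᵀ) (A' * A'ᵀ) ≤ D) (hKH : K4S μ (H * Hᵀ) (H * Hᵀ) ≤ DH)
    (hra : cl n (8 * (lam * D)) ≤ 1) (hrc : cl n (8 * (lam * DH)) ≤ 1)
    (hp : (gau I).real {g | 1 < Rs μ ((2 : ℝ) ^ (n + 1) • (A' *ᵥ g))} ≤ p)
    (hpH : (gau K).real {g | 1 < Rs μ ((2 : ℝ) ^ (n + 1) • (H *ᵥ g))} ≤ pH)
    (hβ : p + 6 * Real.exp (-(√lam / 10)) ≤ β) (hβH : pH + 6 * Real.exp (-(√lam / 10)) ≤ β)
    (hqA : pr Bm (A' * A'ᵀ) ≤ q) (hqH : pr Bm (H * Hᵀ) ≤ q) :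
    |∫ g, qf (NR μ (A'' *ᵥ g)) (A' *ᵥ a) ∂(gau J) -
      ∫ g, qf (NR μ (A' *ᵥ g)) (A' *ᵥ a) ∂(gau I)| ≤
    α * (20 * (√(cl n (8 * (lam * D))) * √(cl n (8 * (lam * DH)))) + 642 * (q * √β)) := by
  have hYH : fromCols A' H * (fromCols A' H)ᵀ = A'' * A''ᵀ := by
    rw [Matrix.transpose_fromCols, Matrix.fromCols_mul_fromRows, hA'']
  have hN := (egr_qfN (C2.Rs h.em h.gt).e2 (A' *ᵥ a)).meas.stronglyMeasurable
  have h1 := h.bump a (X := A') (H := H) (n := n) (D := D) (DH := DH) (lam := lam) (p := p)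
    (pH := pH) (β := β) (q := q) (α := α) hD hDH hl hq hβ1 hα ha hKD hKH hra hrc hp hpH hβ hβH
    hqA hqH
  rw [H363.law_integral_eq (fromCols A' H) A'' hYH (fun F => qf (NR μ F) (A' *ᵥ a)) hN] at h1
  exact h1

/-! ### all hypotheses on `H` from `H Hᵀ ≤ ε A' A'ᵀ` -/

section eps

variable {A' : Matrix V I ℝ} {A'' : Matrix V J ℝ} {H : Matrix V K ℝ} {ε : ℝ}

theorem H_K4 (hH : (ε • (A' * A'ᵀ) - H * Hᵀ).PosSemidef) {D : ℝ}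
    (hKD : K4S μ (A' * A'ᵀ) (A' * A'ᵀ) ≤ D) : K4S μ (H * Hᵀ) (H * Hᵀ) ≤ ε ^ 2 * D := by
  have h1 := K4S_psd h.em h.ev h.pk (psd_gram H) hH
  rw [K4S_smul2] at h1
  exact h1.trans (mul_le_mul_of_nonneg_left hKD (sq_nonneg ε))

theorem H_pr (hε1 : ε ≤ 1) (hH : (ε • (A' * A'ᵀ) - H * Hᵀ).PosSemidef) :
    pr Bm (H * Hᵀ) ≤ pr Bm (A' * A'ᵀ) := by
  have h1 := pr_psd h.qf_nonneg hH
  have h2 := pr_gram_nonneg h.qf_nonneg A'
  rw [pr_smul] at h1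
  nlinarith

theorem H_prob (hε1 : ε ≤ 1) (hH : (ε • (A' * A'ᵀ) - H * Hᵀ).PosSemidef) (s : ℝ) :
    (gau K).real {g | 1 < Rs μ (s • (H *ᵥ g))} ≤
      2 * (gau I).real {g | 1 < Rs μ (s • (A' *ᵥ g))} := by
  have h1 : (((1 : ℝ) ^ 2) • (A' * A'ᵀ) - H * Hᵀ).PosSemidef := by
    have e : ((1 : ℝ) ^ 2) • (A' * A'ᵀ) - H * Hᵀ =
        (1 - ε) • (A' * A'ᵀ) + (ε • (A' * A'ᵀ) - H * Hᵀ) := by
      rw [sub_smul, one_pow]
      abel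
    rw [e]
    exact ((psd_gram A').smul (sub_nonneg.2 hε1)).add hH
  have h2 := h.prob_psd s 1 h1 1
  rwa [mul_one] at h2

/-- **TRACE FORM, final** -/
theorem trace_eps {S : Matrix V V ℝ} (hS : S.PosSemidef) (hSA : (A' * A'ᵀ - S).PosSemidef)
    (hA'' : A'' * A''ᵀ = A' * A'ᵀ + H * Hᵀ) (hε0 : 0 < ε) (hε1 : ε ≤ 1)
    (hH : (ε • (A' * A'ᵀ) - H * Hᵀ).PosSemidef)
    {n : ℕ} {D lam p β q : ℝ} (hD : 0 < D) (hl : 0 ≤ lam) (hq : 0 < q) (hβ1 : β ≤ 1)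
    (hKD : K4S μ (A' * A'ᵀ) (A' * A'ᵀ) ≤ D)
    (hra : 8 * (128 * (lam * D)) ^ (1 - (1 / 2 : ℝ) ^ n) ≤ 1)
    (hp : (gau I).real {g | 1 < Rs μ ((2 : ℝ) ^ (n + 2) • (A' *ᵥ g))} ≤ p)
    (hβ : 8 * p + 24 * Real.exp (-(√lam / 10)) ≤ β) (hqA : pr Bm (A' * A'ᵀ) ≤ q) :
    |∫ g, pr (NR μ (A'' *ᵥ g)) S ∂(gau J) - ∫ g, pr (NR μ (A' *ᵥ g)) S ∂(gau I)| ≤
      (336 * (32 * (lam * D * ε)) ^ (1 - (1 / 2 : ℝ) ^ n) + 264 * (q * √β)) / √ε := by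
  have hlD : 0 ≤ lam * D := mul_nonneg hl hD.le
  have hε2 : ε ^ 2 ≤ 1 := pow_le_one₀ hε0.le hε1
  have hex := Real.exp_pos (-(√lam / 10))
  have hδ : (0 : ℝ) ≤ 1 - (1 / 2 : ℝ) ^ n := by
    have : (1 / 2 : ℝ) ^ n ≤ 1 := pow_le_one₀ (by norm_num) (by norm_num)
    linarith
  have hra' : cl n (128 * (lam * D)) ≤ 1 := by
    rw [cl_eq n (by positivity)]
    exact hra
  have hle : 8 * (lam * (ε ^ 2 * D)) ≤ 128 * (lam * D) := by nlinarith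
  have hrc' : cl n (8 * (lam * (ε ^ 2 * D))) ≤ 1 := (cl_mono n hle).trans hra'
  have hs4 : √ε ^ 4 = ε ^ 2 := by
    have : √ε ^ 4 = (√ε ^ 2) ^ 2 := by ring
    rw [this, Real.sq_sqrt hε0.le]
  have h1p : (gau K).real {g | 1 < Rs μ ((2 : ℝ) ^ (n + 1) • (H *ᵥ g))} ≤ 2 * p := by
    refine (h.H_prob hε1 hH _).trans ?_
    have := (h.prob_scale A' (c := (2 : ℝ) ^ (n + 1)) (c' := (2 : ℝ) ^ (n + 2)) (by positivity)
      (pow_le_pow_right₀ one_le_two (by omega))).trans hp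
    linarith
  have hp0 : 0 ≤ p := measureReal_nonneg.trans hp
  have key := h.trace_contr hS hSA hA'' (n := n) (D := D) (DH := ε ^ 2 * D) (e := √ε) (lam := lam)
    (p := p) (pH := 2 * p) (β := β) (q := q) (Real.sqrt_pos.2 hε0) (Real.sqrt_le_one.2 hε1) hD
    (by positivity) hl hq hβ1 hKD (h.H_K4 hH hKD) hra' hrc' hp h1p hβ (by linarith) hqA
    ((h.H_pr hε1 hH).trans hqA)
  refine key.trans (div_le_div_of_nonneg_right ?_ (Real.sqrt_nonneg _))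
  rw [hs4, sqrt_cl_mul n (by positivity) (by positivity)]
  have e1 : 128 * (lam * D) * (8 * (lam * (ε ^ 2 * D))) = (32 * (lam * D * ε)) ^ 2 := by ring
  rw [e1, Real.sqrt_sq (by positivity), cl_eq n (by positivity)]
  have h2 : (8 * (lam * (ε ^ 2 * D))) ^ (1 - (1 / 2 : ℝ) ^ n) ≤
      (32 * (lam * D * ε)) ^ (1 - (1 / 2 : ℝ) ^ n) := by
    refine Real.rpow_le_rpow (by positivity) ?_ hδ
    have : ε ^ 2 ≤ ε := by nlinarith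
    nlinarith [mul_nonneg hlD hε0.le]
  linarith

/-- **DIRECTION FORM, final** -/
theorem bump_eps (a : I → ℝ) (hA'' : A'' * A''ᵀ = A' * A'ᵀ + H * Hᵀ) (hε0 : 0 < ε) (hε1 : ε ≤ 1)
    (hH : (ε • (A' * A'ᵀ) - H * Hᵀ).PosSemidef)
    {n : ℕ} {D lam p β q α : ℝ} (hD : 0 < D) (hl : 0 ≤ lam) (hq : 0 < q) (hβ1 : β ≤ 1)
    (hα : 0 < α) (ha : ∑ i, a i ^ 2 ≤ α)
    (hKD : K4S μ (A' * A'ᵀ) (A' * A'ᵀ) ≤ D)
    (hra : 8 * (8 * (lam * D)) ^ (1 - (1 / 2 : ℝ) ^ n) ≤ 1)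
    (hp : (gau I).real {g | 1 < Rs μ ((2 : ℝ) ^ (n + 1) • (A' *ᵥ g))} ≤ p)
    (hβ : 2 * p + 6 * Real.exp (-(√lam / 10)) ≤ β) (hqA : pr Bm (A' * A'ᵀ) ≤ q) :
    |∫ g, qf (NR μ (A'' *ᵥ g)) (A' *ᵥ a) ∂(gau J) -
      ∫ g, qf (NR μ (A' *ᵥ g)) (A' *ᵥ a) ∂(gau I)| ≤
      α * (160 * (8 * (lam * D * ε)) ^ (1 - (1 / 2 : ℝ) ^ n) + 642 * (q * √β)) := by
  have hlD : 0 ≤ lam * D := mul_nonneg hl hD.le
  have hε2 : ε ^ 2 ≤ 1 := pow_le_one₀ hε0.le hε1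
  have hex := Real.exp_pos (-(√lam / 10))
  have hra' : cl n (8 * (lam * D)) ≤ 1 := by
    rw [cl_eq n (by positivity)]
    exact hra
  have hle : 8 * (lam * (ε ^ 2 * D)) ≤ 8 * (lam * D) := by nlinarith
  have hrc' : cl n (8 * (lam * (ε ^ 2 * D))) ≤ 1 := (cl_mono n hle).trans hra'
  have h1p : (gau K).real {g | 1 < Rs μ ((2 : ℝ) ^ (n + 1) • (H *ᵥ g))} ≤ 2 * p := by
    refine (h.H_prob hε1 hH _).trans ?_
    linarith
  have hp0 : 0 ≤ p := measureReal_nonneg.trans hp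
  have key := h.bump_contr a hA'' (n := n) (D := D) (DH := ε ^ 2 * D) (lam := lam)
    (p := p) (pH := 2 * p) (β := β) (q := q) (α := α) hD (by positivity) hl hq hβ1 hα ha hKD
    (h.H_K4 hH hKD) hra' hrc' hp h1p (by linarith) hβ hqA ((h.H_pr hε1 hH).trans hqA)
  refine key.trans (le_of_eq ?_)
  rw [sqrt_cl_mul n (by positivity) (by positivity)]
  have e1 : 8 * (lam * D) * (8 * (lam * (ε ^ 2 * D))) = (8 * (lam * D * ε)) ^ 2 := by ring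
  rw [e1, Real.sqrt_sq (by positivity)]
  ring

end eps

end Maj

end

end Vale.Agent.P159.H447
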