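import Vale.Agent.P159.H447.LawT

/-!
P159 / module CGT, part 2 (helper447): **the Gaussian contraction on the windows of the torus**.
Neutral model, posterior mass `T`, priors `r ≤ s ≤ T / 2`, cells of side `l`; window `w`, base box
`w₀`; source `CNᵀ Lw A g`, `A Aᵀ = Sgn N l b T s`.

* `WinH` : the data of one window and one prior;
* `WinH.trace_size`, `WinH.bump_size`, `WinH.bad` : one prior;
* `WinH.near_trace`, `WinH.near_bump` : two priors.
-/

set_option linter.unusedSectionVars false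

namespace Vale.Agent.P159.H447

open Finset Matrix MeasureTheory
open Vale.Agent.P159.TM.H104 (EM Ex Cv K3 Lg li nh Gr)
open Vale.Agent.P159.TM.H764 (bx)
open Vale.Agent.P159.H37
open Vale.Agent.P159.H159 (pr Ct)
open Vale.Agent.P159.TM.Spec (V)
open Vale.Agent.P159.TM.SpecC (wT)
open Vale.Agent.P159.H963 (GrI Neu pin Pn nwt nMC obsN Gnc gw_wT mf_smul)
open Vale.Agent.P159.H859 (Sgn wc Lw dB dB_tr Wmap wmap_Lw As Dat dat_neu' kcell_pos wk_cell psd_of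
  conj_symm)

noncomputable section

/-! ### matrices on the cells -/

section mats

variable {n : ℕ} [NeZero n] {W : Type*} [Fintype W] {J : Type*} [Fintype J]

/-- a contraction supported in `E` is below `1_E` -/
lemma ct_dB {B : Matrix (V n) J ℝ} (hB : Ct B) {E : Finset (V n)}
    (hE : ∀ x j, B x j ≠ 0 → x ∈ E) : (dB E - B * Bᵀ).PosSemidef := by
  refine psd_of ?_ fun u => ?_
  · rw [Matrix.transpose_sub, dB_tr, H859.gram_symm]
  · rw [H859.qf_sub_m, H859.qf_dB]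
    have h1 : qf (B * Bᵀ) u = qf (B * Bᵀ) (fun x => if x ∈ E then u x else 0) := by
      rw [H859.qf_gram_tr, H859.qf_gram_tr]
      refine Finset.sum_congr rfl fun j _ => ?_
      congr 1
      simp only [Matrix.mulVec, dotProduct, Matrix.transpose_apply]
      refine Finset.sum_congr rfl fun x _ => ?_
      by_cases hx : B x j = 0
      · rw [hx, zero_mul, zero_mul]
      · rw [if_pos (hE x j hx)]
    have h2 := hB fun x => if x ∈ E then u x else 0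
    rw [← h1] at h2
    have h3 : ∑ x, (if x ∈ E then u x else 0) ^ 2 = ∑ x ∈ E, u x ^ 2 := by
      rw [← Finset.sum_filter_add_sum_filter_not Finset.univ (fun x => x ∈ E)]
      have e1 : ∑ x with x ∈ E, (if x ∈ E then u x else 0) ^ 2 = ∑ x ∈ E, u x ^ 2 := by
        rw [Finset.filter_mem_eq_inter, Finset.univ_inter]
        exact Finset.sum_congr rfl fun x hx => by rw [if_pos hx]
      have e2 : ∑ x with x ∉ E, (if x ∈ E then u x else 0) ^ 2 = 0 := by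
        refine Finset.sum_eq_zero fun x hx => ?_
        rw [Finset.mem_filter] at hx
        rw [if_neg hx.2]
        norm_num
      rw [e1, e2, add_zero]
    rw [h3] at h2
    linarith

/-- one direction -/
lemma rank_dB {f : V n → ℝ} {E : Finset (V n)} (hE : ∀ x, x ∉ E → f x = 0) :
    ((∑ x, f x ^ 2) • dB E - vecMulVec f f).PosSemidef := by
  refine psd_of ?_ fun u => ?_
  · rw [Matrix.transpose_sub, Matrix.transpose_smul, dB_tr, Matrix.transpose_vecMulVec]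
  · rw [H859.qf_sub_m, H864.qf_smul_mat, H859.qf_dB]
    have h1 : qf (vecMulVec f f) u = (∑ x, f x * u x) ^ 2 := by
      unfold qf
      rw [pow_two, Finset.sum_mul_sum]
      refine Finset.sum_congr rfl fun x _ => Finset.sum_congr rfl fun y _ => ?_
      rw [vecMulVec_apply]
      ring
    have h2 : ∑ x, f x * u x = ∑ x ∈ E, f x * u x := by
      refine (Finset.sum_subset (Finset.subset_univ E) fun x _ hx => ?_).symm
      rw [hE x hx, zero_mul]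
    have h3 := Finset.sum_mul_sq_le_sq_mul_sq E f u
    have h4 : ∑ x ∈ E, f x ^ 2 ≤ ∑ x, f x ^ 2 :=
      Finset.sum_le_sum_of_subset_of_nonneg (Finset.subset_univ E) fun _ _ _ => sq_nonneg _
    have h5 : 0 ≤ ∑ x ∈ E, u x ^ 2 := Finset.sum_nonneg fun _ _ => sq_nonneg _
    rw [h1, h2]
    nlinarith

lemma psd_conj {S : Matrix (V n) (V n) ℝ} (hS : S.PosSemidef) (C : Matrix W (V n) ℝ) :
    (C * S * Cᵀ).PosSemidef := by
  refine psd_of (conj_symm C (H859.psd_symm hS)) fun u => ?_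
  rw [H859.qf_conj', H859.qf_qd]
  exact H859.qd_nonneg hS _

lemma psd_conj_sub {S S' : Matrix (V n) (V n) ℝ} (hS : (S - S').PosSemidef)
    (C : Matrix W (V n) ℝ) : (C * S * Cᵀ - C * S' * Cᵀ).PosSemidef := by
  have h := psd_conj hS C
  rwa [Matrix.mul_sub, Matrix.sub_mul] at h

end mats

/-! ### the data of a window -/

section win

variable {N l : ℕ} [NeZero N] [NeZero (N / l)]

/-- the loss of the window: `2 wc(s) (2 + 2 |w| / |w₀|)` -/
def kw (N l ρ : ℕ) [NeZero N] [NeZero (N / l)] (b T s : ℝ) (w w₀ : Finset (V (N / l))) : ℝ :=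
  2 * wc N l ρ b T s * (2 + 2 * (w.card : ℝ) / w₀.card)

/-- geometry of a window -/
structure Wg (N l : ℕ) [NeZero N] [NeZero (N / l)] (b T : ℝ) (w w₀ : Finset (V (N / l)))
    (c : V (N / l)) (ρ : ℕ) : Prop where
  b0 : 0 < b
  dl : l ∣ N
  T0 : 0 < T
  ne : w₀.Nonempty
  hw : w ⊆ bx c ρ
  hw₀ : w₀ ⊆ bx c ρ

variable {b T s r : ℝ} {w w₀ : Finset (V (N / l))} {c : V (N / l)} {ρ : ℕ}
variable {I J K : Type*} [Fintype I] [Fintype J] [Fintype K]
variable {A : Matrix (V (N / l)) I ℝ}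

/-- the source of the window -/
def WA (N l : ℕ) [NeZero N] [NeZero (N / l)] (w w₀ : Finset (V (N / l)))
    (A : Matrix (V (N / l)) I ℝ) : Matrix (V N) I ℝ := (CN N l)ᵀ * Lw w w₀ * A

lemma wc_ge1 (hb : 0 < b) (hl : l ∣ N) (hs : 0 < s) (ρ : ℕ) : 1 ≤ wc N l ρ b T s := by
  have h := H859.wk_ge (n := N / l) (ρ := ρ) (t := T) hs (kcell_pos (N := N) hl hb)
  rwa [wk_cell hl hb hs] at h

lemma kw_pos (hb : 0 < b) (hl : l ∣ N) (hs : 0 < s) : 0 < kw N l ρ b T s w w₀ := by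
  have := wc_ge1 (N := N) (T := T) hb hl hs ρ
  unfold kw
  positivity

namespace Wg

variable (h : Wg N l b T w w₀ c ρ)
include h

lemma wm : Wmap (Lw w w₀) c ρ := wmap_Lw h.ne h.hw h.hw₀

lemma dat : Dat (Gnc N l b T T) ((1 / b / (l : ℝ) ^ 2) • H864.lapM) T := dat_neu' h.b0 h.dl h.T0

/-- upper bound of the covariance -/
theorem up (hs : 0 < s) (hsT : s < T) (hA : A * Aᵀ = Sgn N l b T s) :
    ((T * kw N l ρ b T s w w₀) • ((CN N l)ᵀ * dB w * CN N l) -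
      WA N l w w₀ A * (WA N l w w₀ A)ᵀ).PosSemidef := by
  have h1 := H859.cov_up (C := (CN N l)ᵀ) h.dat (kcell_pos h.dl h.b0) hs hsT hA h.ne h.wm
  rw [wk_cell h.dl h.b0 hs, Matrix.transpose_transpose] at h1
  have e : 2 * T * wc N l ρ b T s * (2 + 2 * (w.card : ℝ) / w₀.card) =
      T * kw N l ρ b T s w w₀ := by
    unfold kw
    ring
  rw [e] at h1
  exact h1

/-- lower bound of the covariance -/
theorem low (hs : 0 < s) (hsT : s ≤ T / 2) (hA : A * Aᵀ = Sgn N l b T s)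
    {E : Finset (V (N / l))} (hE : E ⊆ w) (hd : Disjoint E w₀) :
    (WA N l w w₀ A * (WA N l w w₀ A)ᵀ - (T / 2) • ((CN N l)ᵀ * dB E * CN N l)).PosSemidef := by
  have T0 := h.T0
  have h1 := H859.cov_low (C := (CN N l)ᵀ) h.dat hs (by linarith) hA hE hd
  rw [Matrix.transpose_transpose] at h1
  have h2 := H859.psd_conj_dB (CN N l)ᵀ E
  rw [Matrix.transpose_transpose] at h2
  have h3 := h1.add (h2.smul (by linarith : 0 ≤ T - s - T / 2))
  have e : WA N l w w₀ A * (WA N l w w₀ A)ᵀ - (T / 2) • ((CN N l)ᵀ * dB E * CN N l) =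
      (CN N l)ᵀ * Lw w w₀ * A * ((CN N l)ᵀ * Lw w w₀ * A)ᵀ -
        (T - s) • ((CN N l)ᵀ * dB E * CN N l) +
        (T - s - T / 2) • ((CN N l)ᵀ * dB E * CN N l) := by
    rw [sub_smul (T - s) (T / 2)]
    unfold WA
    abel
  rw [e]
  exact h3

/-- trace tests -/
theorem test (hs : 0 < s) (hsT : s ≤ T / 2) (hA : A * Aᵀ = Sgn N l b T s)
    {E : Finset (V (N / l))} (hE : E ⊆ w) (hd : Disjoint E w₀) {S : Matrix (V (N / l)) (V (N / l)) ℝ}
    (hS : (dB E - S).PosSemidef) :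
    (WA N l w w₀ A * (WA N l w w₀ A)ᵀ - (T / 2) • ((CN N l)ᵀ * S * CN N l)).PosSemidef := by
  have h1 := h.low hs hsT hA hE hd
  have h2 := psd_conj_sub hS (CN N l)ᵀ
  rw [Matrix.transpose_transpose] at h2
  have h3 := h1.add (h2.smul (by have := h.T0; linarith : 0 ≤ T / 2))
  have e : WA N l w w₀ A * (WA N l w w₀ A)ᵀ - (T / 2) • ((CN N l)ᵀ * S * CN N l) =
      WA N l w w₀ A * (WA N l w w₀ A)ᵀ - (T / 2) • ((CN N l)ᵀ * dB E * CN N l) +
        (T / 2) • ((CN N l)ᵀ * dB E * CN N l - (CN N l)ᵀ * S * CN N l) := by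
    rw [smul_sub]
    abel
  rw [e]
  exact h3

/-- directions -/
theorem dir (hs : 0 < s) (hsT : s ≤ T / 2) (hA : A * Aᵀ = Sgn N l b T s)
    {E : Finset (V (N / l))} (hE : E ⊆ w) (hd : Disjoint E w₀) {f : V (N / l) → ℝ}
    (hf : ∀ x, x ∉ E → f x = 0) (hf0 : 0 < ∑ x, f x ^ 2) :
    (WA N l w w₀ A * (WA N l w w₀ A)ᵀ - (T / 2 / ∑ x, f x ^ 2) •
      vecMulVec ((CN N l)ᵀ *ᵥ f) ((CN N l)ᵀ *ᵥ f)).PosSemidef := by
  have h1 : (dB E - (∑ x, f x ^ 2)⁻¹ • vecMulVec f f).PosSemidef := by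
    have h2 := (rank_dB hf).smul (inv_nonneg.2 hf0.le)
    rwa [smul_sub, smul_smul, inv_mul_cancel₀ hf0.ne', one_smul] at h2
  have h3 := h.test hs hsT hA hE hd h1
  have e : (CN N l)ᵀ * ((∑ x, f x ^ 2)⁻¹ • vecMulVec f f) * CN N l =
      (∑ x, f x ^ 2)⁻¹ • vecMulVec ((CN N l)ᵀ *ᵥ f) ((CN N l)ᵀ *ᵥ f) := by
    rw [Matrix.mul_smul, Matrix.smul_mul, Matrix.mul_vecMulVec, Matrix.vecMulVec_mul,
      ← Matrix.mulVec_transpose]
  rw [e, smul_smul, ← div_eq_mul_inv] at h3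
  exact h3

/-- increment -/
theorem inc (hr : 0 < r) (hrs : r ≤ s) (hsT : s ≤ T / 2) (hA : A * Aᵀ = Sgn N l b T s)
    {B : Matrix (V (N / l)) K ℝ} (hB : B * Bᵀ = Sgn N l b T r - Sgn N l b T s) :
    ((8 * (s / T) * wc N l ρ b T r) • (WA N l w w₀ A * (WA N l w w₀ A)ᵀ) -
      WA N l w w₀ B * (WA N l w w₀ B)ᵀ).PosSemidef := by
  have h1 := H859.cov_inc (C := (CN N l)ᵀ) h.dat (kcell_pos h.dl h.b0) hr hrs hsT hA hB h.wm
  rw [wk_cell h.dl h.b0 hr] at h1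
  exact h1

/-- the covariances add up -/
theorem add (hA : A * Aᵀ = Sgn N l b T s) {B : Matrix (V (N / l)) K ℝ}
    (hB : B * Bᵀ = Sgn N l b T r - Sgn N l b T s) {A₂ : Matrix (V (N / l)) J ℝ}
    (hA₂ : A₂ * A₂ᵀ = Sgn N l b T r) :
    WA N l w w₀ A₂ * (WA N l w w₀ A₂)ᵀ =
      WA N l w w₀ A * (WA N l w w₀ A)ᵀ + WA N l w w₀ B * (WA N l w w₀ B)ᵀ :=
  H859.cov_add (CN N l)ᵀ (Lw w w₀) hA hB hA₂

/-- an increment exists -/
theorem exists_inc (hr : 0 < r) (hrs : r ≤ s) (hsT : s ≤ T / 2) :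
    ∃ B : Matrix (V (N / l)) (V (N / l)) ℝ, B * Bᵀ = Sgn N l b T r - Sgn N l b T s := by
  have T0 := h.T0
  obtain ⟨B, hB⟩ := H239.exists_increment (h.dat.mono hr hrs (by linarith))
  exact ⟨B, hB.symm⟩

/-- **the fourth cumulant of the window law** -/
theorem K4 (hs : 0 < s) (hsT : s < T) (hA : A * Aᵀ = Sgn N l b T s) :
    K4S (nwt N b T 0) (WA N l w w₀ A * (WA N l w w₀ A)ᵀ) (WA N l w w₀ A * (WA N l w w₀ A)ᵀ) ≤
      (T * kw N l ρ b T s w w₀) ^ 2 * (w.card / ((N / l : ℕ) : ℝ) ^ 2) *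
        K4S (nwt N b T 0) (SN N l) (SN N l) := by
  have hM := maj_nwt (N := N) h.b0.le h.T0 0
  have h1 := K4S_psd hM.em hM.ev hM.pk (psd_gram (WA N l w w₀ A)) (h.up hs hsT hA)
  rw [K4S_smul2] at h1
  have h2 := K4S_win_nwt (N := N) h.b0.le h.dl h.T0 0 w
  have hn : (0 : ℝ) < ((N / l : ℕ) : ℝ) ^ 2 := H864.N_pos (N := N / l)
  have h3 : K4S (nwt N b T 0) ((CN N l)ᵀ * dB w * CN N l) ((CN N l)ᵀ * dB w * CN N l) ≤
      w.card / ((N / l : ℕ) : ℝ) ^ 2 * K4S (nwt N b T 0) (SN N l) (SN N l) := by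
    rw [div_mul_eq_mul_div, le_div_iff₀ hn]
    linarith
  calc _ ≤ _ := h1
    _ ≤ (T * kw N l ρ b T s w w₀) ^ 2 *
        (w.card / ((N / l : ℕ) : ℝ) ^ 2 * K4S (nwt N b T 0) (SN N l) (SN N l)) :=
        mul_le_mul_of_nonneg_left h3 (sq_nonneg _)
    _ = _ := by ring

omit h in
lemma CN_CN (hl : l ∣ N) : CN N l * (CN N l)ᵀ = Pn := by
  unfold CN
  rw [Matrix.transpose_mul, H963.Pn_transpose, Matrix.mul_assoc,
    ← Matrix.mul_assoc (H864.cobV N l), H864.cobV_mul_tr hl, Matrix.one_mul, H963.Pn_mul_Pn]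

omit h in
lemma CN_sq (hl : l ∣ N) (i : V (N / l)) : ∑ x, CN N l i x ^ 2 ≤ 1 := by
  have h1 : ∑ x, CN N l i x ^ 2 = (CN N l * (CN N l)ᵀ) i i := by
    rw [Matrix.mul_apply]
    exact Finset.sum_congr rfl fun x _ => by rw [Matrix.transpose_apply, pow_two]
  rw [h1, CN_CN hl]
  unfold H963.Pn
  rw [H963.ntr_apply, Matrix.one_apply_eq]
  have : 0 ≤ (1 : ℝ) / Fintype.card (V (N / l)) := by positivity
  linarith

/-- the majorant on the window law -/
theorem pr_le (hs : 0 < s) (hsT : s < T) (hA : A * Aᵀ = Sgn N l b T s) :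
    pr (Bnwt N T 0) (WA N l w w₀ A * (WA N l w w₀ A)ᵀ) ≤ kw N l ρ b T s w w₀ * w.card := by
  have hM := maj_nwt (N := N) h.b0.le h.T0 0
  have T0 := h.T0
  have hk := kw_pos (T := T) (w := w) (w₀ := w₀) (ρ := ρ) h.b0 h.dl hs
  refine (pr_psd hM.qf_nonneg (h.up hs hsT hA)).trans ?_
  rw [pr_smul]
  have h1 : (CN N l)ᵀ * dB w * CN N l = ((CN N l)ᵀ * dB w) * ((CN N l)ᵀ * dB w)ᵀ := by
    have h2 := win_gram (CN N l)ᵀ w
    rw [Matrix.transpose_transpose] at h2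
    rw [h2, Matrix.transpose_mul, Matrix.transpose_mul, Matrix.transpose_transpose, dB_tr]
  have h3 : ∀ x i, ((CN N l)ᵀ * dB w) x i = if i ∈ w then CN N l i x else 0 := by
    intro x i
    unfold H859.dB
    rw [Matrix.mul_diagonal, Matrix.transpose_apply]
    split_ifs
    · rw [mul_one]
    · rw [mul_zero]
  have h4 : pr (Bnwt N T 0) ((CN N l)ᵀ * dB w * CN N l) ≤ T⁻¹ * w.card := by
    rw [h1, pr_Bnwt T0 0 fun i => by
      simp only [h3]
      split_ifs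
      · exact CN_neu h.dl i
      · exact Finset.sum_const_zero]
    refine mul_le_mul_of_nonneg_left ?_ (inv_nonneg.2 T0.le)
    rw [Finset.sum_comm]
    calc ∑ i, ∑ x, ((CN N l)ᵀ * dB w) x i ^ 2 ≤ ∑ i, if i ∈ w then (1 : ℝ) else 0 := by
          refine Finset.sum_le_sum fun i _ => ?_
          simp only [h3]
          split_ifs
          · exact CN_sq h.dl i
          · simp
      _ = w.card := by
          rw [Finset.sum_ite_mem, Finset.univ_inter, Finset.sum_const, nsmul_eq_mul, mul_one]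
  calc T * kw N l ρ b T s w w₀ * pr (Bnwt N T 0) ((CN N l)ᵀ * dB w * CN N l)
      ≤ T * kw N l ρ b T s w w₀ * (T⁻¹ * w.card) :=
        mul_le_mul_of_nonneg_left h4 (mul_nonneg T0.le hk.le)
    _ = T * T⁻¹ * (kw N l ρ b T s w w₀ * w.card) := by ring
    _ = _ := by rw [mul_inv_cancel₀ T0.ne', one_mul]

/-- **the a-priori probability of the window law from AP on blocks** -/
theorem AP (hs : 0 < s) (hsT : s < T) (hA : A * Aᵀ = Sgn N l b T s) {ι : Type*} (S : Finset ι)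
    (Bl : ι → Finset (V (N / l))) (hd : ∀ i ∈ S, ∀ j ∈ S, i ≠ j → Disjoint (Bl i) (Bl j))
    (hw : w ⊆ S.biUnion Bl) {X a Y : ℝ} (ha : 1 ≤ a) (hY : 0 ≤ Y)
    (hX : a * (S.card * (Y * √(kw N l ρ b T s w w₀))) ≤ X)
    (hB : ∀ i ∈ S, (gau (V (N / l))).real
      {g | 1 < Rs (nwt N b T 0) (X • ((√T • ((CN N l)ᵀ * dB (Bl i))) *ᵥ g))} ≤ 1 / 30) :
    (gau I).real {g | 1 < Rs (nwt N b T 0) (Y • (WA N l w w₀ A *ᵥ g))} ≤
      2 * (S.card * Real.exp (-(a ^ 2 / 7))) := by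
  classical
  have hM := maj_nwt (N := N) h.b0.le h.T0 0
  have T0 := h.T0
  have hk := kw_pos (T := T) (w := w) (w₀ := w₀) (ρ := ρ) h.b0 h.dl hs
  refine hM.AP_p S (fun i => √T • ((CN N l)ᵀ * dB (Bl i))) (X := X) (a := a) (Y := Y)
    (κ := √(kw N l ρ b T s w w₀)) ha hY (Real.sqrt_nonneg _) hX ?_ hB
  have e1 : ∑ i ∈ S, √T • ((CN N l)ᵀ * dB (Bl i)) = √T • ((CN N l)ᵀ * dB (S.biUnion Bl)) := by
    rw [← Finset.smul_sum, ← H859.dB_sum S Bl hd, Matrix.mul_sum]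
  have e2 : (√T • ((CN N l)ᵀ * dB (S.biUnion Bl))) * (√T • ((CN N l)ᵀ * dB (S.biUnion Bl)))ᵀ =
      T • ((CN N l)ᵀ * dB (S.biUnion Bl) * CN N l) := by
    have h2 := win_gram (CN N l)ᵀ (S.biUnion Bl)
    rw [Matrix.transpose_transpose] at h2
    rw [Matrix.transpose_smul, Matrix.smul_mul, Matrix.mul_smul, smul_smul,
      Real.mul_self_sqrt T0.le, h2, Matrix.transpose_mul, Matrix.transpose_mul,
      Matrix.transpose_transpose, dB_tr]
  rw [e1, e2, Real.sq_sqrt hk.le, smul_smul]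
  have h3 : (dB (S.biUnion Bl) - dB w).PosSemidef := by
    refine psd_of ?_ fun u => ?_
    · rw [Matrix.transpose_sub, dB_tr, dB_tr]
    · rw [H859.qf_sub_m, H859.qf_dB, H859.qf_dB]
      have := Finset.sum_le_sum_of_subset_of_nonneg hw (f := fun x => u x ^ 2)
        fun _ _ _ => sq_nonneg _
      linarith
  have h4 := psd_conj_sub h3 (CN N l)ᵀ
  rw [Matrix.transpose_transpose] at h4
  have h5 := (h.up hs hsT hA).add (h4.smul (mul_nonneg T0.le hk.le))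
  have e : (kw N l ρ b T s w w₀ * T) • ((CN N l)ᵀ * dB (S.biUnion Bl) * CN N l) -
      WA N l w w₀ A * (WA N l w w₀ A)ᵀ =
      (T * kw N l ρ b T s w w₀) • ((CN N l)ᵀ * dB w * CN N l) -
        WA N l w w₀ A * (WA N l w w₀ A)ᵀ + (T * kw N l ρ b T s w w₀) •
          ((CN N l)ᵀ * dB (S.biUnion Bl) * CN N l - (CN N l)ᵀ * dB w * CN N l) := by
    rw [smul_sub, mul_comm (kw N l ρ b T s w w₀) T]
    abel
  rw [e]
  exact h5

end Wg

/-! ### one prior -/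

/-- the data of one window law: window geometry, prior `s`, closure parameters -/
structure WinH (N l : ℕ) [NeZero N] [NeZero (N / l)] (b T s : ℝ) (w w₀ : Finset (V (N / l)))
    (c : V (N / l)) (ρ n : ℕ) (A : Matrix (V (N / l)) I ℝ) (D lam p β q : ℝ) : Prop
    extends Wg N l b T w w₀ c ρ where
  s0 : 0 < s
  sT : s ≤ T / 2
  cov : A * Aᵀ = Sgn N l b T s
  D0 : 0 < D
  lam0 : 0 ≤ lam
  q0 : 0 < q
  be1 : β ≤ 1
  /-- the fourth cumulant of the window -/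
  K : (T * kw N l ρ b T s w w₀) ^ 2 * (w.card / ((N / l : ℕ) : ℝ) ^ 2) *
    K4S (nwt N b T 0) (SN N l) (SN N l) ≤ D
  ra : 8 * (128 * (lam * D)) ^ (1 - (1 / 2 : ℝ) ^ n) ≤ 1
  /-- a-priori bound -/
  ap : (gau I).real {g | 1 < Rs (nwt N b T 0) ((2 : ℝ) ^ (n + 2) • (WA N l w w₀ A *ᵥ g))} ≤ p
  be : 8 * p + 24 * Real.exp (-(√lam / 10)) ≤ β
  q1 : kw N l ρ b T s w w₀ * w.card ≤ q

namespace WinH

variable {n : ℕ} {D lam p β q : ℝ} (h : WinH N l b T s w w₀ c ρ n A D lam p β q)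
include h

lemma sT' : s < T := by have := h.sT; have := h.T0; linarith

lemma maj : Maj (nwt N b T 0) (Bnwt N T 0) := maj_nwt h.b0.le h.T0 0

lemma K' : K4S (nwt N b T 0) (WA N l w w₀ A * (WA N l w w₀ A)ᵀ)
    (WA N l w w₀ A * (WA N l w w₀ A)ᵀ) ≤ D :=
  (h.toWg.K4 h.s0 h.sT' h.cov).trans h.K

lemma q' : pr (Bnwt N T 0) (WA N l w w₀ A * (WA N l w w₀ A)ᵀ) ≤ q :=
  (h.toWg.pr_le h.s0 h.sT' h.cov).trans h.q1

lemma p0 : 0 ≤ p := measureReal_nonneg.trans h.ap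

lemma be' : 2 * p + 6 * Real.exp (-(√lam / 10)) ≤ β := by
  have h1 := h.p0
  have h2 := Real.exp_pos (-(√lam / 10))
  have h3 := h.be
  linarith

lemma ap1 : (gau I).real {g | 1 < Rs (nwt N b T 0) ((2 : ℝ) ^ (n + 1) • (WA N l w w₀ A *ᵥ g))} ≤
    p := by
  refine le_trans (measureReal_mono fun g hg => ?_) h.ap
  simp only [Set.mem_ofPred_eq] at hg ⊢
  exact hg.trans_le (H789.Rs_ray_mono h.maj.em h.maj.ev h.maj.pk _ (by positivity)
    (pow_le_pow_right₀ one_le_two (by omega)))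

lemma ra1 : 8 * (8 * (lam * D)) ^ (1 - (1 / 2 : ℝ) ^ n) ≤ 1 := by
  have h1 : 0 ≤ lam * D := mul_nonneg h.lam0 h.D0.le
  have h2 : cl n (8 * (lam * D)) ≤ cl n (128 * (lam * D)) := cl_mono n (by linarith)
  rw [cl_eq n (by positivity), cl_eq n (by positivity)] at h2
  exact h2.trans h.ra

variable {E : Finset (V (N / l))}

/-- **size, trace form** -/
theorem trace_size (hE : E ⊆ w) (hd : Disjoint E w₀) {S : Matrix (V (N / l)) (V (N / l)) ℝ}
    (hS0 : S.PosSemidef) (hS : (dB E - S).PosSemidef) :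
    0 ≤ ∫ g, Tst N l b T S (WA N l w w₀ A *ᵥ g) ∂(gau I) ∧
    ∫ g, Tst N l b T S (WA N l w w₀ A *ᵥ g) ∂(gau I) ≤
      2 / T * (cl n (128 * (lam * D)) + 24 * (q * √β)) := by
  have T0 := h.T0
  have hS1 := psd_conj hS0 (CN N l)ᵀ
  rw [Matrix.transpose_transpose] at hS1
  have h1 := h.maj.trace_size (hS1.smul (by positivity : 0 ≤ T / 2))
    (h.toWg.test h.s0 h.sT h.cov hE hd hS) h.D0 h.lam0 h.q0 h.K' h.ap h.be' h.q'
  simp only [pr_smul] at h1
  rw [integral_const_mul] at h1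
  unfold Tst
  obtain ⟨h2, h3⟩ := h1
  have hT2 : 0 < T / 2 := by positivity
  refine ⟨nonneg_of_mul_nonneg_right h2 hT2, ?_⟩
  rw [div_mul_eq_mul_div, le_div_iff₀ T0]
  linarith

/-- **size, direction form** -/
theorem bump_size (hE : E ⊆ w) (hd : Disjoint E w₀) {f : V (N / l) → ℝ}
    (hf : ∀ x, x ∉ E → f x = 0) :
    0 ≤ ∫ g, qf (NR (nwt N b T 0) (WA N l w w₀ A *ᵥ g)) ((CN N l)ᵀ *ᵥ f) ∂(gau I) ∧
    ∫ g, qf (NR (nwt N b T 0) (WA N l w w₀ A *ᵥ g)) ((CN N l)ᵀ *ᵥ f) ∂(gau I) ≤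
      2 / T * (∑ x, f x ^ 2) * (cl n (128 * (lam * D)) + 24 * (q * √β)) := by
  have T0 := h.T0
  have hn : 0 ≤ ∑ x, f x ^ 2 := Finset.sum_nonneg fun _ _ => sq_nonneg _
  rcases hn.eq_or_lt with h0 | h0
  · have hf0 : f = 0 := by
      funext x
      have h1 := (Finset.sum_eq_zero_iff_of_nonneg fun x _ => sq_nonneg (f x)).1 h0.symm x
        (Finset.mem_univ x)
      exact pow_eq_zero_iff two_ne_zero |>.1 h1
    have h2 : ∀ M : Matrix (V N) (V N) ℝ, qf M ((CN N l)ᵀ *ᵥ f) = 0 := by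
      intro M
      rw [hf0, Matrix.mulVec_zero]
      unfold qf
      simp
    simp only [h2]
    rw [← h0]
    simp
  · have h1 := h.maj.bump_size (by positivity : 0 < T / 2 / ∑ x, f x ^ 2)
      (h.toWg.dir h.s0 h.sT h.cov hE hd hf h0) h.D0 h.lam0 h.q0 h.K' h.ap h.be' h.q'
    refine ⟨h1.1, h1.2.trans (le_of_eq ?_)⟩
    field_simp

/-- **bad sets** -/
theorem bad : (gau I).real {g | ¬(Rs (nwt N b T 0) (WA N l w w₀ A *ᵥ g) ≤ cl n (8 * (lam * D)) ∧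
    Tq (nwt N b T 0) (WA N l w w₀ A *ᵥ g) ≤ cl n (8 * (lam * D)))} ≤
      p + 6 * Real.exp (-(√lam / 10)) :=
  h.maj.RT_prob _ h.D0 h.K' n h.lam0 h.ap1

/-! ### two priors -/

variable {A₂ : Matrix (V (N / l)) J ℝ}

/-- **CG1, near trace**: loss `ε^(1/2-)` -/
theorem near_trace (hr : 0 < r) (hrs : r ≤ s) (hA₂ : A₂ * A₂ᵀ = Sgn N l b T r)
    (hε : 8 * (s / T) * wc N l ρ b T r ≤ 1) (hE : E ⊆ w) (hd : Disjoint E w₀)
    {S : Matrix (V (N / l)) (V (N / l)) ℝ} (hS0 : S.PosSemidef) (hS : (dB E - S).PosSemidef) :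
    |∫ g, Tst N l b T S (WA N l w w₀ A₂ *ᵥ g) ∂(gau J) -
      ∫ g, Tst N l b T S (WA N l w w₀ A *ᵥ g) ∂(gau I)| ≤
      2 / T * ((336 * (32 * (lam * D * (8 * (s / T) * wc N l ρ b T r))) ^ (1 - (1 / 2 : ℝ) ^ n) +
        264 * (q * √β)) / √(8 * (s / T) * wc N l ρ b T r)) := by
  have T0 := h.T0
  have s0 := h.s0
  have hT2 : 0 < T / 2 := by positivity
  obtain ⟨B, hB⟩ := h.toWg.exists_inc hr hrs h.sT
  have hS1 := psd_conj hS0 (CN N l)ᵀ
  rw [Matrix.transpose_transpose] at hS1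
  have hwc := wc_ge1 (N := N) (T := T) h.b0 h.dl hr ρ
  have h1 := h.maj.trace_eps (hS1.smul hT2.le) (h.toWg.test h.s0 h.sT h.cov hE hd hS)
    (h.toWg.add h.cov hB hA₂) (by positivity) hε (h.toWg.inc hr hrs h.sT h.cov hB)
    h.D0 h.lam0 h.q0 h.be1 h.K' h.ra h.ap h.be h.q'
  simp only [pr_smul] at h1
  rw [integral_const_mul, integral_const_mul, ← mul_sub, abs_mul, abs_of_pos hT2] at h1
  unfold Tst
  have h2 : (2 / T) * (T / 2) = 1 := by field_simp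
  calc _ = 2 / T * (T / 2 * |_|) := by rw [← mul_assoc, h2, one_mul]
    _ ≤ _ := mul_le_mul_of_nonneg_left h1 (by positivity)

/-- **CG2, near direction**: loss `ε^(1-)` -/
theorem near_bump (hr : 0 < r) (hrs : r ≤ s) (hA₂ : A₂ * A₂ᵀ = Sgn N l b T r)
    (hε : 8 * (s / T) * wc N l ρ b T r ≤ 1) (hE : E ⊆ w) (hd : Disjoint E w₀)
    {f : V (N / l) → ℝ} (hf : ∀ x, x ∉ E → f x = 0) :
    |∫ g, qf (NR (nwt N b T 0) (WA N l w w₀ A₂ *ᵥ g)) ((CN N l)ᵀ *ᵥ f) ∂(gau J) -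
      ∫ g, qf (NR (nwt N b T 0) (WA N l w w₀ A *ᵥ g)) ((CN N l)ᵀ *ᵥ f) ∂(gau I)| ≤
      2 / T * (∑ x, f x ^ 2) *
        (160 * (8 * (lam * D * (8 * (s / T) * wc N l ρ b T r))) ^ (1 - (1 / 2 : ℝ) ^ n) +
          642 * (q * √β)) := by
  have T0 := h.T0
  have s0 := h.s0
  obtain ⟨B, hB⟩ := h.toWg.exists_inc hr hrs h.sT
  have hwc := wc_ge1 (N := N) (T := T) h.b0 h.dl hr ρ
  have hn : 0 ≤ ∑ x, f x ^ 2 := Finset.sum_nonneg fun _ _ => sq_nonneg _
  rcases hn.eq_or_lt with h0 | h0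
  · have hf0 : f = 0 := by
      funext x
      have h1 := (Finset.sum_eq_zero_iff_of_nonneg fun x _ => sq_nonneg (f x)).1 h0.symm x
        (Finset.mem_univ x)
      exact pow_eq_zero_iff two_ne_zero |>.1 h1
    have h2 : ∀ M : Matrix (V N) (V N) ℝ, qf M ((CN N l)ᵀ *ᵥ f) = 0 := by
      intro M
      rw [hf0, Matrix.mulVec_zero]
      unfold qf
      simp
    simp only [h2]
    rw [← h0]
    simp
  · have h1 := h.maj.bump_u (by positivity : 0 < T / 2 / ∑ x, f x ^ 2)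
      (h.toWg.dir h.s0 h.sT h.cov hE hd hf h0) (h.toWg.add h.cov hB hA₂) (by positivity) hε
      (h.toWg.inc hr hrs h.sT h.cov hB) h.D0 h.lam0 h.q0 h.be1 h.K' h.ra1 h.ap1 h.be' h.q'
    refine h1.trans (le_of_eq ?_)
    field_simp

end WinH

end win

end

end Vale.Agent.P159.H447
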