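import Vale.Agent.P159.H447.Sit9

/-!
P159 (helper447), **TYPS, part 10: the door** (captain's note 7, helper529's 7216 (b)).

* `Rv` : `Rs` of the part of the source off the cells with offset `v`; `dav S F` = average over `v`;
* `door_R` : `E dav S ≤ C (t N²)⁴ (1 + S)⁶ (l √t) ^ c`, `Rs (S (1 - T) src F) ≤ dav S F`, hence
  `E Rs (S (1 - T) src F) ≤ ..`, `T = tent N l`;
* `tent_R` : `Rs (S T src F) ≤ (Rs (2 S src F) + dav (2 S) F) / 2`;
* `small_nuM` : small neutral images.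
-/

set_option linter.unusedSectionVars false

namespace Vale.Agent.P159.H447

open Finset Matrix MeasureTheory Filter Topology
open Vale.Agent.P159.TM.H104 (EM Ex Cv Lg li nh Gr)
open Vale.Agent.P159.H37
open Vale.Agent.P159.TM.Spec (V)
open Vale.Agent.P159.TM.SpecC (wT)
open Vale.Agent.P159.H963 (Pn nM pin ntr nwt nMC obsN MF Neu Pn_transpose Pn_mul_Pn neu_Pn gw_wT)
open Vale.Agent.P159.H883 (nuM Enu CI XG BW bw_wT Zp Wt)
open Vale.Agent.P159.H276 (bxT)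
open Vale.Agent.P159.H864 (tra)

noncomputable section

variable {N l : ℕ} [NeZero N] {b t s : ℝ}

/-- **small neutral images** -/
theorem small_nuM (hb : 0 < b) : ∃ C : ℝ, 0 < C ∧
    ∀ (N : ℕ) [NeZero N] (p : ℕ), 2 ^ p ∣ N →
    ∀ t : ℝ, 0 < t → t * ((2 : ℝ) ^ p) ^ 2 ≤ 1 → 1 < t * 4 ^ (p + 1) → 1 ≤ t * (N : ℝ) ^ 2 →
    ∀ (D : Matrix (V N) (V N) ℝ) (δ : ℝ), 0 < δ → δ ≤ 1 →
      (∀ v : V N → ℝ, ∑ x, (Dᵀ *ᵥ v) x ^ 2 ≤ δ ^ 2 * ∑ x, v x ^ 2) → (∀ J, Neu (D *ᵥ J)) →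
    Integrable (fun F => Rs (nwt N b t 0) ((2 : ℝ) • (D *ᵥ src N t F))) (nuS N b t) ∧
    ∫ F, Rs (nwt N b t 0) ((2 : ℝ) • (D *ᵥ src N t F)) ∂(nuS N b t) ≤
      C * δ * (t * (N : ℝ) ^ 2) ^ 4 := by
  obtain ⟨C, hC, h⟩ := any_nuM hb
  refine ⟨C, hC, ?_⟩
  intro N _ p hp t ht htp htp1 htN D δ hδ hδ1 hD hDn
  set D' : Matrix (V N) (V N) ℝ := (1 / δ) • D with hD'
  have hDk : ∀ v : V N → ℝ, ∑ x, (D'ᵀ *ᵥ v) x ^ 2 ≤ 1 * ∑ x, v x ^ 2 := by
    intro v
    have e : ∑ x, (D'ᵀ *ᵥ v) x ^ 2 = (1 / δ) ^ 2 * ∑ x, (Dᵀ *ᵥ v) x ^ 2 := by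
      rw [Finset.mul_sum]
      refine Finset.sum_congr rfl fun x _ => ?_
      rw [hD', transpose_smul, smul_mulVec, Pi.smul_apply, smul_eq_mul]
      ring
    rw [e]
    refine (mul_le_mul_of_nonneg_left (hD v) (by positivity)).trans (le_of_eq ?_)
    field_simp
  obtain ⟨r1, r2⟩ := h N p hp t ht htp htp1 htN D' 1 le_rfl hDk
    (fun J => by rw [hD', smul_mulVec]; exact (hDn J).smul _)
  have hpt : ∀ F : V N → ℝ, Rs (nwt N b t 0) ((2 : ℝ) • (D *ᵥ src N t F)) ≤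
      δ * Rs (nwt N b t 0) ((2 : ℝ) • (D' *ᵥ src N t F)) := by
    intro F
    have e : (2 : ℝ) • (D *ᵥ src N t F) = δ • ((2 : ℝ) • (D' *ᵥ src N t F)) := by
      rw [hD', smul_mulVec, smul_smul, smul_smul]
      congr 1
      field_simp
    rw [e]
    exact rsn_scale hb.le ht 0 _ hδ.le hδ1
  have hm : Measurable fun F : V N → ℝ => Rs (nwt N b t 0) ((2 : ℝ) • (D *ᵥ src N t F)) :=
    ((cont_rsn hb.le ht 0).comp ((cont_mulVec _).const_smul (2 : ℝ))).measurable.comp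
      (measurable_src t)
  have hI : Integrable (fun F => Rs (nwt N b t 0) ((2 : ℝ) • (D *ᵥ src N t F))) (nuS N b t) := by
    refine (r1.const_mul δ).mono' hm.aestronglyMeasurable (Filter.Eventually.of_forall fun F => ?_)
    rw [Real.norm_eq_abs, abs_of_nonneg (rsn_nonneg hb.le ht 0 _)]
    exact hpt F
  refine ⟨hI, ?_⟩
  have h1 := integral_mono hI (r1.const_mul δ) hpt
  rw [integral_const_mul] at h1
  refine h1.trans ((mul_le_mul_of_nonneg_left r2 hδ.le).trans (le_of_eq ?_))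
  ring

/-! ### translations -/

/-- the shift matrix -/
def Shm (N : ℕ) [NeZero N] (v : V N) : Matrix (V N) (V N) ℝ :=
  Matrix.of fun x y => if y = x + v then 1 else 0

lemma Shm_mulVec (v : V N) (F : V N → ℝ) : Shm N v *ᵥ F = fun x => F (x + v) := by
  funext x
  show ∑ y, (if y = x + v then (1 : ℝ) else 0) * F y = _
  simp

lemma Shm_tr (v : V N) (F : V N → ℝ) : (Shm N v)ᵀ *ᵥ F = fun x => F (x - v) := by
  funext x
  show ∑ y, (if x = y + v then (1 : ℝ) else 0) * F y = _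
  have e : ∀ y : V N, (if x = y + v then (1 : ℝ) else 0) * F y =
      if y = x - v then F y else 0 := by
    intro y
    by_cases h : x = y + v
    · rw [if_pos h, if_pos (eq_sub_of_add_eq h.symm), one_mul]
    · rw [if_neg h, if_neg fun h2 => h (by rw [h2, sub_add_cancel]), zero_mul]
  simp only [e]
  simp

lemma Shm_tr_sq (v : V N) (F : V N → ℝ) : ∑ x, ((Shm N v)ᵀ *ᵥ F) x ^ 2 = ∑ x, F x ^ 2 := by
  rw [Shm_tr]
  exact Equiv.sum_comp (Equiv.subRight v) fun x => F x ^ 2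

/-- translation invariance of `Rs` at neutral sources -/
lemma rsn_shift (hb : 0 ≤ b) (ht : 0 < t) (x₀ v : V N) {J : V N → ℝ} (hJ : Neu J) :
    Rs (nwt N b t x₀) (fun x => J (x + v)) = Rs (nwt N b t x₀) J := by
  have hw := gw_wT (N := N) hb
  have hi : H864.Inv (wM (wT b N) (ntr (t • (1 : Matrix (V N) (V N) ℝ)) t)) (tra v) := by
    refine H864.inv_wM (H864.tinv_wT b v) fun x y => ?_
    rw [H963.ntr_apply, H963.ntr_apply, H864.tra_apply, H864.tra_apply, Matrix.smul_apply,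
      Matrix.smul_apply, Matrix.one_apply, Matrix.one_apply]
    simp only [add_left_inj]
  exact H963.Rs_pin_perm (hw.grI_wM (mf_scal ht)) hi (em_nwt' hb ht x₀) hJ

/-- the part off the cells with offset `v` -/
def Qv (N q : ℕ) [NeZero N] (v : V N) (J : V N → ℝ) : V N → ℝ := fun x => J x - Pv N q v J x

lemma Qv_eq (v : V N) (J : V N → ℝ) : Qv N l v J =
    fun x => ((1 - cellP N l) *ᵥ (Shm N v *ᵥ J)) (x - v) := by
  funext x
  unfold Qv Pv
  rw [Shm_mulVec, sub_mulVec, one_mulVec]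
  simp only [Pi.sub_apply, sub_add_cancel]

/-- `Rs` off the cells with offset `v` -/
lemma rsn_Qv (hb : 0 ≤ b) (ht : 0 < t) (hl : l ∣ N) (v : V N) (c : ℝ) (J : V N → ℝ) :
    Rs (nwt N b t 0) ((2 * c) • Qv N l v J) =
      Rs (nwt N b t 0) ((2 : ℝ) • ((1 - cellP N l) *ᵥ ((c • Shm N v) *ᵥ J))) := by
  set z := (2 : ℝ) • ((1 - cellP N l) *ᵥ ((c • Shm N v) *ᵥ J)) with hz
  have hzn : Neu z := by
    refine H963.Neu.smul 2 (H692.sum_of_cellP hl ?_)
    rw [mulVec_mulVec, Matrix.mul_sub, Matrix.mul_one, H864.cellP_idem hl, sub_self,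
      Matrix.zero_mulVec]
  have e : (2 * c) • Qv N l v J = fun x => z (x + -v) := by
    funext x
    rw [Qv_eq, hz]
    simp only [Pi.smul_apply, smul_eq_mul, smul_mulVec, mulVec_smul]
    rw [← sub_eq_add_neg]
    ring
  rw [e]
  exact rsn_shift hb ht 0 (-v) hzn

/-- average over the offsets -/
def dav (N q : ℕ) [NeZero N] (b t S : ℝ) (F : V N → ℝ) : ℝ :=
  ((q : ℝ) ^ 2)⁻¹ * ∑ i ∈ range q, ∑ j ∈ range q,
    Rs (nwt N b t 0) (S • Qv N q ((i : ZMod N), (j : ZMod N)) (src N t F))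

lemma sum_wt (hl : 0 < l) : ∑ _i ∈ range l, ∑ _j ∈ range l, ((l : ℝ) ^ 2)⁻¹ = 1 := by
  have h : (0 : ℝ) < l := by exact_mod_cast hl
  simp only [Finset.sum_const, Finset.card_range, nsmul_eq_mul]
  field_simp

lemma dav_nonneg (hb : 0 ≤ b) (ht : 0 < t) (S : ℝ) (F : V N → ℝ) : 0 ≤ dav N l b t S F :=
  mul_nonneg (by positivity) (Finset.sum_nonneg fun _ _ => Finset.sum_nonneg fun _ _ =>
    rsn_nonneg hb ht 0 _)

/-- Jensen for the average over the offsets -/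
lemma rsn_jensen (hb : 0 ≤ b) (ht : 0 < t) (hl : 0 < l) (Z : ℕ → ℕ → V N → ℝ) :
    Rs (nwt N b t 0) (fun x => ((l : ℝ) ^ 2)⁻¹ * ∑ i ∈ range l, ∑ j ∈ range l, Z i j x) ≤
      ((l : ℝ) ^ 2)⁻¹ * ∑ i ∈ range l, ∑ j ∈ range l, Rs (nwt N b t 0) (Z i j) := by
  have hc := H789.Rs_convex (em_nwt' (N := N) hb ht 0) ((gw_wT hb).ev_nM _ _ 0)
    ((gw_wT hb).pk_nM (mf_scal ht) 0)
  have h := hc.map_sum_le (t := range l ×ˢ range l) (w := fun _ => ((l : ℝ) ^ 2)⁻¹)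
    (p := fun ij => Z ij.1 ij.2) (fun _ _ => by positivity)
    (by rw [Finset.sum_product]; exact sum_wt hl) (fun _ _ => Set.mem_univ _)
  simp only [smul_eq_mul] at h
  rw [Finset.sum_product (f := fun ij => ((l : ℝ) ^ 2)⁻¹ • Z ij.1 ij.2),
    Finset.sum_product (f := fun ij => ((l : ℝ) ^ 2)⁻¹ *
      Rs (nwt N b t 0) (Z ij.1 ij.2))] at h
  have e : (∑ i ∈ range l, ∑ j ∈ range l, ((l : ℝ) ^ 2)⁻¹ • Z i j) =
      fun x => ((l : ℝ) ^ 2)⁻¹ * ∑ i ∈ range l, ∑ j ∈ range l, Z i j x := by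
    funext x
    rw [Finset.sum_apply, Finset.mul_sum]
    refine Finset.sum_congr rfl fun i _ => ?_
    rw [Finset.sum_apply, Finset.mul_sum]
    refine Finset.sum_congr rfl fun j _ => ?_
    rw [Pi.smul_apply, smul_eq_mul]
  simp only at h
  rw [e] at h
  refine h.trans (le_of_eq ?_)
  rw [Finset.mul_sum]
  refine Finset.sum_congr rfl fun i _ => ?_
  rw [Finset.mul_sum]

/-- **`R` off the tent kernel** -/
theorem rsn_tent (hb : 0 ≤ b) (ht : 0 < t) (hl : l ∣ N) (S : ℝ) (F : V N → ℝ) :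
    Rs (nwt N b t 0) (S • (src N t F - tent N l (src N t F))) ≤ dav N l b t S F := by
  have hl0 : 0 < l := Nat.pos_of_dvd_of_pos hl (NeZero.pos N)
  set J := src N t F with hJ
  have e : S • (J - tent N l J) = fun x => ((l : ℝ) ^ 2)⁻¹ *
      ∑ i ∈ range l, ∑ j ∈ range l, (S • Qv N l ((i : ZMod N), (j : ZMod N)) J) x := by
    funext x
    rw [Pi.smul_apply, Pi.sub_apply, smul_eq_mul, tent_avg hl]
    have h1 : ∑ i ∈ range l, ∑ j ∈ range l, (S • Qv N l ((i : ZMod N), (j : ZMod N)) J) x =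
        S * (∑ _i ∈ range l, ∑ _j ∈ range l, J x -
          ∑ i ∈ range l, ∑ j ∈ range l, Pv N l ((i : ZMod N), (j : ZMod N)) J x) := by
      rw [← Finset.sum_sub_distrib, Finset.mul_sum]
      refine Finset.sum_congr rfl fun i _ => ?_
      rw [← Finset.sum_sub_distrib, Finset.mul_sum]
      rfl
    rw [h1]
    have h2 : ((l : ℝ) ^ 2)⁻¹ * ∑ _i ∈ range l, ∑ _j ∈ range l, J x = J x := by
      have := sum_wt hl0
      simp only [Finset.sum_const, Finset.card_range, nsmul_eq_mul] at this ⊢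
      linear_combination (J x) * this
    calc S * (J x - _) = S * (((l : ℝ) ^ 2)⁻¹ * ∑ _i ∈ range l, ∑ _j ∈ range l, J x -
          ((l : ℝ) ^ 2)⁻¹ * ∑ i ∈ range l, ∑ j ∈ range l,
            Pv N l ((i : ZMod N), (j : ZMod N)) J x) := by rw [h2]
      _ = _ := by ring
  rw [e]
  exact rsn_jensen hb ht hl0 fun i j => S • Qv N l ((i : ZMod N), (j : ZMod N)) J

/-- **`R` of the tent part** -/
theorem tent_R (hb : 0 ≤ b) (ht : 0 < t) (hl : l ∣ N) (S : ℝ) (F : V N → ℝ) :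
    Rs (nwt N b t 0) (S • tent N l (src N t F)) ≤
      (Rs (nwt N b t 0) ((2 * S) • src N t F) + dav N l b t (-(2 * S)) F) / 2 := by
  have h1 := rsn_mid hb ht (0 : V N) (S • src N t F)
    ((-S) • (src N t F - tent N l (src N t F)))
  have e : S • src N t F + (-S) • (src N t F - tent N l (src N t F)) =
      S • tent N l (src N t F) := by
    rw [smul_sub, neg_smul, neg_smul]
    abel
  rw [e, smul_smul, smul_smul] at h1
  have h2 := rsn_tent hb ht hl (-(2 * S)) F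
  have e2 : (2 : ℝ) * -S = -(2 * S) := by ring
  rw [e2] at h1
  linarith

/-- **THE DOOR** : the part of the field off the tent kernel is invisible for `R`, every polynomial
amplitude -/
theorem door_R (hb : 0 < b) : ∃ C c : ℝ, 0 ≤ C ∧ 0 < c ∧ c ≤ 1 ∧
    ∀ (N : ℕ) [NeZero N] (n p : ℕ), 2 ^ n ∣ N → 2 ^ p ∣ N →
    ∀ t : ℝ, 0 < t → t * ((2 : ℝ) ^ n) ^ 2 ≤ 1 → 1 < t * 4 ^ (p + 1) → 1 ≤ t * (N : ℝ) ^ 2 →
    ∀ S : ℝ,
    Integrable (fun F => dav N (2 ^ n) b t S F) (nuS N b t) ∧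
    ∫ F, dav N (2 ^ n) b t S F ∂(nuS N b t) ≤
      C * ((t * (N : ℝ) ^ 2) ^ 4 * (1 + S ^ 2) ^ 3) * ((2 : ℝ) ^ n * √t) ^ c := by
  obtain ⟨C, c, hC, hc, hc1, h⟩ := rough_nuM hb
  refine ⟨C, c, hC, hc, hc1, ?_⟩
  intro N _ n p hn hp t ht htn htp htN S
  have hl0 : 0 < 2 ^ n := by positivity
  have hsh : ∀ v : V N, ∀ u : V N → ℝ, ∑ x, (((S / 2) • Shm N v)ᵀ *ᵥ u) x ^ 2 ≤
      (1 + S ^ 2) * ∑ x, u x ^ 2 := by
    intro v u
    have e : ∑ x, (((S / 2) • Shm N v)ᵀ *ᵥ u) x ^ 2 = (S / 2) ^ 2 * ∑ x, u x ^ 2 := by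
      rw [← Shm_tr_sq v u, Finset.mul_sum]
      refine Finset.sum_congr rfl fun x _ => ?_
      rw [transpose_smul, smul_mulVec, Pi.smul_apply, smul_eq_mul, mul_pow]
    rw [e]
    refine mul_le_mul_of_nonneg_right ?_ (Finset.sum_nonneg fun _ _ => sq_nonneg _)
    nlinarith [sq_nonneg S]
  have hk : (1 : ℝ) ≤ 1 + S ^ 2 := by nlinarith [sq_nonneg S]
  have key : ∀ v : V N, Integrable (fun F => Rs (nwt N b t 0) (S • Qv N (2 ^ n) v (src N t F)))
      (nuS N b t) ∧ ∫ F, Rs (nwt N b t 0) (S • Qv N (2 ^ n) v (src N t F)) ∂(nuS N b t) ≤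
        C * ((t * (N : ℝ) ^ 2) ^ 4 * (1 + S ^ 2) ^ 3) * ((2 : ℝ) ^ n * √t) ^ c := by
    intro v
    have h1 := h N n p hn hp t ht htn htp htN ((S / 2) • Shm N v) (1 + S ^ 2) hk (hsh v)
    have e : ∀ F : V N → ℝ, Rs (nwt N b t 0) (S • Qv N (2 ^ n) v (src N t F)) =
        Rs (nwt N b t 0) ((2 : ℝ) • ((1 - cellP N (2 ^ n)) *ᵥ
          (((S / 2) • Shm N v) *ᵥ src N t F))) := fun F => by
      rw [← rsn_Qv hb.le ht hn v (S / 2) (src N t F)]
      congr 2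
      ring
    simp only [e]
    exact h1
  unfold dav
  set B := C * ((t * (N : ℝ) ^ 2) ^ 4 * (1 + S ^ 2) ^ 3) * ((2 : ℝ) ^ n * √t) ^ c with hB
  have hin : ∀ i ∈ range (2 ^ n), Integrable (fun F => ∑ j ∈ range (2 ^ n),
      Rs (nwt N b t 0) (S • Qv N (2 ^ n) ((i : ZMod N), (j : ZMod N)) (src N t F))) (nuS N b t) :=
    fun i _ => integrable_finsetSum _ fun j _ => (key _).1
  refine ⟨(integrable_finsetSum _ hin).const_mul _, ?_⟩
  rw [integral_const_mul, integral_finsetSum _ hin]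
  have h2 : ∑ i ∈ range (2 ^ n), ∫ F, ∑ j ∈ range (2 ^ n),
      Rs (nwt N b t 0) (S • Qv N (2 ^ n) ((i : ZMod N), (j : ZMod N)) (src N t F)) ∂(nuS N b t) ≤
      ∑ _i ∈ range (2 ^ n), ∑ _j ∈ range (2 ^ n), B := by
    refine Finset.sum_le_sum fun i _ => ?_
    rw [integral_finsetSum _ fun j _ => (key _).1]
    exact Finset.sum_le_sum fun j _ => (key _).2
  refine (mul_le_mul_of_nonneg_left h2 (by positivity)).trans (le_of_eq ?_)
  have h3 := sum_wt hl0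
  simp only [Finset.sum_const, Finset.card_range, nsmul_eq_mul] at h3 ⊢
  linear_combination B * h3

end

end Vale.Agent.P159.H447
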