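import Vale.Agent.P159.H529.Dor3
import Vale.Agent.P159.H447.Sit11
import Vale.Agent.P159.H663.Drl3

/-!
P159 (helper447), **DOOR at a pair** (module S, helper145's (D)(a), row 8263), part 1: not asymptotic.

`door_pair` : `g` any real field (`g = gs R`), `T = tT N (2 ^ n)`, `X = 2 ^ n √t` (size of a cell),
`M = t N²`; amplitude `S = X ^ (-c/16)`: outside an event of `nuS` probability `e^(-5Z)`
`|log Ψ(F) - log Ψ(T (F + g) - g)| ≤ K (1 + A)² G M⁴ e^(5Z) X ^ (c / 16)`,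
`A ≥ Del - log CW`, `G ≥ nrm (η + gr φ), grd g`.
-/

set_option linter.unusedSectionVars false

namespace Vale.Agent.P159.H447

open Finset Matrix MeasureTheory Filter Topology
open Vale.Agent.P159.H37
open Vale.Agent.P159.TM.Spec (V)
open Vale.Agent.P159.TM.SpecC (wT)
open Vale.Agent.P159.H963 (Pn nM pin ntr nwt MF Neu Pn_transpose Pn_mul_Pn neu_Pn gw_wT)
open Vale.Agent.P159.H883 (nuM Enu CI XG BW bw_wT Zp Wt Psi)
open Vale.Agent.P159.H963.Core (RF)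
open Vale.Agent.P159.H663.Dr (tT)
open Vale.Agent.P159.H770 (wTD Ed)
open Vale.Agent.P159.H817 (gr nrm)
open Vale.Agent.P159.H856.Dl (CW Del)
open Vale.Agent.P159.H529.Dor (wD)

noncomputable section

variable {N : ℕ} [NeZero N] {b t : ℝ}

/-- bare bound of `RF` -/
lemma RF_bare (hb : 0 ≤ b) (ht : 0 < t) (F : V N → ℝ) : RF N b t F ≤ t * (∑ x, F x ^ 2) / 2 := by
  rw [RF_src]
  have hn : Neu (src N t F) := by
    rw [src_eq]
    exact (neu_Pn F).smul t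
  refine (rsn_le hb ht 0 hn).trans ?_
  have e : ∑ x, src N t F x ^ 2 = t * (t * ∑ x, ((Pn : Matrix (V N) (V N) ℝ) *ᵥ F) x ^ 2) := by
    rw [Finset.mul_sum, Finset.mul_sum]
    refine Finset.sum_congr rfl fun x _ => ?_
    rw [src_eq, Pi.smul_apply, smul_eq_mul]
    ring
  rw [e, mul_div_cancel_left₀ _ ht.ne']
  have := mul_le_mul_of_nonneg_left (sum_Pn_le F) ht.le
  linarith

/-- `RF` of a sum -/
lemma RF_mid (hb : 0 ≤ b) (ht : 0 < t) (F G : V N → ℝ) :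
    RF N b t (F + G) ≤ (RF N b t ((2 : ℝ) • F) + RF N b t ((2 : ℝ) • G)) / 2 := by
  rw [RF_src, RF_src, RF_src, src_add, src_smul, src_smul]
  exact rsn_mid hb ht 0 _ _

/-! ### numbers -/

lemma dn_8 (Z : ℝ) : 2 * Real.exp (-(5 * Z + 8)) ≤ 2 / 9 * Real.exp (-(5 * Z)) := by
  have e1 : Real.exp (-(5 * Z + 8)) = Real.exp (-(5 * Z)) * Real.exp (-8) := by
    rw [← Real.exp_add]
    congr 1
    ring
  have h9 : Real.exp (-8) ≤ 1 / 9 := by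
    have h8 := Real.add_one_le_exp (8 : ℝ)
    have h10 : Real.exp (-8) * Real.exp 8 = 1 := by
      rw [← Real.exp_add, neg_add_cancel, Real.exp_zero]
    have h11 := Real.exp_pos (-8)
    nlinarith
  rw [e1]
  nlinarith [Real.exp_pos (-(5 * Z))]

/-- the constant of the level of `R` -/
def Kd (C : ℝ) : ℝ := 4 * (C + 257 ^ 3 * C) + 2048

lemma Kd_ge {C : ℝ} (hC : 0 < C) : 2048 ≤ Kd C := by
  unfold Kd
  nlinarith

lemma dn_p {C M4 Z G Y : ℝ} (hC : 0 < C) (hM : 0 < M4) (hG : 1 ≤ G) (hY : Y ≤ 257 ^ 3) :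
    C * M4 / (Kd C * M4 * Real.exp (5 * Z) * G) +
      C * M4 * Y / (Kd C * M4 * Real.exp (5 * Z) * G) + 2 * Real.exp (-(5 * Z + 8)) +
      2 * Real.exp (-(5 * Z + 8)) ≤ Real.exp (-(5 * Z)) := by
  have hK := Kd_ge hC
  have hK0 : 0 < Kd C := by linarith
  have h8 := dn_8 Z
  have hE := Real.exp_pos (5 * Z)
  have hEm := Real.exp_pos (-(5 * Z))
  have eE : Real.exp (-(5 * Z)) * Real.exp (5 * Z) = 1 := by
    rw [← Real.exp_add, neg_add_cancel, Real.exp_zero]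
  have hG0 : 0 < G := by linarith
  have h1 : C * M4 / (Kd C * M4 * Real.exp (5 * Z) * G) +
      C * M4 * Y / (Kd C * M4 * Real.exp (5 * Z) * G) ≤ 1 / 4 * Real.exp (-(5 * Z)) := by
    rw [← add_div, div_le_iff₀ (by positivity)]
    have e1 : 1 / 4 * Real.exp (-(5 * Z)) * (Kd C * M4 * Real.exp (5 * Z) * G) =
        1 / 4 * Kd C * M4 * G * (Real.exp (-(5 * Z)) * Real.exp (5 * Z)) := by ring
    rw [e1, eE, mul_one]
    have h2 : C * M4 + C * M4 * Y ≤ C * M4 * (1 + 257 ^ 3) := by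
      have := mul_le_mul_of_nonneg_left hY (mul_pos hC hM).le
      linarith
    have h3 : C * M4 * (1 + 257 ^ 3) ≤ 1 / 4 * Kd C * M4 := by
      have : C * (1 + 257 ^ 3) ≤ 1 / 4 * Kd C := by
        unfold Kd
        linarith
      have := mul_le_mul_of_nonneg_right this hM.le
      linarith
    have h4 : 1 / 4 * Kd C * M4 ≤ 1 / 4 * Kd C * M4 * G :=
      le_mul_of_one_le_right (by positivity) hG
    linarith
  linarith

lemma dn_S {S u : ℝ} (hu0 : 0 < u) (hu1 : u ≤ 1) (hSu : S * u = 1) (hS1 : 1 ≤ S) :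
    (1 + (8 * (S + 1)) ^ 2) ^ 3 * u ^ 16 ≤ 257 ^ 3 := by
  have h1 : 1 + (8 * (S + 1)) ^ 2 ≤ 257 * S ^ 2 := by nlinarith
  have h2 : (1 + (8 * (S + 1)) ^ 2) ^ 3 ≤ (257 * S ^ 2) ^ 3 :=
    pow_le_pow_left₀ (by positivity) h1 3
  calc (1 + (8 * (S + 1)) ^ 2) ^ 3 * u ^ 16 ≤ (257 * S ^ 2) ^ 3 * u ^ 16 :=
        mul_le_mul_of_nonneg_right h2 (by positivity)
    _ = 257 ^ 3 * (S * u) ^ 6 * u ^ 10 := by ring
    _ ≤ 257 ^ 3 := by
        rw [hSu, one_pow, mul_one]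
        exact mul_le_of_le_one_right (by norm_num) (pow_le_one₀ hu0.le hu1)

/-- the final numbers -/
lemma dn_e {K0 κ B A W0 M X Z u sG a0 : ℝ} (hK0 : 2048 ≤ K0) (hκ : 4 ≤ κ) (hB : 4 ≤ B)
    (hW : A ≤ W0) (hW1 : 1 ≤ W0) (hM : 1 ≤ M) (hX : 0 < X) (hZ : 0 ≤ Z) (hu : 0 < u) (hXu : X ≤ u)
    (hsG : 1 ≤ sG) (hsG2 : sG ≤ B * W0) (ha : a0 ≤ A) :
    (2 * a0 + 2 * (K0 * M ^ 4 * Real.exp (5 * Z) * (B * W0)) +
      2 * (2 * (κ * M * sG) * (5 * Z + 8))) * u +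
      3 * (2 * (κ * X * sG) * (5 * Z + 8) + 16 * M * X * (B * W0)) ≤
    (50 + 2 * K0 + 80 * κ) * (1 + B) * W0 * M ^ 4 * Real.exp (5 * Z) * u := by
  have hE1 : 1 ≤ Real.exp (5 * Z) := Real.one_le_exp (by positivity)
  have hM4 : 1 ≤ M ^ 4 := one_le_pow₀ hM
  have hEZ : 0 < Real.exp (5 * Z) := Real.exp_pos _
  have hM1 : M ≤ M ^ 4 := le_self_pow₀ hM (by norm_num)
  have hZ8 : 5 * Z + 8 ≤ 8 * Real.exp (5 * Z) := by
    have := Real.add_one_le_exp (5 * Z)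
    nlinarith
  have hZ80 : 0 ≤ 5 * Z + 8 := by linarith
  obtain ⟨G', hG'⟩ : ∃ G', G' = B * W0 := ⟨_, rfl⟩
  obtain ⟨P, hP⟩ : ∃ P, P = M ^ 4 * Real.exp (5 * Z) := ⟨_, rfl⟩
  have hP1 : 1 ≤ P := by rw [hP]; exact one_le_mul_of_one_le_of_one_le hM4 hE1
  have hME1 : M * Real.exp (5 * Z) ≤ P := by
    rw [hP]; exact mul_le_mul_of_nonneg_right hM1 hEZ.le
  have hE2 : Real.exp (5 * Z) ≤ P := by rw [hP]; exact le_mul_of_one_le_left hEZ.le hM4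
  have hM2 : M ≤ P := by
    rw [hP]; exact hM1.trans (le_mul_of_one_le_right (by positivity) hE1)
  have hG0 : 0 < G' := by rw [hG']; nlinarith
  have hκ0 : 0 < κ := by linarith
  have hP0 : 0 < P := by linarith
  rw [← hG'] at hsG2 ⊢
  have y2 : 2 * (κ * M * sG) * (5 * Z + 8) ≤ 16 * κ * (P * G') := by
    calc 2 * (κ * M * sG) * (5 * Z + 8) ≤ 2 * (κ * M * G') * (8 * Real.exp (5 * Z)) := by gcongr
      _ = 16 * κ * (M * Real.exp (5 * Z) * G') := by ring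
      _ ≤ 16 * κ * (P * G') := by gcongr
  have y3 : 2 * (κ * X * sG) * (5 * Z + 8) ≤ 16 * κ * (P * G') * u := by
    calc 2 * (κ * X * sG) * (5 * Z + 8) ≤ 2 * (κ * u * G') * (8 * Real.exp (5 * Z)) := by gcongr
      _ = 16 * κ * (Real.exp (5 * Z) * G') * u := by ring
      _ ≤ 16 * κ * (P * G') * u := by gcongr
  have y4 : 16 * M * X * G' ≤ 16 * (P * G') * u := by
    calc 16 * M * X * G' ≤ 16 * P * u * G' := by gcongr
      _ = _ := by ring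
  have y1 : K0 * M ^ 4 * Real.exp (5 * Z) * G' = K0 * (P * G') := by rw [hP]; ring
  have y6 : (2 * a0 + 2 * (K0 * M ^ 4 * Real.exp (5 * Z) * G') +
      2 * (2 * (κ * M * sG) * (5 * Z + 8))) * u ≤ (2 * A + 2 * (K0 * (P * G')) +
        2 * (16 * κ * (P * G'))) * u := by
    refine mul_le_mul_of_nonneg_right ?_ hu.le
    rw [y1]
    linarith
  have y7 : 3 * (2 * (κ * X * sG) * (5 * Z + 8) + 16 * M * X * G') ≤
      3 * (16 * κ * (P * G') * u) + 3 * (16 * (P * G') * u) := by linarith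
  have y8 : 2 * A + (2 * K0 + 80 * κ + 48) * (P * G') ≤
      (50 + 2 * K0 + 80 * κ) * (1 + B) * W0 * P := by
    have w2 : W0 ≤ W0 * P := le_mul_of_one_le_right (by linarith) hP1
    have w3 : P * G' = B * (W0 * P) := by rw [hG']; ring
    rw [w3]
    obtain ⟨W, hW'⟩ : ∃ W, W = W0 * P := ⟨_, rfl⟩
    have hWp : 0 ≤ W := by rw [hW']; positivity
    rw [← hW'] at w2 ⊢
    have e1 : (50 + 2 * K0 + 80 * κ) * (1 + B) * W0 * P =
        (50 + 2 * K0 + 80 * κ) * W + (50 + 2 * K0 + 80 * κ) * (B * W) := by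
      rw [hW']
      ring
    rw [e1]
    have hBW : 0 ≤ B * W := mul_nonneg (by linarith) hWp
    have w4 : 2 * A ≤ 2 * W := by linarith
    have w5 : 2 * W ≤ (50 + 2 * K0 + 80 * κ) * W :=
      mul_le_mul_of_nonneg_right (by linarith) hWp
    have w6 : (2 * K0 + 80 * κ + 48) * (B * W) ≤ (50 + 2 * K0 + 80 * κ) * (B * W) :=
      mul_le_mul_of_nonneg_right (by linarith) hBW
    linarith
  have y9 := mul_le_mul_of_nonneg_right y8 hu.le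
  have e2 : (2 * A + (2 * K0 + 80 * κ + 48) * (P * G')) * u =
      (2 * A + 2 * (K0 * (P * G')) + 2 * (16 * κ * (P * G'))) * u +
        (3 * (16 * κ * (P * G') * u) + 3 * (16 * (P * G') * u)) := by ring
  have e3 : (50 + 2 * K0 + 80 * κ) * (1 + B) * W0 * M ^ 4 * Real.exp (5 * Z) * u =
      (50 + 2 * K0 + 80 * κ) * (1 + B) * W0 * P * u := by rw [hP]; ring
  rw [e3]
  rw [e2] at y9
  linarith

lemma dn_k {b κ Y v G gw sG : ℝ} (hb : 0 ≤ b) (hκ4 : 4 ≤ κ) (hκ2 : 16 + 8 * b ≤ κ ^ 2)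
    (hv : v ^ 2 ≤ Y ^ 2) (hvY : v ≤ Y ^ 2) (hgw0 : 0 ≤ gw) (hgw : gw ≤ G)
    (hsG2 : sG ^ 2 = G) :
    16 * v * gw + 8 * b * v ^ 2 * gw ≤ (κ * Y * sG) ^ 2 ∧ 4 * v ^ 2 * gw ≤ (κ * Y * sG) ^ 2 := by
  have e : (κ * Y * sG) ^ 2 = κ ^ 2 * Y ^ 2 * G := by rw [mul_pow, mul_pow, hsG2]
  rw [e]
  have z1 : 16 * v * gw ≤ 16 * Y ^ 2 * gw := by gcongr
  have z2 : 8 * b * v ^ 2 * gw ≤ 8 * b * Y ^ 2 * gw := by gcongr
  have z3 : 4 * v ^ 2 * gw ≤ 16 * Y ^ 2 * gw := by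
    gcongr
    norm_num
  have z4 : κ ^ 2 * Y ^ 2 * gw ≤ κ ^ 2 * Y ^ 2 * G := by gcongr
  have z5 : (16 + 8 * b) * Y ^ 2 * gw ≤ κ ^ 2 * Y ^ 2 * gw := by gcongr
  have e1 : (16 + 8 * b) * Y ^ 2 * gw = 16 * Y ^ 2 * gw + 8 * b * Y ^ 2 * gw := by ring
  have z6 : 0 ≤ 8 * b * Y ^ 2 * gw := by positivity
  constructor <;> linarith

lemma dn_b1 {b : ℝ} (hb : 0 < b) : 4 ≤ 4 * (b + 1) ^ 2 := by nlinarith

lemma dn_b2 {b : ℝ} (hb : 0 < b) : 16 + 8 * b ≤ (4 + 3 * b) ^ 2 := by nlinarith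

lemma dn_A {A : ℝ} (hA : 0 ≤ A) : A ≤ (1 + A) ^ 2 := by nlinarith

lemma dn_M {M : ℝ} (hM : 1 ≤ M) : M ≤ M ^ 2 := by nlinarith

lemma dn_X {X : ℝ} (hX : X ^ 2 ≤ 1) : (X ^ 2) ^ 2 ≤ X ^ 2 := by nlinarith [sq_nonneg X]

/-! ### the profile and the field `g` -/

/-- energy of the profile -/
lemma dn_grd (hN2 : 2 ≤ N) (hb : 0 < b) (ht : 0 < t) (η : Ed N → ℤ) (φ : V N → ℝ) {A G : ℝ}
    (hA : 0 ≤ A) (hG : 1 ≤ G)
    (hDel : Del (wTD N b) (t • (1 : Matrix (V N) (V N) ℝ)) t 0 η φ -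
      Real.log (CW (wTD N b) 0 η) ≤ A)
    (hbe : nrm (fun e => (η e : ℝ) + gr φ e) ≤ G) :
    TM.H764.grd (wD N b t η φ) ≤ 4 * (b + 1) ^ 2 * ((1 + A) ^ 2 * G) := by
  have h1 := H529.Dor.grd_wD hN2 hb ht η φ
  have hD0 : 0 ≤ Del (wTD N b) (t • (1 : Matrix (V N) (V N) ℝ)) t 0 η φ -
      Real.log (CW (wTD N b) 0 η) := by
    have hd := H856.Dl.Del_nonneg (H770.gwf_wTD (N := N) hb) (H883.em_pin_wTD hb)
      (H963.mf_smul (N := N) ht) (0 : V N) η φ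
    have hcw := H529.Dor.CW_le_one (N := N) hN2 hb η
    have hcp := H856.Dl.CW_pos (H770.gwf_wTD (N := N) hb) (H883.em_pin_wTD hb) (0 : V N) η
    have := Real.log_nonpos hcp.le hcw
    linarith
  generalize Del (wTD N b) (t • (1 : Matrix (V N) (V N) ℝ)) t 0 η φ -
      Real.log (CW (wTD N b) 0 η) = a0 at *
  have h2 : (b + a0) ^ 2 ≤ ((b + 1) * (1 + A)) ^ 2 := by
    refine pow_le_pow_left₀ (by linarith) ?_ 2
    nlinarith
  have h3 : nrm (fun e => (η e : ℝ) + gr φ e) ≤ ((b + 1) * (1 + A)) ^ 2 * G := by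
    have : 1 ≤ ((b + 1) * (1 + A)) ^ 2 := one_le_pow₀ (by nlinarith)
    nlinarith
  have h4 : ((b + 1) * (1 + A)) ^ 2 ≤ ((b + 1) * (1 + A)) ^ 2 * G :=
    le_mul_of_one_le_right (sq_nonneg _) hG
  have h5 : 4 * (b + 1) ^ 2 * ((1 + A) ^ 2 * G) = 4 * (((b + 1) * (1 + A)) ^ 2 * G) := by ring
  rw [h5]
  linarith

lemma dn_diff {q : ℕ} (F g : V N → ℝ) :
    F - (tT N q (F + g) - g) = (F - tT N q F) + (g - tT N q g) := by
  rw [H663.Dr.tT_add]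
  abel

/-- `R` of the rough part, `g` included -/
lemma dn_R (hb : 0 ≤ b) (ht : 0 < t) {q : ℕ} (hq0 : 0 < q) (hq : q ∣ N) (F g : V N → ℝ)
    {S G r : ℝ} (hS : 1 ≤ S) (hG : TM.H764.grd g ≤ G) (hG0 : 0 ≤ G)
    (hSq : S ^ 2 * (t * (q : ℝ) ^ 2) ≤ 1) (hr : 2048 * G ≤ r)
    (h2 : RF N b t ((8 * (S + 1)) • (F - tT N q F)) ≤ r) :
    RF N b t ((4 * (S + 1)) • (F - (tT N q (F + g) - g))) ≤ r := by
  rw [dn_diff, smul_add]
  refine (RF_mid hb ht _ _).trans ?_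
  rw [smul_smul, smul_smul, show (2 : ℝ) * (4 * (S + 1)) = 8 * (S + 1) by ring]
  have poi := H663.Dr.poin_tT hq0 hq g
  have h1 := RF_bare (N := N) hb ht ((8 * (S + 1)) • (g - tT N q g))
  have h2' : ∑ x, ((8 * (S + 1)) • (g - tT N q g)) x ^ 2 =
      (8 * (S + 1)) ^ 2 * ∑ x, (g x - tT N q g x) ^ 2 := by
    rw [Finset.mul_sum]
    refine Finset.sum_congr rfl fun x _ => ?_
    rw [Pi.smul_apply, Pi.sub_apply, smul_eq_mul]
    ring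
  have h4 : t * ((8 * (S + 1)) ^ 2 * ∑ x, (g x - tT N q g x) ^ 2) / 2 ≤ 2048 * G := by
    have h5 : ∑ x, (g x - tT N q g x) ^ 2 ≤ 16 * (q : ℝ) ^ 2 * G :=
      poi.trans (mul_le_mul_of_nonneg_left hG (by positivity))
    have h6 : (8 * (S + 1)) ^ 2 ≤ 256 * S ^ 2 := by nlinarith
    calc t * ((8 * (S + 1)) ^ 2 * ∑ x, (g x - tT N q g x) ^ 2) / 2 ≤
          t * ((256 * S ^ 2) * (16 * (q : ℝ) ^ 2 * G)) / 2 := by gcongr
      _ = 2048 * (S ^ 2 * (t * (q : ℝ) ^ 2)) * G := by ring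
      _ ≤ 2048 * 1 * G := by gcongr
      _ = 2048 * G := by ring
  rw [h2'] at h1
  linarith

/-- the linear functional of the rough part of `g` -/
lemma dn_lin (ht : 0 < t) {q : ℕ} (hq0 : 0 < q) (hq : q ∣ N) (w g : V N → ℝ) (hw0 : ∑ x, w x = 0)
    {G M X : ℝ} (hM : 1 ≤ M) (hMe : M = t * (N : ℝ) ^ 2) (hX : 0 < X) (hXe : X ^ 2 = t * (q : ℝ) ^ 2)
    (hG0 : 0 ≤ G) (hgw : TM.H764.grd w ≤ G) (hgg : TM.H764.grd g ≤ G) :
    |t * ∑ x, w x * (g x - tT N q g x)| ≤ 16 * M * X * G := by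
  have poi := H663.Dr.poin_tT hq0 hq g
  have pw := H663.Dr.poin_tT (N := N) (q := N) (NeZero.pos N) (dvd_refl N) w
  simp only [H663.Dr.tT_full, hw0, mul_zero, sub_zero] at pw
  have cs := Finset.sum_mul_sq_le_sq_mul_sq univ (fun x => w x) (fun x => g x - tT N q g x)
  have hn : (0 : ℝ) ≤ N := Nat.cast_nonneg _
  have hqr : (0 : ℝ) ≤ q := Nat.cast_nonneg _
  have h2 : (∑ x, w x * (g x - tT N q g x)) ^ 2 ≤ (16 * (N : ℝ) * q * G) ^ 2 := by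
    refine cs.trans ?_
    have h3 : ∑ x, w x ^ 2 ≤ 16 * (N : ℝ) ^ 2 * G :=
      pw.trans (mul_le_mul_of_nonneg_left hgw (by positivity))
    have h5 : ∑ x, (g x - tT N q g x) ^ 2 ≤ 16 * (q : ℝ) ^ 2 * G :=
      poi.trans (mul_le_mul_of_nonneg_left hgg (by positivity))
    calc (∑ x, w x ^ 2) * ∑ x, (g x - tT N q g x) ^ 2 ≤
          (16 * (N : ℝ) ^ 2 * G) * (16 * (q : ℝ) ^ 2 * G) :=
          mul_le_mul h3 h5 (Finset.sum_nonneg fun _ _ => sq_nonneg _) (by positivity)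
      _ = _ := by ring
  have h6 : |∑ x, w x * (g x - tT N q g x)| ≤ 16 * (N : ℝ) * q * G :=
    abs_le_of_sq_le_sq h2 (by positivity)
  rw [abs_mul, abs_of_pos ht]
  have h7 : t * ((N : ℝ) * q) ≤ M * X := by
    refine (abs_le_of_sq_le_sq' ?_ (by positivity)).2
    calc (t * ((N : ℝ) * q)) ^ 2 = M * X ^ 2 := by rw [hXe, hMe]; ring
      _ ≤ M ^ 2 * X ^ 2 := mul_le_mul_of_nonneg_right (by nlinarith) (sq_nonneg X)
      _ = (M * X) ^ 2 := by ring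
  calc t * |∑ x, w x * (g x - tT N q g x)| ≤ t * (16 * (N : ℝ) * q * G) :=
        mul_le_mul_of_nonneg_left h6 ht.le
    _ = 16 * (t * ((N : ℝ) * q)) * G := by ring
    _ ≤ 16 * (M * X) * G := by gcongr
    _ = _ := by ring

/-- the good event -/
def Dev (N q : ℕ) [NeZero N] (b t : ℝ) (w : V N → ℝ) (S r L μ : ℝ) : Set (V N → ℝ) :=
  {F | RF N b t ((4 : ℝ) • F) ≤ r ∧ RF N b t ((8 * (S + 1)) • (F - tT N q F)) ≤ r ∧
    |t * ∑ y, w y * F y| ≤ L ∧ |t * ∑ y, w y * (F y - tT N q F y)| ≤ μ}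

lemma meas_Dev (hb : 0 ≤ b) (ht : 0 < t) (q : ℕ) (w : V N → ℝ) (S r L μ : ℝ) :
    MeasurableSet (Dev N q b t w S r L μ) := by
  have c1 : Continuous fun F : V N → ℝ => RF N b t ((4 : ℝ) • F) :=
    (cont_RF hb ht).comp (continuous_const_smul (4 : ℝ))
  have c0 : Continuous fun F : V N → ℝ => F - tT N q F := continuous_id.sub (cont_tT q)
  have c2 : Continuous fun F : V N → ℝ => RF N b t ((8 * (S + 1)) • (F - tT N q F)) :=
    (cont_RF hb ht).comp (c0.const_smul (8 * (S + 1)))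
  have c3 : Continuous fun F : V N → ℝ => |t * ∑ y, w y * F y| := by fun_prop
  have c4 : Continuous fun F : V N → ℝ => |t * ∑ y, w y * (F y - tT N q F y)| := by
    have h1 : ∀ y : V N, Continuous fun F : V N → ℝ => tT N q F y := fun y =>
      (continuous_apply y).comp (cont_tT _)
    fun_prop
  have e1 : Dev N q b t w S r L μ = (({F : V N → ℝ | RF N b t ((4 : ℝ) • F) ≤ r} ∩
      {F | RF N b t ((8 * (S + 1)) • (F - tT N q F)) ≤ r}) ∩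
      {F | |t * ∑ y, w y * F y| ≤ L}) ∩ {F | |t * ∑ y, w y * (F y - tT N q F y)| ≤ μ} := by
    ext F
    simp only [Dev, Set.mem_ofPred_eq, Set.mem_inter_iff, and_assoc]
  rw [e1]
  exact (((measurableSet_le c1.measurable measurable_const).inter
    (measurableSet_le c2.measurable measurable_const)).inter
    (measurableSet_le c3.measurable measurable_const)).inter
    (measurableSet_le c4.measurable measurable_const)

/-- DOOR on the good event -/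
lemma dn_det (hN2 : 2 ≤ N) (hb : 0 < b) (ht : 0 < t) {q : ℕ} (hq0 : 0 < q) (hq : q ∣ N)
    (η : Ed N → ℤ) (φ g : V N → ℝ) {S r L μ G M X : ℝ} (hS : 1 ≤ S) (hM : 1 ≤ M)
    (hMe : M = t * (N : ℝ) ^ 2) (hX : 0 < X) (hXe : X ^ 2 = t * (q : ℝ) ^ 2) (hG0 : 0 ≤ G)
    (hSq : S ^ 2 * X ^ 2 ≤ 1) (hr : 2048 * G ≤ r)
    (hgw : TM.H764.grd (wD N b t η φ) ≤ G) (hgg : TM.H764.grd g ≤ G) {F : V N → ℝ}
    (hF : F ∈ Dev N q b t (wD N b t η φ) S r L μ) :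
    |Real.log (Psi (wT b N) (wTD N b η) (t • (1 : Matrix (V N) (V N) ℝ)) φ F) -
      Real.log (Psi (wT b N) (wTD N b η) (t • (1 : Matrix (V N) (V N) ℝ)) φ
        (tT N q (F + g) - g))| ≤
      (2 * (Del (wTD N b) (t • (1 : Matrix (V N) (V N) ℝ)) t 0 η φ -
        Real.log (CW (wTD N b) 0 η)) + 2 * r + 2 * L) / S + 3 * (μ + 16 * M * X * G) := by
  obtain ⟨f1, f2, f3, f4⟩ := hF
  have hw0 := H529.Dor.sum_wD (N := N) hb ht η φ
  have r1 := dn_R hb.le ht hq0 hq F g hS hgg hG0 (by rw [← hXe]; exact hSq) hr f2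
  have l0 := dn_lin ht hq0 hq (wD N b t η φ) g hw0 hM hMe hX hXe hG0 hgw hgg
  have l1 : |t * ∑ x, wD N b t η φ x * (F x - (tT N q (F + g) - g) x)| ≤
      μ + 16 * M * X * G := by
    have e1 : t * ∑ x, wD N b t η φ x * (F x - (tT N q (F + g) - g) x) =
        t * ∑ x, wD N b t η φ x * (F x - tT N q F x) +
          t * ∑ x, wD N b t η φ x * (g x - tT N q g x) := by
      rw [← mul_add, ← Finset.sum_add_distrib]
      congr 1
      refine Finset.sum_congr rfl fun x _ => ?_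
      have h0 := congrFun (dn_diff (q := q) F g) x
      have h1 : F x - (tT N q (F + g) - g) x = (F x - tT N q F x) + (g x - tT N q g x) := h0
      rw [h1]
      ring
    rw [e1]
    exact (abs_add_le _ _).trans (add_le_add f4 l0)
  rw [RF_src] at f1 r1
  exact H529.Dor.door_tor hN2 hb ht η φ hS F (tT N q (F + g) - g) f1 r1 f3 l1

/-- **DOOR AT A PAIR**, not asymptotic -/
theorem door_pair (hb : 0 < b) : ∃ K c : ℝ, 1 ≤ K ∧ 0 < c ∧ c ≤ 1 ∧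
    ∀ (N : ℕ) [NeZero N] (n p : ℕ), 2 ≤ N → 2 ^ n ∣ N → 2 ^ p ∣ N →
    ∀ t : ℝ, 0 < t → t * ((2 : ℝ) ^ n) ^ 2 ≤ 1 → t * ((2 : ℝ) ^ p) ^ 2 ≤ 1 →
      1 < t * 4 ^ (p + 1) → 1 ≤ t * (N : ℝ) ^ 2 →
    ∀ (η : Ed N → ℤ) (φ g : V N → ℝ) (A G Z : ℝ), 0 ≤ Z → 0 ≤ A → 1 ≤ G →
      Del (wTD N b) (t • (1 : Matrix (V N) (V N) ℝ)) t 0 η φ - Real.log (CW (wTD N b) 0 η) ≤ A →
      nrm (fun e => (η e : ℝ) + gr φ e) ≤ G → TM.H764.grd g ≤ G →
    ∃ G1 : Set (V N → ℝ), MeasurableSet G1 ∧ (nuS N b t).real G1ᶜ ≤ Real.exp (-(5 * Z)) ∧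
      ∀ F ∈ G1, |Real.log (Psi (wT b N) (wTD N b η) (t • (1 : Matrix (V N) (V N) ℝ)) φ F) -
        Real.log (Psi (wT b N) (wTD N b η) (t • (1 : Matrix (V N) (V N) ℝ)) φ
          (tT N (2 ^ n) (F + g) - g))| ≤
        K * ((1 + A) ^ 2 * G) * (t * (N : ℝ) ^ 2) ^ 4 * Real.exp (5 * Z) *
          ((2 : ℝ) ^ n * √t) ^ (c / 16) := by
  obtain ⟨C, c, hC, hc, hc1, h⟩ := H663.Dr.door_law hb
  have hK00 := Kd_ge hC
  refine ⟨(50 + 2 * Kd C + 80 * (4 + 3 * b)) * (1 + 4 * (b + 1) ^ 2), c, ?_, hc, hc1, ?_⟩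
  · have hb1 := sq_nonneg (b + 1)
    exact one_le_mul_of_one_le_of_one_le (by linarith) (by linarith)
  intro N _ n p hN2 hn hp t ht htn htp htp1 htN η φ g A G Z hZ hA hG hDel hbe hg
  obtain ⟨X, hX⟩ : ∃ X : ℝ, X = (2 : ℝ) ^ n * √t := ⟨_, rfl⟩
  have hst := Real.sqrt_pos.2 ht
  have hX0 : 0 < X := by rw [hX]; positivity
  have hX2 : X ^ 2 = t * ((2 : ℝ) ^ n) ^ 2 := by
    rw [hX, mul_pow, Real.sq_sqrt ht.le]
    ring
  have hX1 : X ≤ 1 := (pow_le_one_iff_of_nonneg hX0.le two_ne_zero).1 (hX2.le.trans htn)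
  obtain ⟨M, hM⟩ : ∃ M : ℝ, M = t * (N : ℝ) ^ 2 := ⟨_, rfl⟩
  obtain ⟨u, hu⟩ : ∃ u : ℝ, u = X ^ (c / 16) := ⟨_, rfl⟩
  have hu0 : 0 < u := by rw [hu]; exact Real.rpow_pos_of_pos hX0 _
  have hu1 : u ≤ 1 := by rw [hu]; exact Real.rpow_le_one hX0.le hX1 (by positivity)
  have hu16 : X ^ c = u ^ 16 := by
    rw [hu, ← Real.rpow_natCast, ← Real.rpow_mul hX0.le]
    congr 1
    push_cast
    ring
  have hXc : X ≤ X ^ c := by
    calc X = X ^ (1 : ℝ) := (Real.rpow_one X).symm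
      _ ≤ X ^ c := Real.rpow_le_rpow_of_exponent_ge hX0 hX1 hc1
  have hXu : X ≤ u := (hXc.trans hu16.le).trans (pow_le_of_le_one hu0.le hu1 (by norm_num))
  have hSu : u⁻¹ * u = 1 := inv_mul_cancel₀ hu0.ne'
  have hS1 : 1 ≤ u⁻¹ := one_le_inv_iff₀.2 ⟨hu0, hu1⟩
  obtain ⟨S, hS⟩ : ∃ S : ℝ, S = u⁻¹ := ⟨_, rfl⟩
  rw [← hS] at hSu hS1
  have hSX : S ^ 2 * X ^ 2 ≤ 1 := by
    calc S ^ 2 * X ^ 2 ≤ S ^ 2 * u ^ 2 :=
          mul_le_mul_of_nonneg_left (pow_le_pow_left₀ hX0.le hXu 2) (sq_nonneg S)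
      _ = (S * u) ^ 2 := by ring
      _ = 1 := by rw [hSu, one_pow]
  -- the energies
  obtain ⟨W0, hW0⟩ : ∃ W0 : ℝ, W0 = (1 + A) ^ 2 * G := ⟨_, rfl⟩
  have h1A : 1 ≤ (1 + A) ^ 2 := one_le_pow₀ (by linarith)
  have hW1 : 1 ≤ W0 := by rw [hW0]; exact one_le_mul_of_one_le_of_one_le h1A hG
  have hAW : A ≤ W0 := by
    rw [hW0]
    exact (dn_A hA).trans (le_mul_of_one_le_right (sq_nonneg _) hG)
  have hGW : G ≤ W0 := by rw [hW0]; exact le_mul_of_one_le_left (by linarith) h1A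
  obtain ⟨B, hB⟩ : ∃ B : ℝ, B = 4 * (b + 1) ^ 2 := ⟨_, rfl⟩
  have hB0 : 4 ≤ B := by rw [hB]; exact dn_b1 hb
  have hgw : TM.H764.grd (wD N b t η φ) ≤ B * W0 := by
    rw [hB, hW0]
    exact dn_grd hN2 hb ht η φ hA hG hDel hbe
  have hBW : 1 ≤ B * W0 := one_le_mul_of_one_le_of_one_le (by linarith) hW1
  have hgg : TM.H764.grd g ≤ B * W0 :=
    (hg.trans hGW).trans (le_mul_of_one_le_left (by linarith) (by linarith))
  have hgw0 : 0 ≤ TM.H764.grd (wD N b t η φ) := by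
    rw [H529.Dor.grd_nrm]
    exact Finset.sum_nonneg fun _ _ => sq_nonneg _
  have hw0 := H529.Dor.sum_wD (N := N) hb ht η φ
  obtain ⟨sG, hsG⟩ : ∃ sG : ℝ, sG = √(B * W0) := ⟨_, rfl⟩
  have hsG2 : sG ^ 2 = B * W0 := by rw [hsG]; exact Real.sq_sqrt (by linarith)
  have hsG1 : 1 ≤ sG := by rw [hsG]; exact Real.one_le_sqrt.2 hBW
  have hsGG : sG ≤ B * W0 := by rw [← hsG2]; exact le_self_pow₀ hsG1 two_ne_zero
  obtain ⟨κ, hκ⟩ : ∃ κ : ℝ, κ = 4 + 3 * b := ⟨_, rfl⟩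
  have hκ4 : 4 ≤ κ := by rw [hκ]; linarith
  have hκ2 : 16 + 8 * b ≤ κ ^ 2 := by rw [hκ]; exact dn_b2 hb
  have hM1 : 1 ≤ M := by rw [hM]; exact htN
  have hM4 : 1 ≤ M ^ 4 := one_le_pow₀ hM1
  have hE1 : 1 ≤ Real.exp (5 * Z) := Real.one_le_exp (by positivity)
  obtain ⟨r, hr⟩ : ∃ r : ℝ, r = Kd C * M ^ 4 * Real.exp (5 * Z) * (B * W0) := ⟨_, rfl⟩
  have hrG : 2048 * (B * W0) ≤ r := by
    rw [hr]
    refine mul_le_mul_of_nonneg_right ?_ (by linarith)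
    calc (2048 : ℝ) ≤ Kd C := hK00
      _ ≤ Kd C * (M ^ 4 * Real.exp (5 * Z)) :=
          le_mul_of_one_le_right (by linarith) (one_le_mul_of_one_le_of_one_le hM4 hE1)
      _ = _ := by ring
  have hr0 : 0 < r := by linarith
  have hsN0 : 0 < κ * M * sG := by positivity
  have hsq0 : 0 < κ * X * sG := by positivity
  obtain ⟨k1, k2⟩ := dn_k (Y := M) hb.le hκ4 hκ2 le_rfl (dn_M hM1) hgw0 hgw hsG2
  have hX21 : X ^ 2 ≤ 1 := pow_le_one₀ hX0.le hX1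
  obtain ⟨k3, k4⟩ := dn_k (Y := X) hb.le hκ4 hκ2 (dn_X hX21) le_rfl hgw0 hgw hsG2
  rw [hX2] at k3 k4
  have key := h N n p hn hp t ht htn htp htp1 htN (wD N b t η φ) hw0 (8 * (S + 1)) r
    (2 * (κ * M * sG) * (5 * Z + 8)) (2 * (κ * X * sG) * (5 * Z + 8)) (κ * M * sG) (κ * X * sG)
    hr0 hsN0 hsq0 (by rw [← hM]; exact k1) (by rw [← hM]; exact k2) k3 k4
  have hSS := dn_S hu0 hu1 hSu hS1
  refine ⟨Dev N (2 ^ n) b t (wD N b t η φ) S r (2 * (κ * M * sG) * (5 * Z + 8))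
    (2 * (κ * X * sG) * (5 * Z + 8)), meas_Dev hb.le ht _ _ _ _ _ _, ?_, ?_⟩
  · refine le_trans (le_of_eq ?_) (key.trans ?_)
    · rfl
    · rw [← hM, ← hX, hu16]
      have e1 : 2 * (κ * M * sG) * (5 * Z + 8) / (2 * (κ * M * sG)) = 5 * Z + 8 := by field_simp
      have e2 : 2 * (κ * X * sG) * (5 * Z + 8) / (2 * (κ * X * sG)) = 5 * Z + 8 := by field_simp
      rw [e1, e2, hr]
      have e3 : C * (M ^ 4 * (1 + (8 * (S + 1)) ^ 2) ^ 3) * u ^ 16 =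
          C * M ^ 4 * ((1 + (8 * (S + 1)) ^ 2) ^ 3 * u ^ 16) := by ring
      rw [e3]
      exact dn_p hC (by linarith) hBW hSS
  · intro F hF
    have hqr : (((2 ^ n : ℕ) : ℝ)) = (2 : ℝ) ^ n := by push_cast; rfl
    have fin := dn_det hN2 hb ht (q := 2 ^ n) (by positivity) hn η φ g hS1 hM1 hM hX0
      (by rw [hqr]; exact hX2) (by linarith) hSX hrG hgw hgg hF
    refine fin.trans ?_
    rw [div_eq_mul_inv, hS, inv_inv, hr, ← hM, ← hX, ← hu, ← hW0, ← hB, ← hκ]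
    exact dn_e hK00 hκ4 hB0 hAW hW1 hM1 hX0 hZ hu0 hXu hsG1 hsGG hDel

end

end Vale.Agent.P159.H447
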