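import Vale.Agent.P159.H447.Dn1
import Vale.Agent.P159.H145.Spc0
import Vale.Agent.P159.H37.Lq2
import Vale.Agent.P159.H856.Dl8

/-!
P159 (helper447), **DOOR of a level** (module S, helper145's (D)(a), row 8263), part 2: the numbers along
the flow.

`door_sf` : `DoorP b i η φ (tn n) (2 ^ s) R (gC i n K1 R) (e^(-5Z)) (e^(-Z))`, `Z = y^(-c3)`, cells with
`n - s ≥ y^(-c5)`, `c3 < c5`, for every pair `R` of the window; the only input is
`Del - log CW ≤ y^(-κ)` (any `κ`).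
-/

set_option linter.unusedSectionVars false

namespace Vale.Agent.P159.H447

open Finset Matrix MeasureTheory Filter Topology
open Vale.Agent.P159.TM.Spec (V)
open Vale.Agent.P159.TM.SpecC (wT)
open Vale.Agent.P159.H801 (SFlow)
open Vale.Agent.P159.H972 (tn lg Par tn_pos tn_mul)
open Vale.Agent.P159.H37.Sf (kf sf_k3 sf_wt sf_ub sf_lb0 sf_ny sf_big sf_eps prm_of lg_le)
open Vale.Agent.P159.H770 (wTD Ed)
open Vale.Agent.P159.H773 (sd nuF PsF cMn)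
open Vale.Agent.P159.H817 (gr nrm eF bD sz U e1)
open Vale.Agent.P159.H856.Dl (CW Del nrm_bD)
open Vale.Agent.P159.H859.Idl (gsR gsR_spec s0 s0_pos Prm)
open Vale.Agent.P159.H145.Sp (DoorP HF gC lR lK lE Ps)

noncomputable section

section flow

variable {P : Par} {b σ c c1 q2 qx : ℝ} {a y ε xs : ℕ → ℝ} {c' r q A : ℝ} {N : ℕ}

/-- powers against exponentials -/
lemma sf_exp (h : SFlow P b σ c c1 q2 qx a y ε xs c' r q A N) {C m c3 : ℝ} (h3 : 0 < c3) :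
    ∀ᶠ n in atTop, C * y n ^ (-m) ≤ Real.exp (y n ^ (-c3)) := by
  have hx : Tendsto (fun n => y n ^ (-c3)) atTop atTop := by
    have h1 : Tendsto y atTop (𝓝[>] 0) := tendsto_nhdsWithin_iff.2
      ⟨h.fl.yt, Filter.Eventually.of_forall fun n => h.fl.y0 n⟩
    exact (tendsto_rpow_neg_nhdsGT_zero (by linarith : -c3 < 0)).comp h1
  have h2 := ((tendsto_rpow_mul_exp_neg_mul_atTop_nhds_zero (m / c3) 1 one_pos).comp
    hx).const_mul C
  rw [mul_zero] at h2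
  filter_upwards [h2.eventually (gt_mem_nhds one_pos)] with n hn
  have hy := h.fl.y0 n
  have e1 : (y n ^ (-c3)) ^ (m / c3) = y n ^ (-m) := by
    rw [← Real.rpow_mul hy.le]
    congr 1
    field_simp
  simp only [Function.comp_apply] at hn
  rw [e1] at hn
  have e2 : Real.exp (-1 * y n ^ (-c3)) * Real.exp (y n ^ (-c3)) = 1 := by
    rw [← Real.exp_add, neg_one_mul, neg_add_cancel, Real.exp_zero]
  have h4 := Real.exp_pos (y n ^ (-c3))
  calc C * y n ^ (-m) = C * (y n ^ (-m) * Real.exp (-1 * y n ^ (-c3))) *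
        Real.exp (y n ^ (-c3)) := by
        rw [mul_assoc, mul_assoc, e2, mul_one]
    _ ≤ 1 * Real.exp (y n ^ (-c3)) := mul_le_mul_of_nonneg_right hn.le h4.le
    _ = _ := one_mul _

/-- `1 / y ≤ n` up to a constant, and `n ≤ C / y` -/
lemma sf_win (h : SFlow P b σ c c1 q2 qx a y ε xs c' r q A N) (hA : P.Adm) (hσ0 : 0 ≤ σ)
    (hσ : σ ≤ 1 / 4) {ck : ℝ} (hck : 0 < ck) (hck1 : ck ≤ P.thp) (i : ℕ) :
    ∀ᶠ n in atTop, ∀ R : ℕ, R ≤ 2 ^ (n + P.w (ε n) + kf ck y (n + P.w (ε n))) →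
      tn n * ((sd i R : ℕ) : ℝ) ^ 2 ≤ 4 ^ (i + 4) * y n ^ (-(16 : ℝ)) := by
  filter_upwards [sf_k3 h hσ hck hck1, eventually_ge_atTop N] with n h3 hn R hR
  have hy := h.fl.y0 n
  have hl0 := sf_lb0 h hn
  have hth1 : P.thp ≤ 1 := hA.thp1
  have hc1 : Nat.clog 2 R ≤ n + P.w (ε n) + kf ck y (n + P.w (ε n)) := by
    have := Nat.clog_mono_right 2 hR
    rwa [Nat.clog_pow 2 _ one_lt_two] at this
  have hsd : sd i R ≤ 2 ^ (n + (i + 4 * P.w (ε n))) := by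
    unfold sd
    rw [← pow_add]
    exact Nat.pow_le_pow_right (by norm_num) (by omega)
  have h4 : tn n * ((sd i R : ℕ) : ℝ) ^ 2 ≤ 4 ^ (i + 4 * P.w (ε n)) := by
    rw [← tn_mul n (i + 4 * P.w (ε n))]
    refine mul_le_mul_of_nonneg_left ?_ (tn_pos n).le
    exact pow_le_pow_left₀ (Nat.cast_nonneg _) (by exact_mod_cast hsd) 2
  refine h4.trans ?_
  -- the exponent
  have hε := sf_eps h hn
  have e0 : 0 ≤ Real.logb 2 (1 / ε n) := by
    have h1 := H37.Sf.sf_lb h hn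
    exact le_trans (mul_nonneg (by linarith) hl0) h1
  have h5 : (P.w (ε n) : ℝ) ≤ 2 * Real.logb 2 (1 / y n) + 1 := by
    have h6 : (P.w (ε n) : ℝ) ≤ P.thp * Real.logb 2 (1 / ε n) + 1 :=
      lg_le (mul_nonneg P.thp0.le e0)
    have h7 := sf_ub h hn
    have h8 : P.thp * Real.logb 2 (1 / ε n) ≤ 1 * Real.logb 2 (1 / ε n) :=
      mul_le_mul_of_nonneg_right hth1 e0
    nlinarith
  have e5 : (4 : ℝ) ^ (i + 4 * P.w (ε n)) = 4 ^ i * (2 : ℝ) ^ (8 * (P.w (ε n) : ℝ)) := by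
    rw [pow_add]
    congr 1
    rw [show (8 * (P.w (ε n) : ℝ)) = ((8 * P.w (ε n) : ℕ) : ℝ) by push_cast; ring,
      Real.rpow_natCast, show 8 * P.w (ε n) = 2 * (4 * P.w (ε n)) by ring,
      pow_mul (2 : ℝ) 2 (4 * P.w (ε n))]
    norm_num
  have e6 : (2 : ℝ) ^ (16 * Real.logb 2 (1 / y n)) = y n ^ (-(16 : ℝ)) := by
    rw [mul_comm, Real.rpow_mul two_pos.le, Real.rpow_logb two_pos (by norm_num) (by positivity),
      one_div, Real.inv_rpow hy.le, Real.rpow_neg hy.le]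
  have h9 : (2 : ℝ) ^ (8 * (P.w (ε n) : ℝ)) ≤ 256 * y n ^ (-(16 : ℝ)) := by
    rw [← e6]
    calc (2 : ℝ) ^ (8 * (P.w (ε n) : ℝ)) ≤ 2 ^ (8 + 16 * Real.logb 2 (1 / y n)) :=
          Real.rpow_le_rpow_of_exponent_le one_lt_two.le (by linarith)
      _ = 256 * (2 : ℝ) ^ (16 * Real.logb 2 (1 / y n)) := by
          rw [Real.rpow_add two_pos]
          norm_num
  rw [e5]
  calc (4 : ℝ) ^ i * (2 : ℝ) ^ (8 * (P.w (ε n) : ℝ)) ≤ 4 ^ i * (256 * y n ^ (-(16 : ℝ))) :=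
        mul_le_mul_of_nonneg_left h9 (by positivity)
    _ = 4 ^ (i + 4) * y n ^ (-(16 : ℝ)) := by rw [pow_add]; norm_num; ring

/-- logarithm of the side of the torus -/
lemma sf_logN (h : SFlow P b σ c c1 q2 qx a y ε xs c' r q A N) (hA : P.Adm) (hσ0 : 0 ≤ σ)
    (hσ : σ ≤ 1 / 4) {ck : ℝ} (hck : 0 < ck) (hck1 : ck ≤ P.thp) (i : ℕ) {M : ℝ} (hM : 0 ≤ M) :
    ∀ᶠ n in atTop, ∀ R : ℕ, R ≤ 2 ^ (n + P.w (ε n) + kf ck y (n + P.w (ε n))) → 1 ≤ R →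
      M * (1 + Real.log (1 + ((sd i R : ℕ) : ℝ))) ≤ y n ^ (-(2 : ℝ)) := by
  obtain ⟨C, hC, hCn⟩ := sf_ny h
  filter_upwards [sf_win h hA hσ0 hσ hck hck1 i, hCn, h.fl.ev_one,
    sf_big h (p := 1) (M := M * ((i + 5) * 2 + 16 + 2 * C) + 1) one_pos (by positivity)] with
    n h1 h2 hy1 h4 R hR hR1
  have hy := h.fl.y0 n
  have hN1 : (1 : ℝ) ≤ ((sd i R : ℕ) : ℝ) := by
    have : 1 ≤ sd i R := by unfold sd; exact Nat.one_le_iff_ne_zero.2 (by positivity)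
    exact_mod_cast this
  have hN0 : (0 : ℝ) < ((sd i R : ℕ) : ℝ) := by linarith
  have h5 := h1 R hR
  have hl2 : Real.log 2 ≤ 1 := by
    have := Real.log_two_lt_d9
    linarith
  have hl20 : 0 < Real.log 2 := Real.log_pos one_lt_two
  -- log of the side
  have h6 : Real.log ((sd i R : ℕ) : ℝ) ≤ n + (i + 4) + 8 * (1 / y n) := by
    have e1 : (((sd i R : ℕ) : ℝ)) ^ 2 ≤ 4 ^ n * (4 ^ (i + 4) * y n ^ (-(16 : ℝ))) := by
      unfold tn at h5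
      rwa [inv_mul_le_iff₀ (by positivity)] at h5
    have h7 := Real.log_le_log (by positivity) e1
    have e4 : Real.log 4 = 2 * Real.log 2 := by
      rw [show (4 : ℝ) = 2 ^ 2 by norm_num, Real.log_pow]
      norm_num
    have hyp := Real.rpow_pos_of_pos hy (-(16 : ℝ))
    rw [Real.log_pow, Real.log_mul (by positivity) (by positivity),
      Real.log_mul (by positivity) hyp.ne', Real.log_pow, Real.log_pow, Real.log_rpow hy, e4] at h7
    have h8 : -Real.log (y n) ≤ 1 / y n := by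
      rw [← Real.log_inv, ← one_div]
      have := Real.log_le_sub_one_of_pos (show 0 < 1 / y n by positivity)
      linarith
    have hn0 : (0 : ℝ) ≤ n := Nat.cast_nonneg _
    have hi0 : (0 : ℝ) ≤ ((i + 4 : ℕ) : ℝ) := Nat.cast_nonneg _
    have h9 : (n : ℝ) * (2 * Real.log 2) ≤ n * 2 :=
      mul_le_mul_of_nonneg_left (by linarith) hn0
    have h10 : ((i + 4 : ℕ) : ℝ) * (2 * Real.log 2) ≤ ((i + 4 : ℕ) : ℝ) * 2 :=
      mul_le_mul_of_nonneg_left (by linarith) hi0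
    push_cast at h7 h10
    linarith
  have h7 : Real.log (1 + ((sd i R : ℕ) : ℝ)) ≤ 1 + Real.log ((sd i R : ℕ) : ℝ) := by
    have e1 : 1 + ((sd i R : ℕ) : ℝ) ≤ 2 * ((sd i R : ℕ) : ℝ) := by linarith
    have h8 := Real.log_le_log (by positivity) e1
    rw [Real.log_mul (by norm_num) hN0.ne'] at h8
    linarith
  have hnC : (n : ℝ) ≤ C * (1 / y n) := by
    rw [mul_one_div, le_div_iff₀ hy]
    exact h2
  have hy2 : 1 ≤ 1 / y n := by
    rw [le_div_iff₀ hy, one_mul]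
    exact hy1
  have e2 : y n ^ (-(1 : ℝ)) = 1 / y n := by rw [Real.rpow_neg_one, one_div]
  have e3 : y n ^ (-(2 : ℝ)) = (1 / y n) * (1 / y n) := by
    rw [← e2, ← Real.rpow_add hy]
    norm_num
  rw [e2] at h4
  rw [e3]
  have hi0 : (0 : ℝ) ≤ i := Nat.cast_nonneg _
  have h11 : 1 + Real.log (1 + ((sd i R : ℕ) : ℝ)) ≤ ((i + 5) * 2 + 16 + 2 * C) * (1 / y n) := by
    have h12 : (i : ℝ) + 6 ≤ (i + 6) * (1 / y n) := le_mul_of_one_le_right (by positivity) hy2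
    have h13 : 0 ≤ (i : ℝ) * (1 / y n) := by positivity
    have h14 : 0 ≤ C * (1 / y n) := by positivity
    nlinarith
  calc M * (1 + Real.log (1 + ((sd i R : ℕ) : ℝ))) ≤
        M * (((i + 5) * 2 + 16 + 2 * C) * (1 / y n)) := mul_le_mul_of_nonneg_left h11 hM
    _ = (M * ((i + 5) * 2 + 16 + 2 * C)) * (1 / y n) := by ring
    _ ≤ (1 / y n) * (1 / y n) := mul_le_mul_of_nonneg_right (by linarith) (by positivity)

/-- energies of the bare pair and of the correction -/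
lemma sf_nrg (h : SFlow P b σ c c1 q2 qx a y ε xs c' r q A N) (hA : P.Adm) (hσ0 : 0 ≤ σ)
    (hσ : σ ≤ 1 / 4) {ck : ℝ} (hck : 0 < ck) (hck1 : ck ≤ P.thp) {i : ℕ} (hi : 6 ≤ i) :
    ∀ᶠ n in atTop, ∀ K1, K1 = n + P.w (ε n) + kf ck y (n + P.w (ε n)) →
      ∀ R : ℕ, 2 ^ (n + kf ck y n) ≤ R → R ≤ 2 ^ K1 →
      nrm (bD (0 : V (sd i R)) (R • e1)) ≤ y n ^ (-(2 : ℝ)) ∧
        TM.H764.grd (gC i n K1 R) ≤ y n ^ (-(2 : ℝ)) := by
  have hkt : ∀ᶠ n in atTop, 32 ≤ kf ck y n := by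
    have h1 := (H37.Sf.lb_tend h.fl.y0 h.fl.yt).eventually_ge_atTop (32 / ck)
    filter_upwards [h1] with n hn
    have h2 : ck * Real.logb 2 (1 / y n) ≤ (kf ck y n : ℝ) := H37.Sf.le_lg _ _
    have h3 : (32 : ℝ) ≤ ck * Real.logb 2 (1 / y n) := by
      rw [div_le_iff₀ hck] at hn
      linarith
    exact_mod_cast h3.trans h2
  filter_upwards [hkt, sf_logN h hA hσ0 hσ hck hck1 i (M := 6 + 384 * H817.CG ^ 2) (by positivity),
    sf_big h (p := 2) (M := 60000000 * s0 ^ 2) two_pos (by have := s0_pos; positivity)] with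
    n h32 hl hs K1 hK1 R h1 h2
  have hR1 : 1 ≤ R := le_trans (Nat.one_le_two_pow) h1
  constructor
  · have h3 := hl R (by rw [← hK1]; exact h2) hR1
    refine (nrm_bD (0 : V (sd i R)) (R • e1)).trans (le_trans ?_ h3)
    have h4 : 0 ≤ Real.log (1 + ((sd i R : ℕ) : ℝ)) :=
      Real.log_nonneg (by have : (0 : ℝ) ≤ ((sd i R : ℕ) : ℝ) := Nat.cast_nonneg _; linarith)
    have h5 : 0 ≤ 384 * H817.CG ^ 2 := by positivity
    nlinarith
  · have H := prm_of hi h32 h1 h2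
    have hen := (gsR_spec H).en
    rw [H529.Dor.grd_nrm]
    refine le_trans hen (le_trans ?_ hs)
    have hR0 : (0 : ℝ) < R := by exact_mod_cast hR1
    have h4 : (((2 ^ (n + 3 * (Nat.log 2 R - n) / 4) : ℕ)) : ℝ) / R ≤ 1 := by
      rw [div_le_one hR0]
      have := H.hlr
      have h5 : 2 ^ (n + 3 * (Nat.log 2 R - n) / 4) ≤ R := by omega
      exact_mod_cast h5
    have h5 : 0 ≤ (((2 ^ (n + 3 * (Nat.log 2 R - n) / 4) : ℕ)) : ℝ) / R := by positivity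
    have h6 : ((((2 ^ (n + 3 * (Nat.log 2 R - n) / 4) : ℕ)) : ℝ) / R) ^ 2 ≤ 1 :=
      pow_le_one₀ h5 h4
    have h7 : 0 ≤ 60000000 * s0 ^ 2 := by positivity
    calc 60000000 * s0 ^ 2 * ((((2 ^ (n + 3 * (Nat.log 2 R - n) / 4) : ℕ)) : ℝ) / R) ^ 2 ≤
          60000000 * s0 ^ 2 * 1 := mul_le_mul_of_nonneg_left h6 h7
      _ = _ := mul_one _

lemma sqrt_tn (n : ℕ) : √(tn n) = ((2 : ℝ) ^ n)⁻¹ := by
  have e : tn n = (((2 : ℝ) ^ n)⁻¹) ^ 2 := by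
    unfold tn
    rw [inv_pow, ← pow_mul, mul_comm n 2, pow_mul]
    norm_num
  rw [e, Real.sqrt_sq (by positivity)]

/-- the size of a cell -/
lemma cell_exp {n s : ℕ} {c0 v Z : ℝ} (hc0 : 0 < c0) (hv : v ≤ (n : ℝ) - s)
    (hZ : 7 * Z ≤ c0 / 16 * Real.log 2 * v) :
    ((2 : ℝ) ^ s * √(tn n)) ^ (c0 / 16) ≤ Real.exp (-(7 * Z)) := by
  have hl : 0 < Real.log 2 := Real.log_pos one_lt_two
  have e1 : (2 : ℝ) ^ s * √(tn n) = Real.exp (-(((n : ℝ) - s) * Real.log 2)) := by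
    rw [sqrt_tn, ← Real.rpow_natCast 2 s, ← Real.rpow_natCast 2 n, ← Real.rpow_neg two_pos.le,
      ← Real.rpow_add two_pos, Real.rpow_def_of_pos two_pos]
    congr 1
    ring
  rw [e1, ← Real.exp_mul]
  refine Real.exp_le_exp.2 ?_
  have h1 : c0 / 16 * Real.log 2 * v ≤ c0 / 16 * Real.log 2 * ((n : ℝ) - s) :=
    mul_le_mul_of_nonneg_left hv (by positivity)
  nlinarith

/-- final numbers -/
lemma door_num {K Y κ M4 G X Z y0 T : ℝ} (hK : 1 ≤ K) (hy0 : 0 < y0) (hy1 : y0 ≤ 1) (hκ : 0 ≤ κ)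
    (hY : Y = y0 ^ (-κ)) (hG : G = y0 ^ (-(2 : ℝ))) (hM0 : 0 ≤ M4) (hM : M4 ≤ T * y0 ^ (-(16 : ℝ)))
    (hX0 : 0 ≤ X) (hX : X ≤ Real.exp (-(7 * Z)))
    (hE : 4 * K * T ^ 4 * y0 ^ (-(2 * κ + 66)) ≤ Real.exp Z) :
    K * ((1 + Y) ^ 2 * G) * M4 ^ 4 * Real.exp (5 * Z) * X ≤ Real.exp (-Z) := by
  have hY1 : 1 ≤ Y := by
    rw [hY]
    exact Real.one_le_rpow_of_pos_of_le_one_of_nonpos hy0 hy1 (by linarith)
  have hG1 : 1 ≤ G := by
    rw [hG]
    exact Real.one_le_rpow_of_pos_of_le_one_of_nonpos hy0 hy1 (by norm_num)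
  have h1 : (1 + Y) ^ 2 ≤ 4 * y0 ^ (-(2 * κ)) := by
    have e1 : y0 ^ (-(2 * κ)) = Y ^ 2 := by
      rw [hY, ← Real.rpow_natCast, ← Real.rpow_mul hy0.le]
      congr 1
      push_cast
      ring
    rw [e1]
    nlinarith
  have h2 : M4 ^ 4 ≤ T ^ 4 * y0 ^ (-(64 : ℝ)) := by
    have e1 : y0 ^ (-(64 : ℝ)) = (y0 ^ (-(16 : ℝ))) ^ 4 := by
      rw [← Real.rpow_natCast, ← Real.rpow_mul hy0.le]
      norm_num
    rw [e1, ← mul_pow]
    exact pow_le_pow_left₀ hM0 hM 4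
  have hp1 := Real.rpow_pos_of_pos hy0 (-(2 * κ))
  have hp2 := Real.rpow_pos_of_pos hy0 (-(64 : ℝ))
  have h3 : K * ((1 + Y) ^ 2 * G) * M4 ^ 4 ≤ Real.exp Z := by
    refine le_trans ?_ hE
    calc K * ((1 + Y) ^ 2 * G) * M4 ^ 4 ≤
          K * ((4 * y0 ^ (-(2 * κ))) * G) * (T ^ 4 * y0 ^ (-(64 : ℝ))) := by gcongr
      _ = 4 * K * T ^ 4 * (y0 ^ (-(2 * κ)) * G * y0 ^ (-(64 : ℝ))) := by ring
      _ = 4 * K * T ^ 4 * y0 ^ (-(2 * κ + 66)) := by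
          rw [hG, ← Real.rpow_add hy0, ← Real.rpow_add hy0]
          congr 2
          ring
  calc K * ((1 + Y) ^ 2 * G) * M4 ^ 4 * Real.exp (5 * Z) * X ≤
        Real.exp Z * Real.exp (5 * Z) * Real.exp (-(7 * Z)) := by gcongr
    _ = Real.exp (-Z) := by
        rw [← Real.exp_add, ← Real.exp_add]
        congr 1
        ring

/-- **DOOR OF A LEVEL** -/
theorem door_sf (hb : 0 < b) (h : SFlow P b σ c c1 q2 qx a y ε xs c' r q A N) (hA : P.Adm)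
    (hσ0 : 0 ≤ σ) (hσ : σ ≤ 1 / 4) {ck : ℝ} (hck : 0 < ck) (hck1 : ck ≤ P.thp) {c3 c5 κ : ℝ}
    (h3 : 0 < c3) (h35 : c3 < c5) (hκ : 0 ≤ κ) {i : ℕ} (hi : 6 ≤ i) :
    ∀ᶠ n in atTop, ∀ K1, K1 = n + P.w (ε n) + kf ck y (n + P.w (ε n)) →
      ∀ R : ℕ, 2 ^ (n + kf ck y n) ≤ R → R ≤ 2 ^ K1 →
      ∀ s : ℕ, y n ^ (-c5) ≤ (n : ℝ) - s →
      ∀ (η : ∀ R, Ed (sd i R) → ℤ) (φ : ∀ R, V (sd i R) → ℝ),
        (∀ e, eF (η R) (φ R) e = bD (0 : V (sd i R)) (R • e1) e) →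
        Del (wTD (sd i R) b) (tn n • (1 : Matrix (V (sd i R)) (V (sd i R)) ℝ)) (tn n) 0 (η R)
          (φ R) - Real.log (CW (wTD (sd i R) b) 0 (η R)) ≤ y n ^ (-κ) →
        DoorP b i η φ (tn n) (2 ^ s) R (gC i n K1 R) (Real.exp (-(5 * y n ^ (-c3))))
          (Real.exp (-(y n ^ (-c3)))) := by
  obtain ⟨K, c0, hK, hc0, hc01, hd⟩ := door_pair hb
  have hl2 : 0 < Real.log 2 := Real.log_pos one_lt_two
  filter_upwards [sf_win h hA hσ0 hσ hck hck1 i, sf_nrg h hA hσ0 hσ hck hck1 hi, h.fl.ev_one,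
    sf_exp h (C := 4 * K * ((4 : ℝ) ^ (i + 4)) ^ 4) (m := 2 * κ + 66) h3,
    sf_big h (p := c5 - c3) (M := 7 / (c0 / 16 * Real.log 2)) (by linarith) (by positivity)] with
    n g1 g2 hy1 g3 g4 K1 hK1 R hR1 hR2 s hs η φ hbD hDel
  have hy := h.fl.y0 n
  obtain ⟨n1, n2⟩ := g2 K1 hK1 R hR1 hR2
  have hM := g1 R (by rw [← hK1]; exact hR2)
  have hsn : s ≤ n := by
    have h1 : 0 < y n ^ (-c5) := Real.rpow_pos_of_pos hy _
    have h2 : (s : ℝ) ≤ n := by linarith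
    exact_mod_cast h2
  have hRn : 2 ^ n ≤ R := le_trans (Nat.pow_le_pow_right (by norm_num) (Nat.le_add_right _ _)) hR1
  have hnc : n ≤ Nat.clog 2 R := by
    have := Nat.clog_mono_right 2 hRn
    rwa [Nat.clog_pow 2 _ one_lt_two] at this
  have hdv : ∀ m, m ≤ n → 2 ^ m ∣ sd i R := fun m hm => by
    unfold sd
    exact Dvd.dvd.mul_left (pow_dvd_pow 2 (hm.trans hnc)) _
  have hsR : 2 ^ n ≤ sd i R := Nat.le_of_dvd (Nat.pos_of_ne_zero (NeZero.ne _)) (hdv n le_rfl)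
  have hN2 : 2 ≤ sd i R := by
    unfold sd
    calc 2 ≤ 2 ^ i := by
          calc 2 = 2 ^ 1 := by norm_num
            _ ≤ 2 ^ i := Nat.pow_le_pow_right (by norm_num) (by omega)
      _ ≤ 2 ^ i * 2 ^ Nat.clog 2 R := Nat.le_mul_of_pos_right _ (by positivity)
  have et : tn n * ((2 : ℝ) ^ n) ^ 2 = 1 := by
    have := tn_mul n 0
    simpa using this
  have ht := tn_pos n
  have hts : tn n * ((2 : ℝ) ^ s) ^ 2 ≤ 1 := by
    rw [← et]
    refine mul_le_mul_of_nonneg_left ?_ ht.le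
    exact pow_le_pow_left₀ (by positivity) (pow_le_pow_right₀ one_lt_two.le hsn) 2
  have ht4 : 1 < tn n * 4 ^ (n + 1) := by
    unfold tn
    rw [pow_succ, ← mul_assoc, inv_mul_cancel₀ (by positivity)]
    norm_num
  have htN : 1 ≤ tn n * ((sd i R : ℕ) : ℝ) ^ 2 := by
    rw [← et]
    refine mul_le_mul_of_nonneg_left ?_ ht.le
    refine pow_le_pow_left₀ (by positivity) ?_ 2
    exact_mod_cast hsR
  have hZ0 : 0 ≤ y n ^ (-c3) := (Real.rpow_pos_of_pos hy _).le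
  have hA0 : 0 ≤ y n ^ (-κ) := (Real.rpow_pos_of_pos hy _).le
  have hG1 : 1 ≤ y n ^ (-(2 : ℝ)) :=
    Real.one_le_rpow_of_pos_of_le_one_of_nonpos hy hy1 (by norm_num)
  have hnb : nrm (fun e => (η R e : ℝ) + gr (φ R) e) ≤ y n ^ (-(2 : ℝ)) := by
    have e : (fun e => (η R e : ℝ) + gr (φ R) e) = bD (0 : V (sd i R)) (R • e1) := by
      funext e
      exact hbD e
    rw [e]
    exact n1
  obtain ⟨G1, m1, p1, d1⟩ := hd (sd i R) s n hN2 (hdv s hsn) (hdv n le_rfl) (tn n) ht hts et.le ht4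
    htN (η R) (φ R) (gC i n K1 R) (y n ^ (-κ)) (y n ^ (-(2 : ℝ))) (y n ^ (-c3)) hZ0 hA0 hG1 hDel hnb
    n2
  refine ⟨G1, m1, p1, fun F hF => (d1 F hF).trans ?_⟩
  have hcell := cell_exp (n := n) (s := s) hc0 hs (Z := y n ^ (-c3)) (by
    have e1 : y n ^ (-c5) = y n ^ (-(c5 - c3)) * y n ^ (-c3) := by
      rw [← Real.rpow_add hy]
      congr 1
      ring
    rw [e1]
    have h5 : 7 ≤ c0 / 16 * Real.log 2 * y n ^ (-(c5 - c3)) := by
      rw [div_le_iff₀ (by positivity)] at g4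
      linarith
    calc 7 * y n ^ (-c3) ≤ c0 / 16 * Real.log 2 * y n ^ (-(c5 - c3)) * y n ^ (-c3) :=
          mul_le_mul_of_nonneg_right h5 hZ0
      _ = _ := by ring)
  exact door_num hK hy hy1 hκ rfl rfl (by linarith) hM
    (Real.rpow_nonneg (by positivity) _) hcell g3

end flow

end

end Vale.Agent.P159.H447
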