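import Vale.Agent.P159.H447.Dn3
import Vale.Agent.P159.H37.Lq5
import Vale.Agent.P159.H816.St2

/-!
P159 (helper447), **DOOR of a level**, part 4: the field `door` of helper37's `pairLv_ev` (`Win` form).

* `sC c5 y n = n - ⌈y_n^(-c5)⌉` : exponent of the side of the cells, `sC_ok`;
* `door_win` : `Win .. fun n R => DoorP ..` from `Win .. fun n R => Del ≤ y^(-κ)`.
-/

set_option linter.unusedSectionVars false

namespace Vale.Agent.P159.H447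

open Finset Matrix MeasureTheory Filter Topology
open Vale.Agent.P159.TM.Spec (V)
open Vale.Agent.P159.TM.SpecC (wT)
open Vale.Agent.P159.H801 (SFlow itw)
open Vale.Agent.P159.H972 (tn lg Par tn_pos tn_mul)
open Vale.Agent.P159.H37.Sf (kf sf_big Kn Win kE1)
open Vale.Agent.P159.H770 (wTD Ed)
open Vale.Agent.P159.H773 (sd)
open Vale.Agent.P159.H856.Dl (CW Del)
open Vale.Agent.P159.H27 (Rb)
open Vale.Agent.P159.H145.Lw (KnW)
open Vale.Agent.P159.H145.Sp (DoorP HF gC AxP)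

noncomputable section

/-- exponent of the side of the cells of the door -/
def sC (c5 : ℝ) (y : ℕ → ℝ) (n : ℕ) : ℕ := n - ⌈y n ^ (-c5)⌉₊

section flow

variable {P : Par} {b σ c c1 q2 qx : ℝ} {a y ε xs : ℕ → ℝ} {c' r q A : ℝ} {N : ℕ}

/-- the cells are admissible -/
lemma sC_ok (h : SFlow P b σ c c1 q2 qx a y ε xs c' r q A N) {c5 : ℝ} (h5 : 0 < c5) (h51 : c5 < 1) :
    ∀ᶠ n in atTop, sC c5 y n ≤ n ∧ ⌈y n ^ (-c5)⌉₊ ≤ n ∧ sC c5 y n + ⌈y n ^ (-c5)⌉₊ = n ∧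
      y n ^ (-c5) ≤ (n : ℝ) - sC c5 y n ∧ (n : ℝ) - sC c5 y n ≤ 2 * y n ^ (-c5) := by
  obtain ⟨K, hK, hKn⟩ := H816.sf_yn1 h
  filter_upwards [hKn, h.fl.ev_pow (b := 1 - c5) (e := 1 / (2 * K)) (by linarith) (by positivity),
    h.fl.ev_one, eventually_ge_atTop 2] with n g1 g2 hy1 hn2
  have hy := h.fl.y0 n
  have h1 : 1 ≤ y n ^ (-c5) := Real.one_le_rpow_of_pos_of_le_one_of_nonpos hy hy1 (by linarith)
  have h2 : y n ^ (-c5) ≤ n / 2 := by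
    have e : y n ^ (-c5) = y n ^ (1 - c5) * (1 / y n) := by
      rw [mul_one_div, eq_div_iff hy.ne', ← Real.rpow_add_one hy.ne']
      congr 1
      ring
    rw [e]
    calc y n ^ (1 - c5) * (1 / y n) ≤ 1 / (2 * K) * (K * n) :=
          mul_le_mul g2 g1 (by positivity) (by positivity)
      _ = n / 2 := by field_simp
  have h3 : (⌈y n ^ (-c5)⌉₊ : ℝ) < y n ^ (-c5) + 1 := Nat.ceil_lt_add_one (by linarith)
  have h4 : ⌈y n ^ (-c5)⌉₊ ≤ n := by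
    have hn2' : (2 : ℝ) ≤ n := by exact_mod_cast hn2
    have : (⌈y n ^ (-c5)⌉₊ : ℝ) ≤ n := by linarith
    exact_mod_cast this
  have h5' : sC c5 y n + ⌈y n ^ (-c5)⌉₊ = n := by
    unfold sC
    omega
  have h6 : (n : ℝ) - sC c5 y n = (⌈y n ^ (-c5)⌉₊ : ℝ) := by
    have : ((sC c5 y n + ⌈y n ^ (-c5)⌉₊ : ℕ) : ℝ) = n := by rw [h5']
    push_cast at this
    linarith
  refine ⟨Nat.sub_le _ _, h4, h5', ?_, ?_⟩
  · rw [h6]
    exact Nat.le_ceil _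
  · rw [h6]
    linarith

/-- **(a) DOOR, the form of 37's `pairLv_ev`** -/
theorem door_win (hb : 0 < b) (h : SFlow P b σ c c1 q2 qx a y ε xs c' r q A N) (hA : P.Adm)
    (hσ0 : 0 ≤ σ) (hσ : σ ≤ 1 / 4) {ck : ℝ} (hck : 0 < ck) (hck1 : ck ≤ P.thp)
    {c3 c5 κ β C2 A0 : ℝ} (h3 : 0 < c3) (h35 : c3 < c5) (hκ : 0 ≤ κ) (hβ : 0 ≤ β) (hC2 : 1 ≤ C2)
    {i Am : ℕ} (hi : 6 ≤ i) (hiA : A0 ≤ 2 ^ i) (hAm : 1 ≤ Am) (c4 : ℝ) {s : ℕ → ℕ}
    (hs : ∀ᶠ n in atTop, y n ^ (-c5) ≤ (n : ℝ) - s n)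
    {η : ∀ R, Ed (sd i R) → ℤ} {φ : ∀ R, V (sd i R) → ℝ} (hax : AxP i η φ)
    (hDel : Win P b β C2 A0 Am i ck a y ε fun n R =>
      Del (wTD (sd i R) b) (tn n • (1 : Matrix (V (sd i R)) (V (sd i R)) ℝ)) (tn n) 0 (η R)
        (φ R) ≤ y n ^ (-κ)) :
    Win P b β C2 A0 Am i ck a y ε fun n R =>
      DoorP b i η φ (tn n) (2 ^ s n) R (gC i n (kE1 P ck y ε n) R) (Real.exp (-(4 * y n ^ (-c3))))
        (y n ^ (1 + c4) / 16) := by
  unfold Win at hDel ⊢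
  filter_upwards [door_lvl hb h hA hσ0 hσ hck hck1 h3 h35 hκ hβ hC2 hi hiA hAm c4, hs, hDel] with
    n g1 g2 g3 n0 j hn R h1 h2 hK
  obtain ⟨κ', slo⟩ := hK.slo
  have hR0 : Rb (kf ck y) (fun n => P.w (ε n)) n0 0 ≤ R := by
    refine (slo.Rb_mono (Nat.zero_le j)).trans ?_
    have e : Rb (kf ck y) (fun n => P.w (ε n)) n0 j = 2 ^ (n + kf ck y n) := by
      unfold Rb
      rw [← hn]
      rfl
    rw [e]
    exact h1
  exact g1 (kE1 P ck y ε n) rfl R h1 h2 n0 j hR0 hK (s n) g2 η φ hax (g3 n0 j hn R h1 h2 hK)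

end flow

end

end Vale.Agent.P159.H447
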