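import Vale.Agent.P159.H114.AE1

/-!
P159 / module MASS, part A (helper447): derivatives in the mass.

`μ` a weight, `S` a symmetric matrix with nonnegative quadratic form, `wM μ (τ • S)` the weight with
the mass form `τ <h, S h> / 2` added.  Derivatives in `τ` (with a source `J₀ + τ J₁`) of
`T, Ex, Cv, Lg, Zs`: joint cumulants with `Xd S J₁ h = <J₁, h> - <h, S h> / 2`.
-/

namespace Vale.Agent.P159.H447

open Finset Matrix
open Vale.Agent.P159.TM.H104 (EM Ex Cv K3 Lg li nh Gr)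
open Vale.Agent.P159.H37
open Vale.Agent.P159.H114 (Ex_sum Gr.co bf_Cm Cv_self_nonneg qf_Cm_nonneg)

noncomputable section

variable {V : Type*} [Fintype V]

/-- nonnegative quadratic form -/
def Nn (S : Matrix V V ℝ) : Prop := ∀ u : V → ℝ, 0 ≤ qf S u

/-- the direction of the derivative -/
def Xd (S : Matrix V V ℝ) (J₁ : V → ℝ) (h : V → ℤ) : ℝ := li J₁ h - qf S (re h) / 2

lemma gr_sum {κ : Type*} (s : Finset κ) {F : κ → (V → ℤ) → ℝ} (hF : ∀ i, Gr (F i)) :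
    Gr fun h => ∑ i ∈ s, F i h := by
  classical
  induction s using Finset.induction_on with
  | empty => simpa using Gr.const (V := V) 0
  | insert i s his ih =>
    simp only [Finset.sum_insert his]
    exact (hF i).add ih

lemma gr_qf (S : Matrix V V ℝ) : Gr fun h : V → ℤ => qf S (re h) := by
  unfold qf re
  refine gr_sum _ fun x => gr_sum _ fun y => ?_
  exact (((Gr.co x).mul (Gr.const (S x y))).mul (Gr.co y))

lemma gr_Xd (S : Matrix V V ℝ) (J₁ : V → ℝ) : Gr (Xd S J₁) := by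
  have h := (Gr.li J₁).sub ((gr_qf S).cmul (1 / 2))
  refine (congrArg Gr ?_).mp h
  funext h
  unfold Xd
  ring

lemma wM_wM (w : (V → ℤ) → ℝ) (M M' : Matrix V V ℝ) : wM (wM w M) M' = wM w (M + M') := by
  funext h
  unfold wM
  rw [qf_add_mat, mul_assoc, ← Real.exp_add]
  congr 2
  ring

lemma qf_smul_mat (c : ℝ) (S : Matrix V V ℝ) (u : V → ℝ) : qf (c • S) u = c * qf S u := by
  unfold qf
  rw [Finset.mul_sum]
  refine Finset.sum_congr rfl fun x _ => ?_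
  rw [Finset.mul_sum]
  refine Finset.sum_congr rfl fun y _ => ?_
  simp only [Matrix.smul_apply, smul_eq_mul]
  ring

/-- the weight decreases with the mass -/
lemma wM_le {μ : (V → ℤ) → ℝ} (h0 : ∀ h, 0 ≤ μ h) {S : Matrix V V ℝ} (hS : Nn S) {a τ : ℝ}
    (h1 : a ≤ τ) (h : V → ℤ) : wM μ (τ • S) h ≤ wM μ (a • S) h := by
  unfold wM
  refine mul_le_mul_of_nonneg_left (Real.exp_le_exp.2 ?_) (h0 h)
  rw [qf_smul_mat, qf_smul_mat]
  have := mul_le_mul_of_nonneg_right h1 (hS (re h))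
  linarith

lemma wM_nonneg {μ : (V → ℤ) → ℝ} (h0 : ∀ h, 0 ≤ μ h) (M : Matrix V V ℝ) (h : V → ℤ) :
    0 ≤ wM μ M h := mul_nonneg (h0 h) (Real.exp_pos _).le

lemma em_up {μ : (V → ℤ) → ℝ} (h0 : ∀ h, 0 ≤ μ h) {S : Matrix V V ℝ} (hS : Nn S) {a τ : ℝ}
    (hE : EM (wM μ (a • S))) (h1 : a ≤ τ) : EM (wM μ (τ • S)) := by
  refine em_of_le hE (wM_nonneg h0 _) (wM_le h0 hS h1) ?_
  obtain ⟨h, hh⟩ := hE.pos
  refine ⟨h, ?_⟩
  unfold wM at hh ⊢
  exact mul_pos (pos_of_mul_pos_left hh (Real.exp_pos _).le) (Real.exp_pos _)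

variable {μ : (V → ℤ) → ℝ} {S : Matrix V V ℝ} {a : ℝ}

/-- **derivative of the tilted sum in the mass (and in a source which moves linearly)** -/
theorem hasDerivAt_T (h0 : ∀ h, 0 ≤ μ h) (hS : Nn S) (hE : EM (wM μ (a • S)))
    {F : (V → ℤ) → ℝ} (hF : Gr F) (J₀ J₁ : V → ℝ) {τ : ℝ} (hτ : a < τ) :
    HasDerivAt (fun τ : ℝ => TM.H104.T (wM μ (τ • S)) (J₀ + τ • J₁) F)
      (TM.H104.T (wM μ (τ • S)) (J₀ + τ • J₁) fun h => F h * Xd S J₁ h) τ := by
  unfold TM.H104.T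
  have hr : 0 < τ - a := sub_pos.2 hτ
  have hz : ∀ z ∈ Metric.ball τ (τ - a), a < z ∧ |z| ≤ |τ| + (τ - a) := by
    intro z hz
    rw [Metric.mem_ball, Real.dist_eq] at hz
    have h1 := abs_sub_abs_le_abs_sub z τ
    have h2 := (abs_lt.1 hz).1
    constructor <;> linarith
  have hb : ∀ z ∈ Metric.ball τ (τ - a), ∀ h : V → ℤ,
      li (J₀ + z • J₁) h ≤ (‖J₀‖ + (|τ| + (τ - a)) * ‖J₁‖) * nh h := by
    intro z hz' h
    refine (le_abs_self _).trans ((TM.H104.abs_li _ h).trans ?_)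
    refine mul_le_mul_of_nonneg_right ((norm_add_le _ _).trans ?_) (TM.H104.nh_nonneg h)
    refine add_le_add le_rfl ?_
    rw [norm_smul]
    refine mul_le_mul_of_nonneg_right ?_ (norm_nonneg _)
    rw [Real.norm_eq_abs]
    exact (hz z hz').2
  refine hasDerivAt_tsum_of_isPreconnected (t := Metric.ball τ (τ - a)) (y₀ := τ)
    (g := fun h z => F h * wM μ (z • S) h * Real.exp (li (J₀ + z • J₁) h))
    (g' := fun h z => F h * Xd S J₁ h * wM μ (z • S) h * Real.exp (li (J₀ + z • J₁) h))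
    (hE.summ' (hF.mul (gr_Xd S J₁)) (‖J₀‖ + (|τ| + (τ - a)) * ‖J₁‖)) Metric.isOpen_ball
    (convex_ball τ _).isPreconnected ?_ ?_ (Metric.mem_ball_self hr)
    ((em_up h0 hS hE hτ.le).summ hF _) (Metric.mem_ball_self hr)
  · intro h z _
    have h1 : HasDerivAt (fun z : ℝ => li (J₀ + z • J₁) h) (li J₁ h) z := by
      have h2 : (fun z : ℝ => li (J₀ + z • J₁) h) = fun z : ℝ => li J₀ h + z * li J₁ h := by
        funext z
        rw [TM.H104.li_add, TM.H104.li_smul]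
      rw [h2]
      simpa using ((hasDerivAt_id z).mul_const (li J₁ h)).const_add (li J₀ h)
    have h2 : HasDerivAt (fun z : ℝ => -(qf (z • S) (re h) / 2)) (-(qf S (re h) / 2)) z := by
      have h3 : (fun z : ℝ => -(qf (z • S) (re h) / 2)) = fun z : ℝ => z * (-(qf S (re h) / 2)) := by
        funext z
        rw [qf_smul_mat]
        ring
      rw [h3]
      simpa using (hasDerivAt_id z).mul_const (-(qf S (re h) / 2))
    have h3 := ((h2.exp.const_mul (μ h)).mul h1.exp).const_mul (F h)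
    have h4 : (fun z : ℝ => F h * wM μ (z • S) h * Real.exp (li (J₀ + z • J₁) h)) =
        fun z : ℝ => F h * (μ h * Real.exp (-(qf (z • S) (re h) / 2)) *
          Real.exp (li (J₀ + z • J₁) h)) := by
      funext z
      unfold wM
      ring
    rw [h4]
    refine h3.congr_deriv ?_
    unfold wM Xd
    ring
  · intro h z hz'
    rw [Real.norm_eq_abs, abs_mul, abs_mul, abs_of_nonneg (wM_nonneg h0 _ h),
      abs_of_pos (Real.exp_pos _)]
    refine mul_le_mul ?_ (Real.exp_le_exp.2 (hb z hz' h)) (Real.exp_pos _).le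
      (mul_nonneg (abs_nonneg _) (wM_nonneg h0 _ h))
    exact mul_le_mul_of_nonneg_left (wM_le h0 hS (hz z hz').1.le h) (abs_nonneg _)

theorem hasDerivAt_Ex (h0 : ∀ h, 0 ≤ μ h) (hS : Nn S) (hE : EM (wM μ (a • S)))
    {F : (V → ℤ) → ℝ} (hF : Gr F) (J₀ J₁ : V → ℝ) {τ : ℝ} (hτ : a < τ) :
    HasDerivAt (fun τ : ℝ => Ex (wM μ (τ • S)) (J₀ + τ • J₁) F)
      (Cv (wM μ (τ • S)) (J₀ + τ • J₁) F (Xd S J₁)) τ := by
  have h1 := hasDerivAt_T h0 hS hE hF J₀ J₁ hτ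
  have h2 := hasDerivAt_T h0 hS hE (Gr.const 1) J₀ J₁ hτ
  have h3 := (TM.H104.T_one_pos (em_up h0 hS hE hτ.le) (J₀ + τ • J₁)).ne'
  refine (h1.div h2 h3).congr_deriv ?_
  unfold Cv Ex
  simp only [one_mul]
  field_simp

theorem hasDerivAt_Cv (h0 : ∀ h, 0 ≤ μ h) (hS : Nn S) (hE : EM (wM μ (a • S)))
    {F G : (V → ℤ) → ℝ} (hF : Gr F) (hG : Gr G) (J₀ J₁ : V → ℝ) {τ : ℝ} (hτ : a < τ) :
    HasDerivAt (fun τ : ℝ => Cv (wM μ (τ • S)) (J₀ + τ • J₁) F G)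
      (K3 (wM μ (τ • S)) (J₀ + τ • J₁) F G (Xd S J₁)) τ := by
  have h1 := hasDerivAt_Ex h0 hS hE (hF.mul hG) J₀ J₁ hτ
  have h2 := hasDerivAt_Ex h0 hS hE hF J₀ J₁ hτ
  have h3 := hasDerivAt_Ex h0 hS hE hG J₀ J₁ hτ
  refine (h1.sub (h2.mul h3)).congr_deriv ?_
  unfold Cv K3
  ring

theorem hasDerivAt_Lg (h0 : ∀ h, 0 ≤ μ h) (hS : Nn S) (hE : EM (wM μ (a • S)))
    (J₀ J₁ : V → ℝ) {τ : ℝ} (hτ : a < τ) :
    HasDerivAt (fun τ : ℝ => Lg (wM μ (τ • S)) (J₀ + τ • J₁))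
      (Ex (wM μ (τ • S)) (J₀ + τ • J₁) (Xd S J₁)) τ := by
  have h2 := hasDerivAt_T h0 hS hE (Gr.const 1) J₀ J₁ hτ
  have h3 := (TM.H104.T_one_pos (em_up h0 hS hE hτ.le) (J₀ + τ • J₁)).ne'
  refine (h2.log h3).congr_deriv ?_
  unfold Ex
  simp only [one_mul]

/-- fixed source -/
theorem hasDerivAt_Ex' (h0 : ∀ h, 0 ≤ μ h) (hS : Nn S) (hE : EM (wM μ (a • S)))
    {F : (V → ℤ) → ℝ} (hF : Gr F) (J : V → ℝ) {τ : ℝ} (hτ : a < τ) :
    HasDerivAt (fun τ : ℝ => Ex (wM μ (τ • S)) J F)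
      (-(1 / 2) * Cv (wM μ (τ • S)) J F (fun h => qf S (re h))) τ := by
  have h1 := hasDerivAt_Ex h0 hS hE hF J 0 hτ
  simp only [smul_zero, add_zero] at h1
  refine h1.congr_deriv ?_
  have e1 : Xd S 0 = fun h : V → ℤ => -(1 / 2) * qf S (re h) := by
    funext h
    unfold Xd
    rw [TM.H104.li_zero]
    ring
  have e2 : (fun h : V → ℤ => F h * (-(1 / 2) * qf S (re h))) =
      fun h => -(1 / 2) * (F h * qf S (re h)) := by
    funext h
    ring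
  rw [e1]
  unfold Cv
  rw [e2, TM.H104.Ex_cmul, TM.H104.Ex_cmul]
  ring

theorem hasDerivAt_Cv' (h0 : ∀ h, 0 ≤ μ h) (hS : Nn S) (hE : EM (wM μ (a • S)))
    {F G : (V → ℤ) → ℝ} (hF : Gr F) (hG : Gr G) (J : V → ℝ) {τ : ℝ} (hτ : a < τ) :
    HasDerivAt (fun τ : ℝ => Cv (wM μ (τ • S)) J F G)
      (-(1 / 2) * K3 (wM μ (τ • S)) J F G (fun h => qf S (re h))) τ := by
  have h1 := hasDerivAt_Ex' h0 hS hE (hF.mul hG) J hτ
  have h2 := hasDerivAt_Ex' h0 hS hE hF J hτ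
  have h3 := hasDerivAt_Ex' h0 hS hE hG J hτ
  refine (h1.sub (h2.mul h3)).congr_deriv ?_
  unfold Cv K3
  ring

theorem hasDerivAt_Lg' (h0 : ∀ h, 0 ≤ μ h) (hS : Nn S) (hE : EM (wM μ (a • S)))
    (J : V → ℝ) {τ : ℝ} (hτ : a < τ) :
    HasDerivAt (fun τ : ℝ => Lg (wM μ (τ • S)) J)
      (-(1 / 2) * Ex (wM μ (τ • S)) J (fun h => qf S (re h))) τ := by
  have h1 := hasDerivAt_Lg h0 hS hE J 0 hτ
  simp only [smul_zero, add_zero] at h1
  refine h1.congr_deriv ?_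
  have e1 : Xd S 0 = fun h : V → ℤ => -(1 / 2) * qf S (re h) := by
    funext h
    unfold Xd
    rw [TM.H104.li_zero]
    ring
  rw [e1, TM.H104.Ex_cmul]

end

end Vale.Agent.P159.H447
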