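import Vale.Agent.P159.H447.MassA
import Vale.Agent.P159.H114.Lmmse

/-!
P159 / module MASS, part B (helper447): the fourth cumulant as a bilinear form on matrices, the
mass derivative of the covariance.
-/

namespace Vale.Agent.P159.H447

open Finset Matrix
open Vale.Agent.P159.TM.H104 (EM Ex Cv K3 Lg li nh Gr)
open Vale.Agent.P159.H37
open Vale.Agent.P159.H114 (Ex_sum Gr.co bf_Cm Cv_self_nonneg qf_Cm_nonneg Ex_li_zero Gm_transpose)

noncomputable section

variable {V : Type*} [Fintype V] {μ : (V → ℤ) → ℝ}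

/-- fourth cumulant against two matrices -/
def K4S (μ : (V → ℤ) → ℝ) (A B : Matrix V V ℝ) : ℝ :=
  Ex μ 0 (fun h => qf A (re h) * qf B (re h))
    - Ex μ 0 (fun h => qf A (re h)) * Ex μ 0 (fun h => qf B (re h))
    - ∑ x, ∑ y, ∑ z, ∑ w, A x y * B z w * (Gm μ x z * Gm μ y w + Gm μ x w * Gm μ y z)

lemma K4S_comm (μ : (V → ℤ) → ℝ) (A B : Matrix V V ℝ) : K4S μ A B = K4S μ B A := by
  have h1 : ∀ x y, Gm μ x y = Gm μ y x := fun x y => by
    have := congrFun (congrFun (Gm_transpose μ) y) x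
    simpa [Matrix.transpose_apply] using this
  unfold K4S
  congr 1
  · rw [mul_comm (Ex μ 0 fun h => qf A (re h))]
    simp only [mul_comm (qf A _)]
  · have e1 : ∑ x, ∑ y, ∑ z, ∑ w, A x y * B z w * (Gm μ x z * Gm μ y w + Gm μ x w * Gm μ y z) =
        ∑ z, ∑ w, ∑ x, ∑ y, A x y * B z w * (Gm μ x z * Gm μ y w + Gm μ x w * Gm μ y z) := by
      have e2 : ∀ f : V → V → V → V → ℝ, ∑ x, ∑ y, ∑ z, ∑ w, f x y z w =
          ∑ z, ∑ w, ∑ x, ∑ y, f x y z w := by
        intro f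
        have e3 := Finset.sum_comm (s := (Finset.univ : Finset (V × V)))
          (t := (Finset.univ : Finset (V × V))) (f := fun p q => f p.1 p.2 q.1 q.2)
        simpa only [Fintype.sum_prod_type] using e3
      exact e2 _
    rw [e1]
    refine Finset.sum_congr rfl fun x _ => Finset.sum_congr rfl fun y _ => Finset.sum_congr rfl
      fun z _ => Finset.sum_congr rfl fun w _ => ?_
    rw [h1 z x, h1 w y, h1 z y, h1 w x]
    ring

lemma K4S_add_left (hμ : EM μ) (A A' B : Matrix V V ℝ) :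
    K4S μ (A + A') B = K4S μ A B + K4S μ A' B := by
  unfold K4S
  simp only [qf_add_mat, add_mul, Matrix.add_apply]
  rw [TM.H104.Ex_add hμ ((gr_qf A).mul (gr_qf B)) ((gr_qf A').mul (gr_qf B)),
    TM.H104.Ex_add hμ (gr_qf A) (gr_qf A')]
  simp only [Finset.sum_add_distrib]
  ring

lemma K4S_smul_left (μ : (V → ℤ) → ℝ) (c : ℝ) (A B : Matrix V V ℝ) :
    K4S μ (c • A) B = c * K4S μ A B := by
  unfold K4S
  simp only [qf_smul_mat, mul_assoc, Matrix.smul_apply, smul_eq_mul]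
  rw [TM.H104.Ex_cmul, TM.H104.Ex_cmul]
  simp only [← Finset.mul_sum]
  ring

lemma K4S_zero_left (μ : (V → ℤ) → ℝ) (B : Matrix V V ℝ) : K4S μ 0 B = 0 := by
  have h := K4S_smul_left μ 0 0 B
  simpa using h

lemma K4S_sum_left {κ : Type*} (hμ : EM μ) (s : Finset κ) (A : κ → Matrix V V ℝ)
    (B : Matrix V V ℝ) : K4S μ (∑ i ∈ s, A i) B = ∑ i ∈ s, K4S μ (A i) B := by
  classical
  induction s using Finset.induction_on with
  | empty => simpa using K4S_zero_left μ B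
  | insert i s his ih => rw [Finset.sum_insert his, Finset.sum_insert his, K4S_add_left hμ, ih]

lemma K4S_add_right (hμ : EM μ) (A B B' : Matrix V V ℝ) :
    K4S μ A (B + B') = K4S μ A B + K4S μ A B' := by
  rw [K4S_comm, K4S_add_left hμ, K4S_comm, K4S_comm μ B' A]

lemma K4S_smul_right (μ : (V → ℤ) → ℝ) (c : ℝ) (A B : Matrix V V ℝ) :
    K4S μ A (c • B) = c * K4S μ A B := by
  rw [K4S_comm, K4S_smul_left, K4S_comm]

lemma K4S_sub_left (hμ : EM μ) (A A' B : Matrix V V ℝ) :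
    K4S μ (A - A') B = K4S μ A B - K4S μ A' B := by
  have h : A - A' = A + (-1 : ℝ) • A' := by
    rw [neg_one_smul, sub_eq_add_neg]
  rw [h, K4S_add_left hμ, K4S_smul_left]
  ring

lemma K4S_sub_right (hμ : EM μ) (A B B' : Matrix V V ℝ) :
    K4S μ A (B - B') = K4S μ A B - K4S μ A B' := by
  rw [K4S_comm, K4S_sub_left hμ, K4S_comm, K4S_comm μ B' A]

lemma K4S_sum_right {κ : Type*} (hμ : EM μ) (s : Finset κ) (A : Matrix V V ℝ)
    (B : κ → Matrix V V ℝ) : K4S μ A (∑ i ∈ s, B i) = ∑ i ∈ s, K4S μ A (B i) := by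
  rw [K4S_comm, K4S_sum_left hμ]
  exact Finset.sum_congr rfl fun i _ => K4S_comm _ _ _

/-! ### rank one matrices -/

lemma qf_rank (a b : V → ℝ) (h : V → ℤ) : qf (vecMulVec a b) (re h) = li a h * li b h := by
  unfold qf TM.H104.li re
  rw [Finset.sum_mul_sum]
  refine Finset.sum_congr rfl fun x _ => Finset.sum_congr rfl fun y _ => ?_
  rw [vecMulVec_apply]
  ring

lemma bf_Gm (hμ : EM μ) (he : Ev μ) (a b : V → ℝ) :
    bf (Gm μ) a b = Ex μ 0 fun h => li a h * li b h := by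
  have h := bf_Cm hμ 0 a b
  unfold Cv at h
  rw [Ex_li_zero he, zero_mul, sub_zero] at h
  exact h

/-- the Gaussian part for a rank one matrix -/
lemma gpart_rank (μ : (V → ℤ) → ℝ) (u v : V → ℝ) (B : Matrix V V ℝ) :
    ∑ x, ∑ y, ∑ z, ∑ w, vecMulVec u v x y * B z w * (Gm μ x z * Gm μ y w + Gm μ x w * Gm μ y z) =
      ∑ z, ∑ w, B z w * ((∑ x, u x * Gm μ x z) * (∑ y, v y * Gm μ y w) +
        (∑ x, u x * Gm μ x w) * ∑ y, v y * Gm μ y z) := by
  have e2 : ∀ f : V → V → V → V → ℝ, ∑ x, ∑ y, ∑ z, ∑ w, f x y z w =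
      ∑ z, ∑ w, ∑ x, ∑ y, f x y z w := by
    intro f
    have e3 := Finset.sum_comm (s := (Finset.univ : Finset (V × V)))
      (t := (Finset.univ : Finset (V × V))) (f := fun p q => f p.1 p.2 q.1 q.2)
    simpa only [Fintype.sum_prod_type] using e3
  rw [e2]
  refine Finset.sum_congr rfl fun z _ => Finset.sum_congr rfl fun w _ => ?_
  rw [Finset.sum_mul_sum, Finset.sum_mul_sum, ← Finset.sum_add_distrib, Finset.mul_sum]
  refine Finset.sum_congr rfl fun x _ => ?_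
  rw [← Finset.sum_add_distrib, Finset.mul_sum]
  refine Finset.sum_congr rfl fun y _ => ?_
  rw [vecMulVec_apply]
  ring

lemma K4S_rank (hμ : EM μ) (he : Ev μ) (a b c d : V → ℝ) :
    K4S μ (vecMulVec a b) (vecMulVec c d) = K4 μ a b c d := by
  have h1 : ∀ p q : V → ℝ, ∑ z, (∑ x, p x * Gm μ x z) * q z = bf (Gm μ) p q := by
    intro p q
    unfold bf
    rw [Finset.sum_comm]
    refine Finset.sum_congr rfl fun z _ => ?_
    rw [Finset.sum_mul]
  have h2 : ∑ z, ∑ w, vecMulVec c d z w * ((∑ x, a x * Gm μ x z) * (∑ y, b y * Gm μ y w) +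
        (∑ x, a x * Gm μ x w) * ∑ y, b y * Gm μ y z) =
      bf (Gm μ) a c * bf (Gm μ) b d + bf (Gm μ) a d * bf (Gm μ) b c := by
    rw [← h1 a c, ← h1 b d, ← h1 a d, ← h1 b c, Finset.sum_mul_sum, Finset.sum_mul_sum]
    have e1 : ∑ i, ∑ j, (∑ x, a x * Gm μ x i) * d i * ((∑ x, b x * Gm μ x j) * c j) =
        ∑ j, ∑ i, (∑ x, a x * Gm μ x i) * d i * ((∑ x, b x * Gm μ x j) * c j) :=
      Finset.sum_comm
    rw [e1, ← Finset.sum_add_distrib]
    refine Finset.sum_congr rfl fun z _ => ?_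
    rw [← Finset.sum_add_distrib]
    refine Finset.sum_congr rfl fun w _ => ?_
    rw [vecMulVec_apply]
    ring
  unfold K4S K4
  rw [gpart_rank, h2]
  simp only [qf_rank, ← mul_assoc]
  rw [bf_Gm hμ he, bf_Gm hμ he, bf_Gm hμ he, bf_Gm hμ he]
  ring

lemma gram_eq {I : Type*} [Fintype I] (P : Matrix I V ℝ) :
    Pᵀ * P = ∑ i, vecMulVec (P i) (P i) := by
  ext x y
  rw [Matrix.mul_apply, Matrix.sum_apply]
  refine Finset.sum_congr rfl fun i _ => ?_
  rw [vecMulVec_apply, Matrix.transpose_apply]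

/-- fourth cumulant against two Gram matrices -/
lemma K4S_gram {I I' : Type*} [Fintype I] [Fintype I'] (hμ : EM μ) (he : Ev μ)
    (P : Matrix I V ℝ) (Q : Matrix I' V ℝ) :
    K4S μ (Pᵀ * P) (Qᵀ * Q) = ∑ i, ∑ j, K4 μ (P i) (P i) (Q j) (Q j) := by
  rw [gram_eq, gram_eq, K4S_sum_left hμ]
  refine Finset.sum_congr rfl fun i _ => ?_
  rw [K4S_sum_right hμ]
  exact Finset.sum_congr rfl fun j _ => K4S_rank hμ he _ _ _ _

/-- the Gaussian part, symmetric matrix -/
lemma gpart_symm (μ : (V → ℤ) → ℝ) (u v : V → ℝ) {B : Matrix V V ℝ} (hB : Bᵀ = B) :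
    ∑ x, ∑ y, ∑ z, ∑ w, vecMulVec u v x y * B z w * (Gm μ x z * Gm μ y w + Gm μ x w * Gm μ y z) =
      2 * bf (Gm μ * B * Gm μ) u v := by
  have hG : ∀ x y, Gm μ x y = Gm μ y x := fun x y => by
    have := congrFun (congrFun (Gm_transpose μ) y) x
    simpa [Matrix.transpose_apply] using this
  have hBs : ∀ x y, B x y = B y x := fun x y => by
    have := congrFun (congrFun hB y) x
    simpa [Matrix.transpose_apply] using this
  rw [gpart_rank]
  have e1 : bf (Gm μ * B * Gm μ) u v =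
      ∑ z, ∑ w, B z w * ((∑ x, u x * Gm μ x z) * (∑ y, v y * Gm μ y w)) := by
    unfold bf
    have e3 : ∀ x y, u x * (Gm μ * B * Gm μ) x y * v y =
        ∑ z, ∑ w, B z w * ((u x * Gm μ x z) * (v y * Gm μ y w)) := by
      intro x y
      rw [Matrix.mul_apply, Finset.mul_sum, Finset.sum_mul, Finset.sum_comm]
      refine Finset.sum_congr rfl fun w _ => ?_
      rw [Matrix.mul_apply, Finset.sum_mul, Finset.mul_sum, Finset.sum_mul]
      refine Finset.sum_congr rfl fun z _ => ?_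
      rw [hG w y]
      ring
    have e2 : ∀ f : V → V → V → V → ℝ, ∑ x, ∑ y, ∑ z, ∑ w, f x y z w =
        ∑ z, ∑ w, ∑ x, ∑ y, f x y z w := by
      intro f
      have e3 := Finset.sum_comm (s := (Finset.univ : Finset (V × V)))
        (t := (Finset.univ : Finset (V × V))) (f := fun p q => f p.1 p.2 q.1 q.2)
      simpa only [Fintype.sum_prod_type] using e3
    simp only [e3]
    rw [e2]
    refine Finset.sum_congr rfl fun z _ => Finset.sum_congr rfl fun w _ => ?_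
    rw [Finset.sum_mul_sum, Finset.mul_sum]
    refine Finset.sum_congr rfl fun x _ => ?_
    rw [Finset.mul_sum]
  have e4 : ∑ z, ∑ w, B z w * ((∑ x, u x * Gm μ x w) * ∑ y, v y * Gm μ y z) =
      ∑ z, ∑ w, B z w * ((∑ x, u x * Gm μ x z) * (∑ y, v y * Gm μ y w)) := by
    rw [Finset.sum_comm]
    refine Finset.sum_congr rfl fun z _ => Finset.sum_congr rfl fun w _ => ?_
    rw [hBs]
  simp only [mul_add, Finset.sum_add_distrib]
  rw [e4, ← e1]
  ring

lemma ev_wM' (he : Ev μ) (M : Matrix V V ℝ) : Ev (wM μ M) := ev_wM he M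

variable {S : Matrix V V ℝ} {a : ℝ}

/-- **derivative of the covariance in the mass.** -/
theorem hasDerivAt_Gm (h0 : ∀ h, 0 ≤ μ h) (he : Ev μ) (hS : Nn S) (hSs : Sᵀ = S)
    (hE : EM (wM μ (a • S))) (u v : V → ℝ) {τ : ℝ} (hτ : a < τ) :
    HasDerivAt (fun τ : ℝ => bf (Gm (wM μ (τ • S))) u v)
      (-(1 / 2) * K4S (wM μ (τ • S)) (vecMulVec u v) S
        - bf (Gm (wM μ (τ • S)) * S * Gm (wM μ (τ • S))) u v) τ := by
  have h1 := hasDerivAt_Cv' h0 hS hE (Gr.li u) (Gr.li v) (0 : V → ℝ) hτ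
  have hE' := em_up h0 hS hE hτ.le
  have he' : Ev (wM μ (τ • S)) := ev_wM he _
  have e1 : (fun τ : ℝ => bf (Gm (wM μ (τ • S))) u v) =ᶠ[nhds τ]
      fun τ : ℝ => Cv (wM μ (τ • S)) 0 (li u) (li v) := by
    filter_upwards [lt_mem_nhds hτ] with z hz
    exact bf_Cm (em_up h0 hS hE hz.le) 0 u v
  refine (h1.congr_of_eventuallyEq e1).congr_deriv ?_
  unfold K4S K3
  rw [gpart_symm _ u v hSs, Ex_li_zero he', Ex_li_zero he']
  simp only [qf_rank]
  ring

end

end Vale.Agent.P159.H447
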