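import Vale.Agent.P159.H447.MassB
import Vale.Agent.P159.H789.Bridge

/-!
P159 / module MASS, part C (helper447): the self energy as a function of the mass.

`C : Matrix I V ℝ` observation matrix, `S = Cᵀ C`, `Gc C μ = C (Gm μ) Cᵀ`; along the weights
`wM μ (τ • S)` the self energy `(Gc C)⁻¹ - τ` has the derivative `(Gc C)⁻¹ K4c (Gc C)⁻¹ / 2`,
`K4c` the fourth cumulant.  Monotonicity and the mean value form (averaging over masses).
-/

namespace Vale.Agent.P159.H447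

open Finset Matrix Filter Topology
open Vale.Agent.P159.TM.H104 (EM Ex Cv K3 Lg li nh Gr)
open Vale.Agent.P159.H37
open Vale.Agent.P159.H114 (Ex_sum Gr.co bf_Cm Cv_self_nonneg qf_Cm_nonneg Ex_li_zero Gm_transpose
  bf_mul_right bf_mul_left)

noncomputable section

/-! ### entrywise derivatives of matrices -/

section HDM

variable {I : Type*} [Fintype I] [DecidableEq I]

/-- entrywise derivative -/
def HDM (A : ℝ → Matrix I I ℝ) (A' : Matrix I I ℝ) (τ : ℝ) : Prop :=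
  ∀ i j, HasDerivAt (fun s => A s i j) (A' i j) τ

variable {A : ℝ → Matrix I I ℝ} {A' : Matrix I I ℝ} {τ : ℝ}

omit [Fintype I] [DecidableEq I] in
lemma HDM.cont (h : HDM A A' τ) : ContinuousAt A τ :=
  continuousAt_pi.2 fun i => continuousAt_pi.2 fun j => (h i j).continuousAt

lemma HDM.inv (h : HDM A A' τ) (hd : IsUnit (A τ).det) :
    HDM (fun s => (A s)⁻¹) (-((A τ)⁻¹ * A' * (A τ)⁻¹)) τ := by
  have hc := h.cont
  have hd0 : (A τ).det ≠ 0 := hd.ne_zero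
  have hdc : ContinuousAt (fun s => (A s).det) τ :=
    (Continuous.matrix_det continuous_id).continuousAt.comp hc
  have hev : ∀ᶠ s in 𝓝 τ, IsUnit (A s).det := by
    filter_upwards [hdc.eventually_ne hd0] with s hs
    exact isUnit_iff_ne_zero.2 hs
  have hinv : Tendsto (fun s => (A s)⁻¹) (𝓝 τ) (𝓝 (A τ)⁻¹) := by
    have h1 : ContinuousAt (Inv.inv : Matrix I I ℝ → Matrix I I ℝ) (A τ) := by
      refine continuousAt_matrix_inv _ ?_
      rw [Ring.inverse_eq_inv']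
      exact continuousAt_inv₀ hd0
    exact h1.tendsto.comp hc.tendsto
  have hsl : Tendsto (fun s => (s - τ)⁻¹ • (A s - A τ)) (𝓝[≠] τ) (𝓝 A') := by
    refine tendsto_pi_nhds.2 fun i => tendsto_pi_nhds.2 fun j => ?_
    have h1 := hasDerivAt_iff_tendsto_slope.1 (h i j)
    refine h1.congr fun s => ?_
    simp [slope_def_field, Matrix.sub_apply, Matrix.smul_apply, div_eq_inv_mul]
  have hm : Tendsto (fun s => -((A s)⁻¹ * ((s - τ)⁻¹ • (A s - A τ)) * (A τ)⁻¹)) (𝓝[≠] τ)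
      (𝓝 (-((A τ)⁻¹ * A' * (A τ)⁻¹))) :=
    (((hinv.mono_left nhdsWithin_le_nhds).mul hsl).mul tendsto_const_nhds).neg
  intro i j
  refine hasDerivAt_iff_tendsto_slope.2 ?_
  have hij := (tendsto_pi_nhds.1 (tendsto_pi_nhds.1 hm i)) j
  refine hij.congr' ?_
  filter_upwards [hev.filter_mono nhdsWithin_le_nhds, self_mem_nhdsWithin] with s hs hne
  have hsub : (A s)⁻¹ - (A τ)⁻¹ = (A s)⁻¹ * (A τ - A s) * (A τ)⁻¹ :=
    Matrix.inv_sub_inv ⟨fun _ => (Matrix.isUnit_iff_isUnit_det _).2 hd,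
      fun _ => (Matrix.isUnit_iff_isUnit_det _).2 hs⟩
  have h2 : -((A s)⁻¹ * ((s - τ)⁻¹ • (A s - A τ)) * (A τ)⁻¹) =
      (s - τ)⁻¹ • ((A s)⁻¹ - (A τ)⁻¹) := by
    rw [hsub, Matrix.mul_smul, Matrix.smul_mul, ← smul_neg]
    congr 1
    rw [← Matrix.neg_mul, ← Matrix.mul_neg, neg_sub]
  rw [h2]
  simp [slope_def_field, Matrix.sub_apply, Matrix.smul_apply, div_eq_inv_mul]

/-- the self energy: if `A' = - K / 2 - A Q A` then `(A⁻¹ - τ Q)' = A⁻¹ K A⁻¹ / 2` -/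
lemma HDM.self {K Q : Matrix I I ℝ} (h : HDM A (-(1 / 2 : ℝ) • K - A τ * Q * A τ) τ)
    (hd : IsUnit (A τ).det) :
    HDM (fun s => (A s)⁻¹ - s • Q) ((1 / 2 : ℝ) • ((A τ)⁻¹ * K * (A τ)⁻¹)) τ := by
  have h1 := h.inv hd
  have h2 : -((A τ)⁻¹ * (-(1 / 2 : ℝ) • K - A τ * Q * A τ) * (A τ)⁻¹) =
      (1 / 2 : ℝ) • ((A τ)⁻¹ * K * (A τ)⁻¹) + Q := by
    have e1 : (A τ)⁻¹ * (A τ * Q * A τ) * (A τ)⁻¹ = Q := by
      rw [Matrix.mul_assoc (A τ) Q, ← Matrix.mul_assoc (A τ)⁻¹, Matrix.nonsing_inv_mul _ hd,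
        Matrix.one_mul, Matrix.mul_assoc, Matrix.mul_nonsing_inv _ hd, Matrix.mul_one]
    rw [Matrix.mul_sub, Matrix.sub_mul, e1, Matrix.mul_smul, Matrix.smul_mul, neg_sub, neg_smul,
      sub_neg_eq_add, add_comm]
  rw [h2] at h1
  intro i j
  have h3 : HasDerivAt (fun s : ℝ => (s • Q) i j) (Q i j) τ := by
    simpa using (hasDerivAt_id τ).mul_const (Q i j)
  have h4 := (h1 i j).sub h3
  refine h4.congr_deriv ?_
  simp [Matrix.add_apply, Matrix.smul_apply]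

omit [DecidableEq I] in
lemma HDM.bf (h : HDM A A' τ) (u v : I → ℝ) :
    HasDerivAt (fun s => H37.bf (A s) u v) (H37.bf A' u v) τ := by
  unfold H37.bf
  refine HasDerivAt.fun_sum fun i _ => HasDerivAt.fun_sum fun j _ => ?_
  exact ((h i j).const_mul (u i)).mul_const (v j)

omit [DecidableEq I] in
lemma HDM.qf (h : HDM A A' τ) (u : I → ℝ) :
    HasDerivAt (fun s => H37.qf (A s) u) (H37.qf A' u) τ := h.bf u u

end HDM

variable {V : Type*} [Fintype V] {I : Type*} [Fintype I]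

/-! ### covariance of the observed field -/

/-- covariance matrix of the observed field `C h` -/
def Gc (C : Matrix I V ℝ) (μ : (V → ℤ) → ℝ) : Matrix I I ℝ := C * Gm μ * Cᵀ

/-- fourth cumulant of the observed field against `S` -/
def K4c (C : Matrix I V ℝ) (S : Matrix V V ℝ) (μ : (V → ℤ) → ℝ) : Matrix I I ℝ :=
  Matrix.of fun i j => K4S μ (vecMulVec (C i) (C j)) S

omit [Fintype I] in
lemma bf_rows (C : Matrix I V ℝ) (M : Matrix V V ℝ) (i j : I) :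
    bf M (C i) (C j) = (C * M * Cᵀ) i j := by
  unfold bf
  rw [Matrix.mul_apply]
  simp only [Matrix.mul_apply, Matrix.transpose_apply, Finset.sum_mul]
  rw [Finset.sum_comm]

lemma bf_Gc (C : Matrix I V ℝ) (μ : (V → ℤ) → ℝ) (u v : I → ℝ) :
    bf (Gc C μ) u v = bf (Gm μ) (Cᵀ *ᵥ u) (Cᵀ *ᵥ v) := by
  rw [bf_eq, bf_eq, Gc, ← Matrix.mulVec_mulVec, ← Matrix.mulVec_mulVec, Matrix.dotProduct_mulVec]
  simp only [Matrix.mulVec_transpose]

lemma Gc_transpose (C : Matrix I V ℝ) (μ : (V → ℤ) → ℝ) : (Gc C μ)ᵀ = Gc C μ := by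
  unfold Gc
  rw [Matrix.transpose_mul, Matrix.transpose_mul, Matrix.transpose_transpose, Gm_transpose,
    Matrix.mul_assoc]

variable {μ : (V → ℤ) → ℝ} {a : ℝ}

lemma K4c_bf (hμ : EM μ) (C : Matrix I V ℝ) (S : Matrix V V ℝ) (u v : I → ℝ) :
    bf (K4c C S μ) u v = K4S μ (vecMulVec (Cᵀ *ᵥ u) (Cᵀ *ᵥ v)) S := by
  have h1 : vecMulVec (Cᵀ *ᵥ u) (Cᵀ *ᵥ v) =
      ∑ i, ∑ j, (u i * v j) • vecMulVec (C i) (C j) := by
    ext x y
    simp only [vecMulVec_apply, Matrix.mulVec, dotProduct, Matrix.transpose_apply,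
      Matrix.sum_apply, Matrix.smul_apply, smul_eq_mul]
    rw [Finset.sum_mul_sum]
    refine Finset.sum_congr rfl fun i _ => Finset.sum_congr rfl fun j _ => by ring
  rw [h1, K4S_sum_left hμ]
  unfold bf K4c
  refine Finset.sum_congr rfl fun i _ => ?_
  rw [K4S_sum_left hμ]
  refine Finset.sum_congr rfl fun j _ => ?_
  rw [K4S_smul_left, Matrix.of_apply]
  ring

lemma nn_gram (C : Matrix I V ℝ) : Nn (Cᵀ * C) := fun u => by
  rw [qf_gram]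
  exact Finset.sum_nonneg fun i _ => sq_nonneg _

lemma gram_symm (C : Matrix I V ℝ) : (Cᵀ * C)ᵀ = Cᵀ * C := by
  rw [Matrix.transpose_mul, Matrix.transpose_transpose]

/-- **derivative of the covariance of the observed field**, any mass direction `S` -/
theorem hdm_Gc (C : Matrix I V ℝ) {S : Matrix V V ℝ} (h0 : ∀ h, 0 ≤ μ h) (he : Ev μ) (hS : Nn S)
    (hSs : Sᵀ = S) (hE : EM (wM μ (a • S))) {τ : ℝ} (hτ : a < τ) :
    HDM (fun τ => Gc C (wM μ (τ • S))) (-(1 / 2 : ℝ) • K4c C S (wM μ (τ • S)) -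
      C * (Gm (wM μ (τ • S)) * S * Gm (wM μ (τ • S))) * Cᵀ) τ := by
  intro i j
  have h1 := hasDerivAt_Gm h0 he hS hSs hE (C i) (C j) hτ
  have e1 : (fun τ : ℝ => bf (Gm (wM μ (τ • S))) (C i) (C j)) =
      fun τ => Gc C (wM μ (τ • S)) i j := by
    funext τ
    rw [bf_rows]
    rfl
  rw [e1] at h1
  refine h1.congr_deriv ?_
  rw [bf_rows, Matrix.sub_apply, Matrix.smul_apply, smul_eq_mul]
  rfl

/-- direction `S = Cᵀ C` -/
theorem hdm_Gc' (C : Matrix I V ℝ) (h0 : ∀ h, 0 ≤ μ h) (he : Ev μ)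
    (hE : EM (wM μ (a • (Cᵀ * C)))) {τ : ℝ} (hτ : a < τ) :
    HDM (fun τ => Gc C (wM μ (τ • (Cᵀ * C))))
      (-(1 / 2 : ℝ) • K4c C (Cᵀ * C) (wM μ (τ • (Cᵀ * C))) -
        Gc C (wM μ (τ • (Cᵀ * C))) * Gc C (wM μ (τ • (Cᵀ * C)))) τ := by
  have h := hdm_Gc C h0 he (nn_gram C) (gram_symm C) hE hτ
  have e1 : ∀ G : Matrix V V ℝ, C * (G * (Cᵀ * C) * G) * Cᵀ = C * G * Cᵀ * (C * G * Cᵀ) := by
    intro G
    simp only [Matrix.mul_assoc]
  rw [e1] at h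
  exact h

variable [DecidableEq I]

/-- self energy of the observed field at the mass parameter `τ` -/
def PiC (C : Matrix I V ℝ) (μ : (V → ℤ) → ℝ) (τ : ℝ) : Matrix I I ℝ :=
  (Gc C (wM μ (τ • (Cᵀ * C))))⁻¹ - τ • (1 : Matrix I I ℝ)

/-- **derivative of the self energy in the mass = fourth cumulant** -/
theorem hdm_PiC (C : Matrix I V ℝ) (h0 : ∀ h, 0 ≤ μ h) (he : Ev μ)
    (hE : EM (wM μ (a • (Cᵀ * C)))) {τ : ℝ} (hτ : a < τ)
    (hd : IsUnit (Gc C (wM μ (τ • (Cᵀ * C)))).det) :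
    HDM (PiC C μ) ((1 / 2 : ℝ) • ((Gc C (wM μ (τ • (Cᵀ * C))))⁻¹ *
      K4c C (Cᵀ * C) (wM μ (τ • (Cᵀ * C))) * (Gc C (wM μ (τ • (Cᵀ * C))))⁻¹)) τ := by
  have h := hdm_Gc' C h0 he hE hτ
  have h2 : HDM (fun τ => Gc C (wM μ (τ • (Cᵀ * C))))
      (-(1 / 2 : ℝ) • K4c C (Cᵀ * C) (wM μ (τ • (Cᵀ * C))) -
        Gc C (wM μ (τ • (Cᵀ * C))) * 1 * Gc C (wM μ (τ • (Cᵀ * C)))) τ := by
    rw [Matrix.mul_one]
    exact h
  exact h2.self hd

/-- V level: the self energy `Gm⁻¹ - τ S` along any mass direction `S` -/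
theorem hdm_Pi [DecidableEq V] {S : Matrix V V ℝ} (h0 : ∀ h, 0 ≤ μ h) (he : Ev μ) (hS : Nn S)
    (hSs : Sᵀ = S) (hE : EM (wM μ (a • S))) {τ : ℝ} (hτ : a < τ)
    (hd : IsUnit (Gm (wM μ (τ • S))).det) :
    HDM (fun τ => (Gm (wM μ (τ • S)))⁻¹ - τ • S)
      ((1 / 2 : ℝ) • ((Gm (wM μ (τ • S)))⁻¹ * K4c (1 : Matrix V V ℝ) S (wM μ (τ • S)) *
        (Gm (wM μ (τ • S)))⁻¹)) τ := by
  have h := hdm_Gc (1 : Matrix V V ℝ) h0 he hS hSs hE hτ
  have e1 : ∀ ν : (V → ℤ) → ℝ, Gc (1 : Matrix V V ℝ) ν = Gm ν := by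
    intro ν
    unfold Gc
    rw [Matrix.transpose_one, Matrix.one_mul, Matrix.mul_one]
  simp only [e1, Matrix.transpose_one, Matrix.one_mul, Matrix.mul_one] at h
  exact h.self hd

/-! ### positivity -/

omit [DecidableEq I] in
/-- the fourth cumulant against a rank one matrix and a Gram matrix -/
lemma K4S_rank_gram (hμ : EM μ) (he : Ev μ) (w : V → ℝ) (C : Matrix I V ℝ) :
    K4S μ (vecMulVec w w) (Cᵀ * C) = ∑ i, K4 μ w w (C i) (C i) := by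
  rw [gram_eq, K4S_sum_right hμ]
  exact Finset.sum_congr rfl fun i _ => K4S_rank hμ he _ _ _ _

omit [DecidableEq I] in
lemma K4S_rank_nonneg (hμ : EM μ) (he : Ev μ) (hK : PK μ) (w : V → ℝ) (C : Matrix I V ℝ) :
    0 ≤ K4S μ (vecMulVec w w) (Cᵀ * C) := by
  rw [K4S_rank_gram hμ he]
  exact Finset.sum_nonneg fun i _ => H789.K4_nonneg' hμ he hK _ _

/-- the derivative of `PiC` as a fourth cumulant -/
lemma qf_dPiC (hμ : EM μ) (C : Matrix I V ℝ) (G : Matrix I I ℝ) (hG : Gᵀ = G) (S : Matrix V V ℝ)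
    (v : I → ℝ) :
    qf ((1 / 2 : ℝ) • (G⁻¹ * K4c C S μ * G⁻¹)) v =
      1 / 2 * K4S μ (vecMulVec (Cᵀ *ᵥ (G⁻¹ *ᵥ v)) (Cᵀ *ᵥ (G⁻¹ *ᵥ v))) S := by
  rw [qf_smul_mat, ← K4c_bf hμ]
  congr 1
  have hG' : (G⁻¹)ᵀ = G⁻¹ := by rw [Matrix.transpose_nonsing_inv, hG]
  have h1 := bf_mul_left (K4c C S μ) G⁻¹ v (G⁻¹ *ᵥ v)
  rw [hG'] at h1
  rw [h1, bf_mul_right, bf_self]

/-- a variance is positive as soon as the linear functional takes two values -/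
lemma qf_Cm_pos (hμ : EM μ) (J : V → ℝ) {u : V → ℝ} {h h' : V → ℤ} (h1 : 0 < μ h)
    (h2 : 0 < μ h') (h3 : li u h ≠ li u h') : 0 < qf (Cm μ J) u := by
  have hb := bf_Cm hμ J u u
  rw [bf_self] at hb
  rw [hb]
  have hc : Cv μ J (li u) (li u) = Ex μ J fun h => (li u h - Ex μ J (li u)) ^ 2 := by
    have h2 : (fun h => (li u h - Ex μ J (li u)) ^ 2) =
        fun h => li u h * li u h - (2 * Ex μ J (li u) * li u h - Ex μ J (li u) * Ex μ J (li u)) := by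
      funext h
      ring
    rw [h2, TM.H104.Ex_sub hμ ((Gr.li u).mul (Gr.li u)) (((Gr.li u).cmul _).sub (Gr.const _)),
      TM.H104.Ex_sub hμ ((Gr.li u).cmul _) (Gr.const _), TM.H104.Ex_cmul, TM.H104.Ex_const hμ]
    unfold Cv
    ring
  rw [hc]
  set m := Ex μ J (li u) with hm
  have hg : Gr fun h : V → ℤ => (li u h - m) ^ 2 := by
    have := ((Gr.li u).sub (Gr.const m)).mul ((Gr.li u).sub (Gr.const m))
    refine (congrArg Gr ?_).mp this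
    funext h
    ring
  obtain ⟨k, hk, hne⟩ : ∃ k, 0 < μ k ∧ li u k ≠ m := by
    by_cases hh : li u h = m
    · exact ⟨h', h2, fun h4 => h3 (hh.trans h4.symm)⟩
    · exact ⟨h, h1, hh⟩
  have h4 := (hμ.summ hg J).le_tsum k fun j _ =>
    mul_nonneg (mul_nonneg (sq_nonneg _) (hμ.nn j)) (Real.exp_pos _).le
  have h5 : 0 < TM.H104.T μ J fun h => (li u h - m) ^ 2 := by
    refine lt_of_lt_of_le ?_ h4
    have : 0 < (li u k - m) ^ 2 := by
      have : li u k - m ≠ 0 := sub_ne_zero.2 hne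
      positivity
    positivity
  exact div_pos h5 (TM.H104.T_one_pos hμ J)

/-- positive definite symmetric matrices are invertible -/
lemma det_of_pos {G : Matrix I I ℝ} (hp : ∀ v, v ≠ 0 → 0 < qf G v) : IsUnit G.det := by
  rw [isUnit_iff_ne_zero]
  intro h0
  obtain ⟨v, hv, hGv⟩ := Matrix.exists_mulVec_eq_zero_iff.2 h0
  have h1 := hp v hv
  rw [qf_eq, hGv, dotProduct_zero] at h1
  exact lt_irrefl _ h1

/-- the observed covariance is positive definite if the rows of `C` are independent and the field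
is not degenerate -/
lemma Gc_pos (C : Matrix I V ℝ) (hp : ∀ w : V → ℝ, w ≠ 0 → 0 < qf (Gm μ) w)
    (hC : ∀ v : I → ℝ, Cᵀ *ᵥ v = 0 → v = 0) {v : I → ℝ} (hv : v ≠ 0) : 0 < qf (Gc C μ) v := by
  rw [← bf_self, bf_Gc]
  exact hp _ fun h => hv (hC v h)

/-! ### the observed field along the mass: monotonicity and averaging -/

/-- data of a mass direction: `a < τ₀ ≤ τ₁` and an invertible observed covariance in between -/
structure MD (C : Matrix I V ℝ) (μ : (V → ℤ) → ℝ) (a : ℝ) : Prop where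
  nn : ∀ h, 0 ≤ μ h
  ev : Ev μ
  em : EM (wM μ (a • (Cᵀ * C)))
  det : ∀ τ, a < τ → IsUnit (Gc C (wM μ (τ • (Cᵀ * C)))).det
  pk : ∀ τ, a < τ → PK (wM μ (τ • (Cᵀ * C)))

variable {C : Matrix I V ℝ}

/-- `w = Cᵀ Gc⁻¹ v` at the mass `τ` -/
def wv (C : Matrix I V ℝ) (μ : (V → ℤ) → ℝ) (τ : ℝ) (v : I → ℝ) : V → ℝ :=
  Cᵀ *ᵥ ((Gc C (wM μ (τ • (Cᵀ * C))))⁻¹ *ᵥ v)

/-- derivative of the quadratic form of the self energy -/
theorem MD.deriv (hM : MD C μ a) {τ : ℝ} (hτ : a < τ) (v : I → ℝ) :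
    HasDerivAt (fun τ => qf (PiC C μ τ) v)
      (1 / 2 * K4S (wM μ (τ • (Cᵀ * C))) (vecMulVec (wv C μ τ v) (wv C μ τ v)) (Cᵀ * C)) τ := by
  have h := (hdm_PiC C hM.nn hM.ev hM.em hτ (hM.det τ hτ)).qf v
  refine h.congr_deriv ?_
  exact qf_dPiC (em_up hM.nn (nn_gram C) hM.em hτ.le) C _ (Gc_transpose C _) _ v

theorem MD.deriv_nonneg (hM : MD C μ a) {τ : ℝ} (hτ : a < τ) (w : V → ℝ) :
    0 ≤ K4S (wM μ (τ • (Cᵀ * C))) (vecMulVec w w) (Cᵀ * C) :=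
  K4S_rank_nonneg (em_up hM.nn (nn_gram C) hM.em hτ.le) (ev_wM hM.ev _) (hM.pk τ hτ) w C

/-- **averaging**: one mass for a whole family of test vectors (exact) -/
theorem MD.avg (hM : MD C μ a) {κ : Type*} (s : Finset κ) (c : κ → ℝ) (v : κ → I → ℝ)
    {τ₀ τ₁ : ℝ} (h0 : a < τ₀) (h1 : τ₀ < τ₁) :
    ∃ τ ∈ Set.Ioo τ₀ τ₁,
      ∑ k ∈ s, c k * (1 / 2 * K4S (wM μ (τ • (Cᵀ * C)))
        (vecMulVec (wv C μ τ (v k)) (wv C μ τ (v k))) (Cᵀ * C)) =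
      (∑ k ∈ s, c k * (qf (PiC C μ τ₁) (v k) - qf (PiC C μ τ₀) (v k))) / (τ₁ - τ₀) := by
  have hd : ∀ τ, a < τ → HasDerivAt (fun τ => ∑ k ∈ s, c k * qf (PiC C μ τ) (v k))
      (∑ k ∈ s, c k * (1 / 2 * K4S (wM μ (τ • (Cᵀ * C)))
        (vecMulVec (wv C μ τ (v k)) (wv C μ τ (v k))) (Cᵀ * C))) τ := fun τ hτ =>
    HasDerivAt.fun_sum fun k _ => (hM.deriv hτ (v k)).const_mul (c k)
  obtain ⟨τ, hτ, h⟩ := exists_hasDerivAt_eq_slope
    (fun τ => ∑ k ∈ s, c k * qf (PiC C μ τ) (v k)) _ h1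
    (fun τ hτ => (hd τ (h0.trans_le hτ.1)).continuousAt.continuousWithinAt)
    fun τ hτ => hd τ (h0.trans hτ.1)
  refine ⟨τ, hτ, h.trans ?_⟩
  congr 1
  rw [← Finset.sum_sub_distrib]
  exact Finset.sum_congr rfl fun k _ => by ring

/-- the self energy increases with the mass -/
theorem MD.mono (hM : MD C μ a) {τ₀ τ₁ : ℝ} (h0 : a < τ₀) (h1 : τ₀ ≤ τ₁) (v : I → ℝ) :
    qf (PiC C μ τ₀) v ≤ qf (PiC C μ τ₁) v := by
  rcases h1.eq_or_lt with h2 | h2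
  · rw [h2]
  obtain ⟨τ, hτ, h⟩ := hM.avg (Finset.univ : Finset Unit) (fun _ => 1) (fun _ => v) h0 h2
  simp only [Finset.univ_unique, Finset.sum_singleton, one_mul] at h
  have h3 := hM.deriv_nonneg (h0.trans hτ.1) (wv C μ τ v)
  have h4 : 0 ≤ (qf (PiC C μ τ₁) v - qf (PiC C μ τ₀) v) / (τ₁ - τ₀) := by
    rw [← h]
    linarith
  have h5 : 0 < τ₁ - τ₀ := sub_pos.2 h2
  have h6 := mul_nonneg h4 h5.le
  rw [div_mul_cancel₀ _ h5.ne'] at h6
  linarith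

/-- averaging, all the members of the family are small -/
theorem MD.avg_le (hM : MD C μ a) {κ : Type*} (s : Finset κ) (v : κ → I → ℝ)
    {τ₀ τ₁ B : ℝ} (h0 : a < τ₀) (h1 : τ₀ < τ₁)
    (hB : ∑ k ∈ s, (qf (PiC C μ τ₁) (v k) - qf (PiC C μ τ₀) (v k)) ≤ B) :
    ∃ τ ∈ Set.Ioo τ₀ τ₁, ∑ k ∈ s, K4S (wM μ (τ • (Cᵀ * C)))
        (vecMulVec (wv C μ τ (v k)) (wv C μ τ (v k))) (Cᵀ * C) ≤ 2 * B / (τ₁ - τ₀) := by
  obtain ⟨τ, hτ, h⟩ := hM.avg s (fun _ => 1) v h0 h1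
  refine ⟨τ, hτ, ?_⟩
  simp only [one_mul] at h
  rw [← Finset.mul_sum] at h
  have h5 : 0 < τ₁ - τ₀ := sub_pos.2 h1
  have h6 := div_le_div_of_nonneg_right hB h5.le
  rw [← h] at h6
  rw [mul_div_assoc]
  linarith

/-- the trace of the observed covariance: `(tr Gc)' = - K4S (S, S) / 2 - tr Gc²` -/
theorem MD.deriv_tr (hM : MD C μ a) {τ : ℝ} (hτ : a < τ) :
    HasDerivAt (fun τ => (Gc C (wM μ (τ • (Cᵀ * C)))).trace)
      (-(1 / 2) * K4S (wM μ (τ • (Cᵀ * C))) (Cᵀ * C) (Cᵀ * C) -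
        (Gc C (wM μ (τ • (Cᵀ * C))) * Gc C (wM μ (τ • (Cᵀ * C)))).trace) τ := by
  have h := hdm_Gc' C hM.nn hM.ev hM.em hτ
  have h1 : HasDerivAt (fun τ => (Gc C (wM μ (τ • (Cᵀ * C)))).trace)
      ((-(1 / 2 : ℝ) • K4c C (Cᵀ * C) (wM μ (τ • (Cᵀ * C))) -
        Gc C (wM μ (τ • (Cᵀ * C))) * Gc C (wM μ (τ • (Cᵀ * C)))).trace) τ := by
    unfold Matrix.trace
    exact HasDerivAt.fun_sum fun i _ => h i i
  refine h1.congr_deriv ?_
  rw [Matrix.trace_sub, Matrix.trace_smul, smul_eq_mul]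
  congr 2
  have hE := em_up hM.nn (nn_gram C) hM.em hτ.le
  have e1 : ∀ ν : (V → ℤ) → ℝ, EM ν → (K4c C (Cᵀ * C) ν).trace = K4S ν (Cᵀ * C) (Cᵀ * C) := by
    intro ν hν
    have e2 := K4S_sum_left hν Finset.univ (fun i => vecMulVec (C i) (C i)) (Cᵀ * C)
    rw [← gram_eq] at e2
    rw [e2]
    rfl
  exact e1 _ hE

/-- `K4S` is nonnegative on pairs of Gram matrices -/
lemma K4S_gram_nonneg {I₁ I₂ : Type*} [Fintype I₁] [Fintype I₂] (hμ : EM μ) (he : Ev μ)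
    (hK : PK μ) (P : Matrix I₁ V ℝ) (Q : Matrix I₂ V ℝ) : 0 ≤ K4S μ (Pᵀ * P) (Qᵀ * Q) := by
  rw [K4S_gram hμ he]
  exact Finset.sum_nonneg fun i _ => Finset.sum_nonneg fun j _ => H789.K4_nonneg' hμ he hK _ _

end

end Vale.Agent.P159.H447
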