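import Vale.Agent.P159.H447.MassC
import Vale.Agent.P159.H692.StarTr
import Vale.Agent.P159.H552.GauHS2

/-!
P159 / module MASS, part D (helper447): `K4S` is a positive semidefinite form on matrices, hence a
sum of squares of linear functionals; the fourth cumulant `K4 F F F F` is a sum of squares of
quadratic forms of `F`.
-/

namespace Vale.Agent.P159.H447

open Finset Matrix
open Vale.Agent.P159.TM.H104 (EM Ex Cv K3 Lg li nh Gr)
open Vale.Agent.P159.H37
open Vale.Agent.P159.H114 (Gm_transpose)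
open Vale.Agent.P159.H692 (kF kF_nonneg)

noncomputable section

variable {V : Type*} [Fintype V] {μ : (V → ℤ) → ℝ}

lemma qf_transpose (A : Matrix V V ℝ) (u : V → ℝ) : qf Aᵀ u = qf A u := by
  unfold qf
  rw [Finset.sum_comm]
  refine Finset.sum_congr rfl fun x _ => Finset.sum_congr rfl fun y _ => ?_
  rw [Matrix.transpose_apply]
  ring

lemma K4S_tr_left (μ : (V → ℤ) → ℝ) (A B : Matrix V V ℝ) : K4S μ Aᵀ B = K4S μ A B := by
  unfold K4S
  simp only [qf_transpose]
  congr 1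
  rw [Finset.sum_comm]
  refine Finset.sum_congr rfl fun x _ => Finset.sum_congr rfl fun y _ => Finset.sum_congr rfl
    fun z _ => Finset.sum_congr rfl fun w _ => ?_
  rw [Matrix.transpose_apply]
  ring

/-- symmetric part -/
def sy (A : Matrix V V ℝ) : Matrix V V ℝ := (1 / 2 : ℝ) • (A + Aᵀ)

omit [Fintype V] in
lemma sy_tr (A : Matrix V V ℝ) : (sy A)ᵀ = sy A := by
  unfold sy
  rw [Matrix.transpose_smul, Matrix.transpose_add, Matrix.transpose_transpose, add_comm]

lemma K4S_sy_left (hμ : EM μ) (A B : Matrix V V ℝ) : K4S μ (sy A) B = K4S μ A B := by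
  unfold sy
  rw [K4S_smul_left, K4S_add_left hμ, K4S_tr_left]
  ring

lemma K4S_sy (hμ : EM μ) (A : Matrix V V ℝ) : K4S μ (sy A) (sy A) = K4S μ A A := by
  rw [K4S_sy_left hμ, K4S_comm, K4S_sy_left hμ]

/-- `K4S` is positive semidefinite -/
theorem K4S_nonneg (hμ : EM μ) (he : Ev μ) (hK : PK μ) (A : Matrix V V ℝ) : 0 ≤ K4S μ A A := by
  classical
  rw [← K4S_sy hμ]
  obtain ⟨O, a, -, -, h3, -⟩ := H552.spec_real (sy_tr A)
  have h4 : sy A = ∑ i, a i • vecMulVec (Oᵀ i) (Oᵀ i) := by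
    rw [h3]
    ext x y
    rw [Matrix.mul_apply, Matrix.sum_apply]
    refine Finset.sum_congr rfl fun i _ => ?_
    rw [Matrix.mul_diagonal, Matrix.smul_apply, vecMulVec_apply, Matrix.transpose_apply,
      Matrix.transpose_apply, smul_eq_mul]
    ring
  have h5 : K4S μ (sy A) (sy A) = kF μ (fun i => Oᵀ i) a := by
    rw [h4, K4S_sum_left hμ]
    unfold kF
    refine Finset.sum_congr rfl fun i _ => ?_
    rw [K4S_sum_right hμ]
    refine Finset.sum_congr rfl fun j _ => ?_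
    rw [K4S_smul_left, K4S_smul_right, K4S_rank hμ he]
    ring
  rw [h5]
  exact kF_nonneg hμ he hK _ _

/-- pairing of two matrices -/
def pr (N A : Matrix V V ℝ) : ℝ := ∑ x, ∑ y, N x y * A x y

/-- `K4S` is a sum of squares of linear functionals -/
theorem K4S_sos (hμ : EM μ) (he : Ev μ) (hK : PK μ) :
    ∃ (m : ℕ) (N : Fin m → Matrix V V ℝ), ∀ A B, K4S μ A B = ∑ k, pr (N k) A * pr (N k) B := by
  classical
  obtain ⟨M, hM⟩ : ∃ M : Matrix (V × V) (V × V) ℝ, ∀ p q, M p q =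
    K4S μ (Matrix.single p.1 p.2 1) (Matrix.single q.1 q.2 1) := ⟨Matrix.of fun p q =>
    K4S μ (Matrix.single p.1 p.2 1) (Matrix.single q.1 q.2 1), fun _ _ => rfl⟩
  have hexp : ∀ A : Matrix V V ℝ, A = ∑ p : V × V, A p.1 p.2 • Matrix.single p.1 p.2 (1 : ℝ) := by
    intro A
    conv_lhs => rw [Matrix.matrix_eq_sum_single A]
    rw [Fintype.sum_prod_type]
    refine Finset.sum_congr rfl fun x _ => Finset.sum_congr rfl fun y _ => ?_
    rw [Matrix.smul_single, smul_eq_mul, mul_one]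
  have hbil : ∀ A B : Matrix V V ℝ, K4S μ A B =
      ∑ p : V × V, ∑ q : V × V, A p.1 p.2 * B q.1 q.2 * M p q := by
    intro A B
    conv_lhs => rw [hexp A, K4S_sum_left hμ]
    refine Finset.sum_congr rfl fun p _ => ?_
    conv_lhs => rw [K4S_smul_left, hexp B, K4S_sum_right hμ, Finset.mul_sum]
    refine Finset.sum_congr rfl fun q _ => ?_
    rw [K4S_smul_right, hM]
    ring
  have hMs : Mᵀ = M := by
    ext p q
    rw [Matrix.transpose_apply, hM, hM, K4S_comm]
  have hpsd : M.PosSemidef := by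
    refine Matrix.PosSemidef.of_dotProduct_mulVec_nonneg ?_ fun x => ?_
    · rw [IsHermitian, conjTranspose_eq_transpose_of_trivial]
      exact hMs
    · have h1 := K4S_nonneg hμ he hK (Matrix.of fun a b => x (a, b))
      rw [hbil] at h1
      refine h1.trans_eq ?_
      unfold dotProduct Matrix.mulVec dotProduct
      refine Finset.sum_congr rfl fun p _ => ?_
      rw [Finset.mul_sum]
      refine Finset.sum_congr rfl fun q _ => ?_
      simp only [Matrix.of_apply, Prod.mk.eta, star_trivial]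
      ring
  obtain ⟨m, v, hN⟩ := Matrix.posSemidef_iff_eq_sum_vecMulVec.1 hpsd
  refine ⟨m, fun k => Matrix.of fun a b => v k (a, b), fun A B => ?_⟩
  have hpr : ∀ (k : Fin m) (A : Matrix V V ℝ), pr (Matrix.of fun a b => v k (a, b)) A =
      ∑ p : V × V, v k p * A p.1 p.2 := by
    intro k A
    unfold pr
    rw [Fintype.sum_prod_type]
    rfl
  have hMpq : ∀ p q, M p q = ∑ k, v k p * v k q := by
    intro p q
    rw [hN, Matrix.sum_apply]
    refine Finset.sum_congr rfl fun k _ => ?_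
    rw [vecMulVec_apply]
    rfl
  have e1 : ∀ f : Fin m → V × V → V × V → ℝ, ∑ p, ∑ q, ∑ k, f k p q = ∑ k, ∑ p, ∑ q, f k p q := by
    intro f
    have e2 : ∀ p, ∑ q, ∑ k, f k p q = ∑ k, ∑ q, f k p q := fun p => Finset.sum_comm
    simp only [e2]
    exact Finset.sum_comm
  calc K4S μ A B = ∑ p : V × V, ∑ q : V × V, ∑ k, A p.1 p.2 * B q.1 q.2 * (v k p * v k q) := by
        rw [hbil]
        simp only [hMpq, Finset.mul_sum]
    _ = ∑ k, ∑ p : V × V, ∑ q : V × V, A p.1 p.2 * B q.1 q.2 * (v k p * v k q) :=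
        e1 fun k p q => A p.1 p.2 * B q.1 q.2 * (v k p * v k q)
    _ = _ := by
        refine Finset.sum_congr rfl fun k _ => ?_
        rw [hpr, hpr, Finset.sum_mul_sum]
        exact Finset.sum_congr rfl fun p _ => Finset.sum_congr rfl fun q _ => by ring

lemma pr_rank (N : Matrix V V ℝ) (u : V → ℝ) : pr N (vecMulVec u u) = qf N u := by
  unfold pr qf
  refine Finset.sum_congr rfl fun x _ => Finset.sum_congr rfl fun y _ => ?_
  rw [vecMulVec_apply]
  ring

/-- `K4 F F F F` is a sum of squares of quadratic forms -/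
lemma K4_sos (hμ : EM μ) (he : Ev μ) {m : ℕ} {N : Fin m → Matrix V V ℝ}
    (hN : ∀ A B, K4S μ A B = ∑ k, pr (N k) A * pr (N k) B) (F : V → ℝ) :
    K4 μ F F F F = ∑ k, qf (N k) F ^ 2 := by
  rw [← K4S_rank hμ he, hN]
  refine Finset.sum_congr rfl fun k _ => ?_
  rw [pr_rank, sq]

/-! ### symmetries of the fourth cumulant -/

lemma K4_swap (μ : (V → ℤ) → ℝ) (a b c d : V → ℝ) : K4 μ a b c d = K4 μ a c b d := by
  unfold K4
  have e1 : (fun h : V → ℤ => li a h * li b h * li c h * li d h) =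
      fun h => li a h * li c h * li b h * li d h := by
    funext h; ring
  have e2 : (fun h : V → ℤ => li b h * li c h) = fun h => li c h * li b h := by
    funext h; ring
  rw [e1, e2]
  ring

/-- Cauchy-Schwarz -/
theorem K4S_cs (hμ : EM μ) (he : Ev μ) (hK : PK μ) (A B : Matrix V V ℝ) :
    K4S μ A B ^ 2 ≤ K4S μ A A * K4S μ B B := by
  obtain ⟨m, N, hN⟩ := K4S_sos hμ he hK
  rw [hN, hN, hN]
  have h := Finset.sum_mul_sq_le_sq_mul_sq Finset.univ (fun k => pr (N k) A) fun k => pr (N k) B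
  simpa only [sq] using h

/-- monotonicity: `A = Pᵀ P`, `c B - A = Qᵀ Q`, `B` a Gram matrix -/
theorem K4S_mono {I₁ I₂ I₃ : Type*} [Fintype I₁] [Fintype I₂] [Fintype I₃] (hμ : EM μ) (he : Ev μ)
    (hK : PK μ) {c : ℝ} (hc : 0 ≤ c) (P : Matrix I₁ V ℝ) (Q : Matrix I₂ V ℝ) (B : Matrix I₃ V ℝ)
    (h : c • (Bᵀ * B) - Pᵀ * P = Qᵀ * Q) :
    K4S μ (Pᵀ * P) (Pᵀ * P) ≤ c ^ 2 * K4S μ (Bᵀ * B) (Bᵀ * B) := by
  have h1 := K4S_gram_nonneg hμ he hK Q P
  have h2 := K4S_gram_nonneg hμ he hK Q B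
  rw [← h, K4S_sub_left hμ, K4S_smul_left] at h1 h2
  have h3 := K4S_comm μ (Bᵀ * B) (Pᵀ * P)
  have h4 := mul_nonneg hc h2
  nlinarith [h1, h3, h4]

end

end Vale.Agent.P159.H447
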