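import Vale.Agent.P159.H447.MassD

/-!
P159 / module MASS, part E (helper447): moments and tails of quadratic forms of Gaussian vectors,
of sums of squares of such, and of the fourth cumulant `K4 F F F F`, `F = A g`:
`E K4(F,F,F,F)^p ≤ 2 (2p)! 48^p (K4S(A Aᵀ, A Aᵀ))^p`.
-/

namespace Vale.Agent.P159.H447

open Finset Matrix MeasureTheory ProbabilityTheory
open Vale.Agent.P159.H37 (gau)
open Vale.Agent.P159.H37
open Vale.Agent.P159.TM.H104 (EM)

noncomputable section

/-! ### diagonal forms -/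

section diag

variable {I : Type*} [Fintype I]

lemma int_exp_one {c : ℝ} (hc : |c| ≤ 1 / 4) :
    Integrable (fun x : ℝ => Real.exp (c * x ^ 2)) (gaussianReal 0 1) ∧
    ∫ x, Real.exp (c * x ^ 2) ∂(gaussianReal 0 1) ≤ Real.exp (c + 4 * c ^ 2) := by
  have h1 := abs_le.1 hc
  have hc1 : 2 * c < 1 := by linarith
  have e : ∀ x : ℝ, Real.exp (c * x ^ 2) = Real.exp (2 * c * (x ^ 2 / 2)) := fun x => by
    congr 1; ring
  simp only [e]
  refine ⟨H552.integrable_exp_sq hc1, ?_⟩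
  rw [H552.int_exp_sq hc1]
  have hp : (0 : ℝ) < 1 - 2 * c := by linarith
  rw [← Real.exp_log (show 0 < (√(1 - 2 * c))⁻¹ by positivity), Real.log_inv,
    Real.log_sqrt hp.le]
  refine Real.exp_le_exp.2 ?_
  have h2 := H552.log_low (a := -(2 * c)) (by rw [abs_neg, abs_mul, abs_two]; linarith)
  have e3 : 1 + -(2 * c) = 1 - 2 * c := by ring
  rw [e3] at h2
  nlinarith

lemma int_exp_diag {a : I → ℝ} {s : ℝ} (ha : ∀ i, |s * a i| ≤ 1 / 4) :
    Integrable (fun g : I → ℝ => Real.exp (s * ∑ i, a i * g i ^ 2)) (gau I) ∧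
    ∫ g, Real.exp (s * ∑ i, a i * g i ^ 2) ∂(gau I)
      ≤ Real.exp (s * ∑ i, a i + 4 * s ^ 2 * ∑ i, a i ^ 2) := by
  have e : ∀ g : I → ℝ, Real.exp (s * ∑ i, a i * g i ^ 2) = ∏ i, Real.exp (s * a i * g i ^ 2) := by
    intro g
    rw [← Real.exp_sum, Finset.mul_sum]
    congr 1
    exact Finset.sum_congr rfl fun i _ => by ring
  simp only [e]
  unfold gau
  constructor
  · exact Integrable.fintype_prod (f := fun i x => Real.exp (s * a i * x ^ 2))
      fun i => (int_exp_one (ha i)).1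
  · rw [integral_fintype_prod_eq_prod (𝕜 := ℝ) (fun (i : I) (x : ℝ) => Real.exp (s * a i * x ^ 2))
      (μ := fun _ => gaussianReal 0 1)]
    have e2 : s * ∑ i, a i + 4 * s ^ 2 * ∑ i, a i ^ 2 = ∑ i, (s * a i + 4 * (s * a i) ^ 2) := by
      rw [Finset.sum_add_distrib, Finset.mul_sum, Finset.mul_sum]
      congr 1
      exact Finset.sum_congr rfl fun i _ => by ring
    rw [e2, Real.exp_sum]
    exact Finset.prod_le_prod (fun i _ => integral_nonneg fun x => (Real.exp_pos _).le)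
      fun i _ => (int_exp_one (ha i)).2

end diag

/-! ### quadratic forms -/

section quad

variable {I : Type*} [Fintype I]

/-- trace -/
def trH (H : Matrix I I ℝ) : ℝ := ∑ i, H i i

/-- Hilbert-Schmidt square -/
def hsq (H : Matrix I I ℝ) : ℝ := ∑ i, ∑ j, H i j ^ 2

lemma hsq_nonneg (H : Matrix I I ℝ) : 0 ≤ hsq H :=
  Finset.sum_nonneg fun _ _ => Finset.sum_nonneg fun _ _ => sq_nonneg _

lemma trH_sy (H : Matrix I I ℝ) : trH (sy H) = trH H := by
  unfold trH sy
  refine Finset.sum_congr rfl fun i _ => ?_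
  rw [Matrix.smul_apply, Matrix.add_apply, Matrix.transpose_apply, smul_eq_mul]
  ring

lemma hsq_sy (H : Matrix I I ℝ) : hsq (sy H) ≤ hsq H := by
  have h1 : hsq (sy H) ≤ ∑ i, ∑ j, (H i j ^ 2 + H j i ^ 2) / 2 := by
    unfold hsq sy
    refine Finset.sum_le_sum fun i _ => Finset.sum_le_sum fun j _ => ?_
    rw [Matrix.smul_apply, Matrix.add_apply, Matrix.transpose_apply, smul_eq_mul]
    nlinarith [sq_nonneg (H i j - H j i)]
  refine h1.trans_eq ?_
  have h2 : ∑ i, ∑ j, H j i ^ 2 = hsq H := Finset.sum_comm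
  have h3 : ∑ i, ∑ j, (H i j ^ 2 + H j i ^ 2) / 2 =
      ((∑ i, ∑ j, H i j ^ 2) + ∑ i, ∑ j, H j i ^ 2) / 2 := by
    rw [← Finset.sum_add_distrib, Finset.sum_div]
    refine Finset.sum_congr rfl fun i _ => ?_
    rw [← Finset.sum_add_distrib, Finset.sum_div]
  rw [h3, h2]
  unfold hsq
  ring

lemma qf_sy (H : Matrix I I ℝ) (g : I → ℝ) : qf (sy H) g = qf H g := by
  have h1 := qf_transpose H g
  unfold sy
  have h2 : qf ((1 / 2 : ℝ) • (H + Hᵀ)) g = (1 / 2 : ℝ) * (qf H g + qf Hᵀ g) := by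
    unfold qf
    simp only [Matrix.smul_apply, Matrix.add_apply, smul_eq_mul]
    rw [← Finset.sum_add_distrib, Finset.mul_sum]
    refine Finset.sum_congr rfl fun x _ => ?_
    rw [← Finset.sum_add_distrib, Finset.mul_sum]
    exact Finset.sum_congr rfl fun y _ => by ring
  rw [h2, h1]
  ring

lemma qf_meas (H : Matrix I I ℝ) : Measurable fun g : I → ℝ => qf H g := by
  unfold qf
  fun_prop

/-- the law of a quadratic form: diagonalisation -/
lemma qf_law {H : Matrix I I ℝ} (hH : Hᵀ = H) :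
    ∃ a : I → ℝ, ∑ i, a i = trH H ∧ ∑ i, a i ^ 2 = hsq H ∧ ∀ f : ℝ → ℝ, Measurable f →
      ((Integrable (fun g : I → ℝ => f (qf H g)) (gau I) ↔
        Integrable (fun g : I → ℝ => f (∑ i, a i * g i ^ 2)) (gau I)) ∧
      ∫ g, f (qf H g) ∂(gau I) = ∫ g, f (∑ i, a i * g i ^ 2) ∂(gau I)) := by
  classical
  obtain ⟨O, a, h1, h2, h3, h4⟩ := H552.spec_real hH
  have hO : (1 : Matrix I I ℝ) * (1 : Matrix I I ℝ)ᵀ = O * Oᵀ := by
    rw [h1, Matrix.transpose_one, Matrix.one_mul]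
  have hq : ∀ g : I → ℝ, qf H (O *ᵥ g) = ∑ i, a i * g i ^ 2 := by
    intro g
    have e1 : ∀ u : I → ℝ, qf H u = u ⬝ᵥ H *ᵥ u := by
      intro u
      unfold qf dotProduct Matrix.mulVec dotProduct
      refine Finset.sum_congr rfl fun x _ => ?_
      rw [Finset.mul_sum]
      exact Finset.sum_congr rfl fun y _ => by ring
    rw [e1, h3]
    have e2 : (O * diagonal a * Oᵀ) *ᵥ (O *ᵥ g) = O *ᵥ (diagonal a *ᵥ g) := by
      rw [← mulVec_mulVec, ← mulVec_mulVec, mulVec_mulVec _ Oᵀ O, h2, Matrix.one_mulVec]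
    rw [e2, dotProduct_mulVec, ← mulVec_transpose, mulVec_mulVec, h2, Matrix.one_mulVec]
    simp only [dotProduct, mulVec_diagonal]
    exact Finset.sum_congr rfl fun i _ => by ring
  refine ⟨a, ?_, ?_, fun f hf => ?_⟩
  · have : trH H = trace H := rfl
    rw [this, h3, trace_mul_comm, ← Matrix.mul_assoc, h2, Matrix.one_mul, trace_diagonal]
  · rw [h4]; rfl
  · have e1 := H552.gau_int_eq hO (f := fun g => f (qf H g)) (hf.comp (qf_meas H))
    have e2 := H552.gau_integrable_iff hO (f := fun g => f (qf H g)) (hf.comp (qf_meas H))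
    simp only [Matrix.one_mulVec, hq] at e1 e2
    exact ⟨e2, e1⟩

/-- exponential moment of a quadratic form -/
lemma qf_exp {H : Matrix I I ℝ} {s : ℝ} (hs : 16 * s ^ 2 * hsq H ≤ 1) :
    Integrable (fun g : I → ℝ => Real.exp (s * qf H g)) (gau I) ∧
    ∫ g, Real.exp (s * qf H g) ∂(gau I) ≤ Real.exp (s * trH H + 4 * s ^ 2 * hsq H) := by
  obtain ⟨a, h1, h2, h3⟩ := qf_law (sy_tr H)
  obtain ⟨h4, h5⟩ := h3 (fun x => Real.exp (s * x)) (by fun_prop)
  simp only [qf_sy] at h4 h5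
  have hle := hsq_sy H
  have ha : ∀ i, |s * a i| ≤ 1 / 4 := by
    intro i
    have h6 : a i ^ 2 ≤ ∑ i, a i ^ 2 :=
      Finset.single_le_sum (f := fun i => a i ^ 2) (fun j _ => sq_nonneg _) (Finset.mem_univ i)
    rw [h2] at h6
    refine abs_le_of_sq_le_sq ?_ (by norm_num)
    have h7 : s ^ 2 * a i ^ 2 ≤ s ^ 2 * hsq H :=
      mul_le_mul_of_nonneg_left (h6.trans hle) (sq_nonneg s)
    rw [mul_pow]
    nlinarith
  have h6 := int_exp_diag ha
  refine ⟨h4.2 h6.1, ?_⟩
  rw [h5]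
  refine h6.2.trans (Real.exp_le_exp.2 ?_)
  rw [h1, h2, trH_sy]
  have : 4 * s ^ 2 * hsq (sy H) ≤ 4 * s ^ 2 * hsq H :=
    mul_le_mul_of_nonneg_left hle (by positivity)
  linarith

lemma pow_le_exp (x : ℝ) (p : ℕ) :
    x ^ (2 * p) ≤ (2 * p).factorial * ((Real.exp x + Real.exp (-x)) / 2) := by
  have h0 : x ^ (2 * p) / (2 * p).factorial ≤ Real.cosh x := by
    have h := Real.hasSum_cosh x
    exact le_hasSum h p fun j _ => by
      rw [pow_mul]; positivity
  rw [← Real.cosh_eq]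
  rw [div_le_iff₀ (by positivity)] at h0
  linarith

/-- moments of a quadratic form -/
theorem qf_mom (H : Matrix I I ℝ) {σ : ℝ} (hσ : 0 < σ) (h : trH H ^ 2 + 2 * hsq H ≤ σ ^ 2) (p : ℕ) :
    Integrable (fun g : I → ℝ => qf H g ^ (2 * p)) (gau I) ∧
    ∫ g, qf H g ^ (2 * p) ∂(gau I) ≤ 3 / 2 * (2 * p).factorial * (16 * σ ^ 2) ^ p := by
  have hn := hsq_nonneg H
  set s : ℝ := 1 / (4 * σ) with hsd
  have hs2 : s ^ 2 = 1 / (16 * σ ^ 2) := by rw [hsd, div_pow, mul_pow]; norm_num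
  have hs : 16 * s ^ 2 * hsq H ≤ 1 := by
    rw [hs2]
    have : 16 * (1 / (16 * σ ^ 2)) * hsq H = hsq H / σ ^ 2 := by field_simp
    rw [this, div_le_one (by positivity)]
    nlinarith [sq_nonneg (trH H)]
  have hs' : 16 * (-s) ^ 2 * hsq H ≤ 1 := by rwa [neg_sq]
  obtain ⟨i1, b1⟩ := qf_exp hs
  obtain ⟨i2, b2⟩ := qf_exp hs'
  have hT : |s * trH H| ≤ 1 / 4 := by
    refine abs_le_of_sq_le_sq ?_ (by norm_num)
    rw [mul_pow, hs2]
    have : 1 / (16 * σ ^ 2) * trH H ^ 2 = (trH H ^ 2 / σ ^ 2) / 16 := by field_simp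
    rw [this]
    have : trH H ^ 2 / σ ^ 2 ≤ 1 := by
      rw [div_le_one (by positivity)]
      nlinarith
    linarith
  have hH : 4 * s ^ 2 * hsq H ≤ 1 / 8 := by
    rw [hs2]
    have : 4 * (1 / (16 * σ ^ 2)) * hsq H = (2 * hsq H / σ ^ 2) / 8 := by field_simp; ring
    rw [this]
    have : 2 * hsq H / σ ^ 2 ≤ 1 := by
      rw [div_le_one (by positivity)]
      nlinarith [sq_nonneg (trH H)]
    linarith
  have hT2 := abs_le.1 hT
  have he : Real.exp (3 / 8) ≤ 3 / 2 := by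
    have h1 : Real.exp (3 / 8) ^ 8 ≤ (3 / 2) ^ 8 := by
      rw [← Real.exp_nat_mul]
      have : ((8 : ℕ) : ℝ) * (3 / 8) = 3 := by norm_num
      rw [this]
      have h3 := Real.exp_one_lt_d9
      have h4 : Real.exp 3 = Real.exp 1 ^ 3 := by rw [← Real.exp_nat_mul]; norm_num
      rw [h4]
      have h5 : Real.exp 1 ^ 3 ≤ 2.7182818286 ^ 3 :=
        pow_le_pow_left₀ (Real.exp_pos 1).le h3.le 3
      refine h5.trans ?_
      norm_num
    exact le_of_pow_le_pow_left₀ (by norm_num) (by norm_num) h1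
  have b1' : ∫ g, Real.exp (s * qf H g) ∂(gau I) ≤ 3 / 2 :=
    b1.trans ((Real.exp_le_exp.2 (by linarith [hT2.2])).trans he)
  have b2' : ∫ g, Real.exp (-s * qf H g) ∂(gau I) ≤ 3 / 2 := by
    refine b2.trans ((Real.exp_le_exp.2 ?_).trans he)
    rw [neg_sq, neg_mul]
    linarith [hT2.1]
  have hpw : ∀ g : I → ℝ, qf H g ^ (2 * p) ≤ (16 * σ ^ 2) ^ p * ((2 * p).factorial *
      ((Real.exp (s * qf H g) + Real.exp (-s * qf H g)) / 2)) := by
    intro g
    have h1 := pow_le_exp (s * qf H g) p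
    rw [mul_pow, pow_mul s, hs2] at h1
    have h2 : (1 / (16 * σ ^ 2)) ^ p = ((16 * σ ^ 2) ^ p)⁻¹ := by rw [one_div, inv_pow]
    rw [h2, inv_mul_le_iff₀ (by positivity), ← neg_mul] at h1
    exact h1
  have hint := (((i1.add i2).div_const 2).const_mul ((2 * p).factorial : ℝ)).const_mul
    ((16 * σ ^ 2) ^ p)
  have hnn : ∀ g : I → ℝ, 0 ≤ qf H g ^ (2 * p) := fun g => by rw [pow_mul]; positivity
  have hI : Integrable (fun g : I → ℝ => qf H g ^ (2 * p)) (gau I) := by
    refine hint.mono' ((qf_meas H).pow_const _).aestronglyMeasurable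
      (Filter.Eventually.of_forall fun g => ?_)
    rw [Real.norm_eq_abs, abs_of_nonneg (hnn g)]
    exact hpw g
  refine ⟨hI, (integral_mono hI hint hpw).trans ?_⟩
  simp only [Pi.add_apply]
  rw [integral_const_mul, integral_const_mul, integral_div, integral_add i1 i2]
  have h7 : (∫ g, Real.exp (s * qf H g) ∂(gau I) + ∫ g, Real.exp (-s * qf H g) ∂(gau I)) / 2
      ≤ 3 / 2 := by linarith
  have h8 : (0 : ℝ) ≤ (16 * σ ^ 2) ^ p := by positivity
  have h9 : (0 : ℝ) ≤ (2 * p).factorial := by positivity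
  calc (16 * σ ^ 2) ^ p * (((2 * p).factorial : ℝ) *
        ((∫ g, Real.exp (s * qf H g) ∂(gau I) + ∫ g, Real.exp (-s * qf H g) ∂(gau I)) / 2))
      ≤ (16 * σ ^ 2) ^ p * (((2 * p).factorial : ℝ) * (3 / 2)) := by gcongr
    _ = _ := by ring

/-- moments of a sum of squares of quadratic forms -/
theorem sos_mom {κ : Type*} [Fintype κ] (H : κ → Matrix I I ℝ) {S : ℝ} (hS : 0 < S)
    (h : ∑ k, (trH (H k) ^ 2 + 2 * hsq (H k)) ≤ S) (p : ℕ) :
    Integrable (fun g : I → ℝ => (∑ k, qf (H k) g ^ 2) ^ p) (gau I) ∧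
    ∫ g, (∑ k, qf (H k) g ^ 2) ^ p ∂(gau I) ≤ 3 / 2 * (2 * p).factorial * (16 * S) ^ p := by
  classical
  have hmeas : Measurable fun g : I → ℝ => (∑ k, qf (H k) g ^ 2) ^ p :=
    (Finset.measurable_sum _ fun k _ => (qf_meas (H k)).pow_const 2).pow_const p
  -- the estimate with `ε`
  have key : ∀ ε : ℝ, 0 < ε →
      Integrable (fun g : I → ℝ => (∑ k, qf (H k) g ^ 2) ^ p) (gau I) ∧
      ∫ g, (∑ k, qf (H k) g ^ 2) ^ p ∂(gau I) ≤ 3 / 2 * (2 * p).factorial * (16 * (S + ε)) ^ p := by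
    intro ε hε
    set m : ℝ := (Fintype.card κ : ℝ) with hm
    have hm0 : 0 ≤ m := Nat.cast_nonneg _
    set r : κ → ℝ := fun k => trH (H k) ^ 2 + 2 * hsq (H k) + ε / (m + 1) with hr
    have hrp : ∀ k, 0 < r k := fun k => by
      have h1 := hsq_nonneg (H k)
      have h2 : 0 < ε / (m + 1) := by positivity
      simp only [hr]
      nlinarith [sq_nonneg (trH (H k))]
    set R : ℝ := ∑ k, r k with hR
    rcases isEmpty_or_nonempty κ with hκ | hκ
    · have h1 : ∀ g : I → ℝ, (∑ k, qf (H k) g ^ 2) = 0 := fun g => by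
        rw [Finset.univ_eq_empty, Finset.sum_empty]
      simp only [h1]
      refine ⟨integrable_const _, ?_⟩
      rw [integral_const]
      simp only [probReal_univ, smul_eq_mul, one_mul]
      rcases Nat.eq_zero_or_pos p with h0 | h0
      · subst h0
        norm_num
      · rw [zero_pow (by omega)]
        positivity
    have hRp : 0 < R := Finset.sum_pos (fun k _ => hrp k) Finset.univ_nonempty
    have hRS : R ≤ S + ε := by
      have h1 : R = (∑ k, (trH (H k) ^ 2 + 2 * hsq (H k))) + m * (ε / (m + 1)) := by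
        simp only [hR, hr]
        rw [Finset.sum_add_distrib, Finset.sum_const, Finset.card_univ, nsmul_eq_mul]
      have h2 : m * (ε / (m + 1)) ≤ ε := by
        rw [← mul_div_assoc, div_le_iff₀ (by positivity)]
        nlinarith
      linarith
    set w : κ → ℝ := fun k => r k / R with hw
    have hwp : ∀ k, 0 < w k := fun k => div_pos (hrp k) hRp
    have hw1 : ∑ k, w k = 1 := by
      simp only [hw]
      rw [← Finset.sum_div, ← hR, div_self hRp.ne']
    -- Jensen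
    have hJ : ∀ g : I → ℝ, (∑ k, qf (H k) g ^ 2) ^ p ≤ ∑ k, w k * (qf (H k) g ^ 2 / w k) ^ p := by
      intro g
      have h1 := Real.pow_arith_mean_le_arith_mean_pow Finset.univ w (fun k => qf (H k) g ^ 2 / w k)
        (fun k _ => (hwp k).le) hw1 (fun k _ => div_nonneg (sq_nonneg _) (hwp k).le) p
      have h2 : ∑ k, w k * (qf (H k) g ^ 2 / w k) = ∑ k, qf (H k) g ^ 2 :=
        Finset.sum_congr rfl fun k _ => mul_div_cancel₀ _ (hwp k).ne'
      rwa [h2] at h1
    have hm2 : ∀ k, Integrable (fun g : I → ℝ => w k * (qf (H k) g ^ 2 / w k) ^ p) (gau I) ∧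
        ∫ g, w k * (qf (H k) g ^ 2 / w k) ^ p ∂(gau I)
          ≤ w k * (3 / 2 * (2 * p).factorial * (16 * R) ^ p) := by
      intro k
      have hsq : √(r k) ^ 2 = r k := Real.sq_sqrt (hrp k).le
      have h1 := qf_mom (H k) (Real.sqrt_pos.2 (hrp k)) (σ := √(r k)) (by
        rw [hsq]
        simp only [hr]
        have : 0 < ε / (m + 1) := by positivity
        linarith) p
      have e : ∀ g : I → ℝ, w k * (qf (H k) g ^ 2 / w k) ^ p =
          w k * (w k ^ p)⁻¹ * qf (H k) g ^ (2 * p) := by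
        intro g
        rw [div_pow, ← pow_mul, div_eq_mul_inv]
        ring
      simp only [e]
      refine ⟨h1.1.const_mul _, ?_⟩
      rw [integral_const_mul]
      have h2 : 0 ≤ w k * (w k ^ p)⁻¹ := by have := hwp k; positivity
      refine (mul_le_mul_of_nonneg_left h1.2 h2).trans_eq ?_
      rw [hsq]
      have h3 : r k = w k * R := by simp only [hw]; rw [div_mul_cancel₀ _ hRp.ne']
      rw [h3]
      have h4 : (16 * (w k * R)) ^ p = w k ^ p * (16 * R) ^ p := by rw [← mul_pow]; ring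
      rw [h4]
      have h5 : w k ^ p ≠ 0 := (pow_pos (hwp k) p).ne'
      field_simp
    have hsum : Integrable (fun g : I → ℝ => ∑ k, w k * (qf (H k) g ^ 2 / w k) ^ p) (gau I) :=
      integrable_finset_sum _ fun k _ => (hm2 k).1
    have hnn : ∀ g : I → ℝ, 0 ≤ (∑ k, qf (H k) g ^ 2) ^ p := fun g =>
      pow_nonneg (Finset.sum_nonneg fun k _ => sq_nonneg _) p
    have hI : Integrable (fun g : I → ℝ => (∑ k, qf (H k) g ^ 2) ^ p) (gau I) := by
      refine hsum.mono' hmeas.aestronglyMeasurable (Filter.Eventually.of_forall fun g => ?_)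
      rw [Real.norm_eq_abs, abs_of_nonneg (hnn g)]
      exact hJ g
    refine ⟨hI, ?_⟩
    calc ∫ g, (∑ k, qf (H k) g ^ 2) ^ p ∂(gau I)
        ≤ ∫ g, ∑ k, w k * (qf (H k) g ^ 2 / w k) ^ p ∂(gau I) := integral_mono hI hsum hJ
      _ = ∑ k, ∫ g, w k * (qf (H k) g ^ 2 / w k) ^ p ∂(gau I) :=
          integral_finset_sum _ fun k _ => (hm2 k).1
      _ ≤ ∑ k, w k * (3 / 2 * (2 * p).factorial * (16 * R) ^ p) :=
          Finset.sum_le_sum fun k _ => (hm2 k).2
      _ = 3 / 2 * (2 * p).factorial * (16 * R) ^ p := by rw [← Finset.sum_mul, hw1, one_mul]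
      _ ≤ _ := by gcongr
  refine ⟨(key 1 one_pos).1, ?_⟩
  have hlim : Filter.Tendsto (fun ε : ℝ => 3 / 2 * ((2 * p).factorial : ℝ) * (16 * (S + ε)) ^ p)
      (nhdsWithin 0 (Set.Ioi 0)) (nhds (3 / 2 * ((2 * p).factorial : ℝ) * (16 * S) ^ p)) := by
    have h1 : Continuous fun ε : ℝ => 3 / 2 * ((2 * p).factorial : ℝ) * (16 * (S + ε)) ^ p := by
      fun_prop
    have h2 := h1.tendsto 0
    rw [add_zero] at h2
    exact h2.mono_left nhdsWithin_le_nhds
  exact ge_of_tendsto hlim (Filter.eventually_of_mem self_mem_nhdsWithin fun ε hε => (key ε hε).2)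

end quad

end

end Vale.Agent.P159.H447
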