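import Vale.Agent.P159.H447.Cg9

/-!
P159 (helper447), **TYPS, part 1**: change of the prior (Hellinger distance).

`ν = μ e^{-Q/2}`, `Q ≥ 0`, `0 ≤ Ψ ≤ 1` :  `E_μ Ψ ≤ 2 E_ν Ψ + (E_μ Q - E_ν Q)`.
-/

set_option linter.unusedSectionVars false

namespace Vale.Agent.P159.H447

open Finset Matrix MeasureTheory
open Vale.Agent.P159.TM.H104 (EM Ex Gr nh li Ex_add Ex_sub Ex_cmul Ex_const Ex_mono Ex_nonneg)
open Vale.Agent.P159.H37

noncomputable section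

section hel

variable {V : Type*} [Fintype V] {μ ν : (V → ℤ) → ℝ} {Q : (V → ℤ) → ℝ}

lemma T_tilt (hν : ∀ h, ν h = μ h * Real.exp (-(Q h / 2))) (F : (V → ℤ) → ℝ) :
    TM.H104.T ν 0 F = TM.H104.T μ 0 (fun h => F h * Real.exp (-(Q h / 2))) := by
  unfold TM.H104.T
  exact tsum_congr fun h => by rw [hν]; ring

/-- expectation under the tilted weight -/
lemma Ex_tilt (hμ : EM μ) (hν : ∀ h, ν h = μ h * Real.exp (-(Q h / 2)))
    (F : (V → ℤ) → ℝ) :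
    Ex ν 0 F = Ex μ 0 (fun h => F h * Real.exp (-(Q h / 2))) /
      Ex μ 0 (fun h => Real.exp (-(Q h / 2))) := by
  have h1 := (TM.H104.T_one_pos hμ 0).ne'
  unfold Ex
  rw [T_tilt hν, T_tilt hν]
  simp only [one_mul]
  rw [div_div_div_cancel_right₀ h1]

lemma Ex_congr' {F G : (V → ℤ) → ℝ} (h : ∀ x, F x = G x) : Ex μ 0 F = Ex μ 0 G := by
  rw [funext h]

/-- Jensen, lower bound of an exponential moment -/
lemma exp_ge_tangent (hμ : EM μ) (hQ : Gr Q) (hQ0 : ∀ h, 0 ≤ Q h) (a : ℝ) (ha : 0 ≤ a) :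
    Real.exp (-(a * Ex μ 0 Q)) ≤ Ex μ 0 (fun h => Real.exp (-(a * Q h))) := by
  have hg : Gr fun h => Real.exp (-(a * Q h)) :=
    Gr.of_bdd (C := 1) fun h => by
      rw [abs_of_pos (Real.exp_pos _)]
      exact Real.exp_le_one_iff.2 (by nlinarith [hQ0 h])
  set m := Ex μ 0 Q with hm
  have hb : ∀ h, Real.exp (-(a * m)) * (1 + a * m) + -(a * Real.exp (-(a * m))) * Q h
      ≤ Real.exp (-(a * Q h)) := by
    intro h
    have h1 := Real.add_one_le_exp (-(a * Q h) + a * m)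
    have h2 : Real.exp (-(a * Q h)) = Real.exp (-(a * m)) * Real.exp (-(a * Q h) + a * m) := by
      rw [← Real.exp_add]
      congr 1
      ring
    rw [h2]
    nlinarith [mul_le_mul_of_nonneg_left h1 (Real.exp_pos (-(a * m))).le]
  have h3 := Ex_mono hμ ((Gr.const _).add (hQ.cmul _)) hg hb 0
  rw [Ex_add hμ (Gr.const _) (hQ.cmul _), Ex_const hμ, Ex_cmul, ← hm] at h3
  refine le_trans (le_of_eq ?_) h3
  ring

/-- **CHANGE OF PRIOR.** -/
theorem hell (hμ : EM μ) (hQ : Gr Q) (hQ0 : ∀ h, 0 ≤ Q h)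
    (hν : ∀ h, ν h = μ h * Real.exp (-(Q h / 2))) {Ψ : (V → ℤ) → ℝ}
    (h0 : ∀ h, 0 ≤ Ψ h) (h1 : ∀ h, Ψ h ≤ 1) :
    Ex μ 0 Ψ ≤ 2 * Ex ν 0 Ψ + (Ex μ 0 Q - Ex ν 0 Q) := by
  have hgΨ : Gr Ψ := Gr.of_bdd (C := 1) fun h => by
    rw [abs_of_nonneg (h0 h)]; exact h1 h
  -- the three functions
  have hz : ∀ a : ℝ, 0 ≤ a → Gr fun h => Real.exp (-(a * Q h)) := fun a ha =>
    Gr.of_bdd (C := 1) fun h => by
      rw [abs_of_pos (Real.exp_pos _)]
      exact Real.exp_le_one_iff.2 (by nlinarith [hQ0 h])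
  have e2 : ∀ h, Real.exp (-(Q h / 2)) = Real.exp (-((1 / 2) * Q h)) := fun h => by
    congr 1; ring
  have e4 : ∀ h, Real.exp (-((1 / 2) * Q h)) =
      Real.exp (-((1 / 4) * Q h)) * Real.exp (-((1 / 4) * Q h)) := fun h => by
    rw [← Real.exp_add]; congr 1; ring
  have hν' : ∀ F : (V → ℤ) → ℝ, Ex ν 0 F = Ex μ 0 (fun h => F h * Real.exp (-((1 / 2) * Q h))) /
      Ex μ 0 (fun h => Real.exp (-((1 / 2) * Q h))) := by
    intro F
    rw [Ex_tilt hμ hν]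
    simp only [e2]
  set r := Ex μ 0 (fun h => Real.exp (-((1 / 2) * Q h))) with hr
  set w := Ex μ 0 (fun h => Real.exp (-((1 / 4) * Q h))) with hw
  have hr1 : Real.exp (-((1 / 2) * Ex μ 0 Q)) ≤ r := exp_ge_tangent hμ hQ hQ0 _ (by norm_num)
  have hw1 : Real.exp (-((1 / 4) * Ex μ 0 Q)) ≤ w := exp_ge_tangent hμ hQ hQ0 _ (by norm_num)
  have hrp : 0 < r := lt_of_lt_of_le (Real.exp_pos _) hr1
  set s := Real.sqrt r with hs
  have hsp : 0 < s := Real.sqrt_pos.2 hrp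
  have hs2 : s * s = r := Real.mul_self_sqrt hrp.le
  -- upper bound of r : r ≤ exp (-(1/2) E_ν Q)
  have hr2 : r ≤ Real.exp (-((1 / 2) * Ex ν 0 Q)) := by
    set m := Ex ν 0 Q with hm
    -- 1 = E_μ (e^{-Q/2} e^{Q/2}) ≥ ...
    have hb : ∀ h, Real.exp ((1 / 2) * m) * (1 - (1 / 2) * m) * Real.exp (-((1 / 2) * Q h)) +
        (1 / 2) * Real.exp ((1 / 2) * m) * (Q h * Real.exp (-((1 / 2) * Q h))) ≤ 1 := by
      intro h
      have h3 := Real.add_one_le_exp ((1 / 2) * Q h - (1 / 2) * m)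
      have h4 : Real.exp ((1 / 2) * m) * Real.exp (-((1 / 2) * Q h)) *
          Real.exp ((1 / 2) * Q h - (1 / 2) * m) = 1 := by
        rw [← Real.exp_add, ← Real.exp_add]
        rw [show (1 / 2) * m + -((1 / 2) * Q h) + ((1 / 2) * Q h - (1 / 2) * m) = 0 by ring,
          Real.exp_zero]
      have h5 : 0 ≤ Real.exp ((1 / 2) * m) * Real.exp (-((1 / 2) * Q h)) := by positivity
      nlinarith [mul_le_mul_of_nonneg_left h3 h5]
    have hgz := hz (1 / 2) (by norm_num)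
    have h3 := Ex_mono hμ ((hgz.cmul _).add ((hQ.mul hgz).cmul _)) (Gr.const 1) hb 0
    rw [Ex_add hμ (hgz.cmul _) ((hQ.mul hgz).cmul _), Ex_cmul, Ex_cmul, Ex_const hμ, ← hr] at h3
    have h6 : Ex μ 0 (fun h => Q h * Real.exp (-((1 / 2) * Q h))) = m * r := by
      rw [hm, hν' Q, div_mul_cancel₀ _ hrp.ne']
    rw [h6] at h3
    have h7 : Real.exp ((1 / 2) * m) * r ≤ 1 := by nlinarith
    rw [Real.exp_neg]
    rw [le_inv_comm₀ hrp (Real.exp_pos _)] 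
    rw [← one_div, le_div_iff₀ hrp]
    exact h7
  -- pointwise inequality
  have hpt : ∀ h, Ψ h ≤ 2 / r * (Ψ h * Real.exp (-((1 / 2) * Q h))) +
      (2 + -(4 / s) * Real.exp (-((1 / 4) * Q h)) + 2 / r * Real.exp (-((1 / 2) * Q h))) := by
    intro h
    set z := Real.exp (-((1 / 4) * Q h)) with hz'
    have ez : Real.exp (-((1 / 2) * Q h)) = z * z := e4 h
    rw [ez, ← hs2]
    have hp0 := h0 h
    have hp1 := h1 h
    set y := z / s with hy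
    have e1 : 2 / (s * s) * (Ψ h * (z * z)) = 2 * Ψ h * y ^ 2 := by
      rw [hy]; field_simp
    have e2 : -(4 / s) * z = -4 * y := by rw [hy]; ring
    have e3 : 2 / (s * s) * (z * z) = 2 * y ^ 2 := by rw [hy]; field_simp
    rw [e1, e2, e3]
    nlinarith [sq_nonneg (1 - y), sq_nonneg (1 - 2 * y), mul_nonneg hp0 (sq_nonneg (1 - y)),
      mul_nonneg (sub_nonneg.2 hp1) (sq_nonneg (1 - y)), mul_nonneg hp0 (sq_nonneg (1 - 2 * y))]
  have hgz2 := hz (1 / 2) (by norm_num)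
  have hgz4 := hz (1 / 4) (by norm_num)
  have hg1 : Gr fun h => 2 / r * (Ψ h * Real.exp (-((1 / 2) * Q h))) := (hgΨ.mul hgz2).cmul _
  have hg2 : Gr fun h => (2 : ℝ) + -(4 / s) * Real.exp (-((1 / 4) * Q h)) :=
    (Gr.const 2).add (hgz4.cmul _)
  have hg3 : Gr fun h => 2 / r * Real.exp (-((1 / 2) * Q h)) := hgz2.cmul _
  have h3 := Ex_mono hμ hgΨ (hg1.add (hg2.add hg3)) hpt 0
  rw [Ex_add hμ hg1 (hg2.add hg3), Ex_add hμ hg2 hg3, Ex_add hμ (Gr.const 2) (hgz4.cmul _),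
    Ex_const hμ, Ex_cmul, Ex_cmul, Ex_cmul, ← hr, ← hw] at h3
  have h4 : 2 / r * Ex μ 0 (fun h => Ψ h * Real.exp (-((1 / 2) * Q h))) = 2 * Ex ν 0 Ψ := by
    rw [hν' Ψ]; ring
  rw [h4, div_mul_cancel₀ _ hrp.ne'] at h3
  -- w / s ≥ 1 - (Eμ Q - Eν Q)/4
  have h5 : 1 - (Ex μ 0 Q - Ex ν 0 Q) / 4 ≤ w / s := by
    have hs3 : s ≤ Real.exp (-((1 / 4) * Ex ν 0 Q)) := by
      rw [hs]
      refine Real.sqrt_le_iff.2 ⟨(Real.exp_pos _).le, hr2.trans (le_of_eq ?_)⟩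
      rw [pow_two, ← Real.exp_add]; congr 1; ring
    rw [le_div_iff₀ hsp]
    have h6 := Real.add_one_le_exp (-((Ex μ 0 Q - Ex ν 0 Q) / 4))
    have h7 : Real.exp (-((1 / 4) * Ex μ 0 Q)) = Real.exp (-((1 / 4) * Ex ν 0 Q)) *
        Real.exp (-((Ex μ 0 Q - Ex ν 0 Q) / 4)) := by
      rw [← Real.exp_add]; congr 1; ring
    by_cases h8 : 0 ≤ 1 - (Ex μ 0 Q - Ex ν 0 Q) / 4
    · calc (1 - (Ex μ 0 Q - Ex ν 0 Q) / 4) * s
          ≤ (1 - (Ex μ 0 Q - Ex ν 0 Q) / 4) * Real.exp (-((1 / 4) * Ex ν 0 Q)) :=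
            mul_le_mul_of_nonneg_left hs3 h8
        _ ≤ Real.exp (-((Ex μ 0 Q - Ex ν 0 Q) / 4)) * Real.exp (-((1 / 4) * Ex ν 0 Q)) := by
            refine mul_le_mul_of_nonneg_right ?_ (Real.exp_pos _).le
            linarith
        _ = Real.exp (-((1 / 4) * Ex μ 0 Q)) := by rw [h7]; ring
        _ ≤ w := hw1
    · have : (1 - (Ex μ 0 Q - Ex ν 0 Q) / 4) * s ≤ 0 :=
        mul_nonpos_of_nonpos_of_nonneg (not_le.1 h8).le hsp.le
      have hwp : 0 < w := lt_of_lt_of_le (Real.exp_pos _) hw1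
      linarith
  have h6 : -(4 / s) * w = -4 * (w / s) := by ring
  rw [h6] at h3
  linarith

end hel

end

end Vale.Agent.P159.H447
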