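import Vale.Agent.P159.H30.RF0
import Vale.Agent.P159.H447.Sit1

/-!
P159 (helper447), **TYPS, part 2**: the fine part `(1 - P_l) z` of a random source of **any** law with
sixth moments `M6 ν τ` : `E Rs (2 (1 - P_l) z) ≤ C (t N²) (τ / t)³ (l √t) ^ c` (integer model, neutral
model, scalar mass on sites).
-/

set_option linter.unusedSectionVars false

namespace Vale.Agent.P159.H447

open Finset Matrix MeasureTheory Filter Topology
open Vale.Agent.P159.TM.H104 (EM Ex Cv Lg li nh Gr)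
open Vale.Agent.P159.H37
open Vale.Agent.P159.TM.Spec (V)
open Vale.Agent.P159.TM.SpecC (wT)
open Vale.Agent.P159.H864 (Dr sum_Dr levok_gen)
open Vale.Agent.P159.H692 (M6 fn_core CFN CFN_nonneg)

noncomputable section

/-- **the fine part of a random source**, integer model, mass `t` off the cells, any law -/
theorem fine_law {b : ℝ} (hb : 0 ≤ b) : ∃ C c : ℝ, 0 ≤ C ∧ 0 < c ∧ c ≤ 1 ∧
    ∀ (N : ℕ) [NeZero N] (n p : ℕ), 2 ^ n ∣ N → 2 ^ p ∣ N →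
    ∀ t : ℝ, 0 < t → t * ((2 : ℝ) ^ n) ^ 2 ≤ 1 → 1 < t * 4 ^ (p + 1) →
    ∀ (m0 : ℝ) (M : Matrix (V N) (V N) ℝ), 0 < m0 → Mᵀ = M →
      (∀ u : V N → ℝ, m0 * ∑ x, u x ^ 2 ≤ qf M u) →
      (∀ u : V N → ℝ, qf M u ≤ t * ∑ x, u x ^ 2) →
      (∀ y : V N → ℝ, cellP N (2 ^ n) *ᵥ y = 0 → M *ᵥ y = t • y) →
    ∀ (ν : Measure (V N → ℝ)) [IsProbabilityMeasure ν] (τ : ℝ), M6 ν τ → t ≤ τ →
    Integrable (fun z => Rs (wM (wT b N) M) ((2 : ℝ) • ((1 - cellP N (2 ^ n)) *ᵥ z))) ν ∧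
    ∫ z, Rs (wM (wT b N) M) ((2 : ℝ) • ((1 - cellP N (2 ^ n)) *ᵥ z)) ∂ν ≤
      C * ((t * (N : ℝ) ^ 2) * (τ / t) ^ 3) * ((2 : ℝ) ^ n * √t) ^ c := by
  obtain ⟨C0, C1, κ, c, hC0, hC1, hκ, hc, hc1, hlev⟩ := levok_gen hb
  have hCF := CFN_nonneg hC0 hC1 hκ hc
  refine ⟨CFN C0 C1 κ c, c / 2, by positivity, by positivity, by linarith, ?_⟩
  intro N _ n p hn hp t ht htn htp m0 M hm0 hMs hMl hMu hfix ν _ τ hν htτ
  have hμ := H789.em_wM_wT hb hm0 hMl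
  have hE := H789.ev_wM_wT (b := b) M
  have hK : PK (wM (wT b N) M) := H789.pk_wM_wT' hb hm0 hMl
  have hcore := fn_core hμ hE hK hC0 hC1 hκ hc hc1 ht htn htp (D := fun i => Dr N (2 ^ i)) (N := N)
    (fun i hi j hij hjp ht1 => hlev N i j n hij (by omega)
      (dvd_trans (pow_dvd_pow 2 hjp) hp) hn t ht ht1 m0 M hm0 hMs hMl hMu hfix)
    hν htτ
  rw [sum_Dr] at hcore
  exact hcore

lemma measurable_fine {N : ℕ} [NeZero N] {μ : (V N → ℤ) → ℝ} (hμ : EM μ) (l : ℕ) :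
    Measurable fun z : V N → ℝ => Rs μ ((2 : ℝ) • ((1 - cellP N l) *ᵥ z)) := by
  have h1 : Measurable fun z : V N → ℝ => Rs μ ((2 : ℝ) • z) :=
    (H692.continuous_Rs hμ).measurable.comp (measurable_const_smul _)
  have h2 : Measurable fun z : V N → ℝ => (1 - cellP N l) *ᵥ z := by
    refine measurable_pi_lambda _ fun x => ?_
    simp only [mulVec, dotProduct]
    fun_prop
  exact h1.comp h2

/-- **the fine part of a random source**, neutral model, mass `t` off the cells, any law -/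
theorem fine_law_N {b : ℝ} (hb : 0 ≤ b) : ∃ C c : ℝ, 0 ≤ C ∧ 0 < c ∧ c ≤ 1 ∧
    ∀ (N : ℕ) [NeZero N] (n p : ℕ), 2 ^ n ∣ N → 2 ^ p ∣ N →
    ∀ t : ℝ, 0 < t → t * ((2 : ℝ) ^ n) ^ 2 ≤ 1 → 1 < t * 4 ^ (p + 1) →
    ∀ (a m : ℝ) (M : Matrix (V N) (V N) ℝ), H159.MasN t a M m M m →
      (∀ y : V N → ℝ, cellP N (2 ^ n) *ᵥ y = 0 → M *ᵥ y = t • y) →
    ∀ (x₀ : V N) (ν : Measure (V N → ℝ)) [IsProbabilityMeasure ν] (τ : ℝ), M6 ν τ → t ≤ τ →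
    Integrable (fun z => Rs (H963.nM (wT b N) M m x₀)
      ((2 : ℝ) • ((1 - cellP N (2 ^ n)) *ᵥ z))) ν ∧
    ∫ z, Rs (H963.nM (wT b N) M m x₀) ((2 : ℝ) • ((1 - cellP N (2 ^ n)) *ᵥ z)) ∂ν ≤
      C * ((t * (N : ℝ) ^ 2) * (τ / t) ^ 3) * ((2 : ℝ) ^ n * √t) ^ c := by
  obtain ⟨C, c, hC, hc, hc1, h⟩ := fine_law hb
  refine ⟨C, c, hC, hc, hc1, ?_⟩
  intro N _ n p hn hp t ht htn htp a m M hMas hfix x₀ ν _ τ hν htτ
  have hw := H963.gw_wT (N := N) hb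
  have hev := hMas.ev ht
  obtain ⟨u, hu1, hu2⟩ := exists_seq_strictAnti_tendsto' (show (0 : ℝ) < 1 by norm_num)
  have hut : Tendsto u atTop (𝓝[>] (0 : ℝ)) := by
    rw [tendsto_nhdsWithin_iff]
    exact ⟨hu2.2, Filter.Eventually.of_forall fun k => (hu2.1 k).1⟩
  obtain ⟨k0, hk0⟩ := Filter.eventually_atTop.1 (hut.eventually hev)
  have hneu : ∀ z : V N → ℝ, H963.Neu ((2 : ℝ) • ((1 - cellP N (2 ^ n)) *ᵥ z)) := by
    intro z
    refine H692.Neu_two ?_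
    have h1 : cellP N (2 ^ n) *ᵥ ((1 - cellP N (2 ^ n)) *ᵥ z) = 0 := by
      rw [mulVec_mulVec, Matrix.mul_sub, Matrix.mul_one, H864.cellP_idem hn, sub_self,
        Matrix.zero_mulVec]
    exact H692.sum_of_cellP hn h1
  have hk := fun k => hk0 _ (Nat.le_add_left k0 k)
  have hmain : ∀ k, _ := fun k => h N n p hn hp t ht htn htp (u (k + k0))
    (H159.Ms M m (u (k + k0))) (hk k).1 (hk k).2.s1 (hk k).2.lo (hk k).2.up
    (fun y hy => by rw [H692.Ms_mulVec M m _ (H692.sum_of_cellP hn hy), hfix y hy]) ν τ hν htτ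
  refine H30.fatou_seq (f := fun k z => Rs (wM (wT b N) (H159.Ms M m (u (k + k0))))
    ((2 : ℝ) • ((1 - cellP N (2 ^ n)) *ᵥ z))) (fun k z => ?_) (fun k => ?_) ?_
    (fun k => (hmain k).1) (fun k => (hmain k).2) fun z => ?_
  · exact H789.Rs_nonneg (H789.em_wM_wT hb (hk k).1 (hk k).2.lo) (H789.ev_wM_wT _)
      (H789.pk_wM_wT' hb (hk k).1 (hk k).2.lo) _
  · exact measurable_fine (H789.em_wM_wT hb (hk k).1 (hk k).2.lo) _
  · exact measurable_fine (hw.em_nM hMas.mf1 x₀) _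
  · have h1 := (H692.lim_Rs hw hMas.mf1 x₀ (hneu z)).comp
      (hut.comp (tendsto_add_atTop_nat k0))
    exact h1

/-- scalar mass forms -/
lemma qf_smul_one' {N : ℕ} [NeZero N] (t : ℝ) (u : V N → ℝ) :
    qf (t • (1 : Matrix (V N) (V N) ℝ)) u = t * ∑ x, u x ^ 2 := by
  rw [H864.qf_smul_mat, qf_eq, one_mulVec]
  unfold dotProduct
  congr 1
  exact Finset.sum_congr rfl fun x _ => by ring

lemma mf_scal {N : ℕ} [NeZero N] {t : ℝ} (ht : 0 < t) :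
    H963.MF (t • (1 : Matrix (V N) (V N) ℝ)) t where
  symm := by rw [Matrix.transpose_smul, Matrix.transpose_one]
  row x := by
    simp only [Matrix.smul_apply, smul_eq_mul, ← Finset.mul_sum]
    rw [H963.row_one, mul_one]
  coer := ⟨t, ht, fun u => (qf_smul_one' t u).ge⟩

lemma masN_scal {N : ℕ} [NeZero N] {t : ℝ} (ht : 0 < t) :
    H159.MasN t t (t • (1 : Matrix (V N) (V N) ℝ)) t (t • (1 : Matrix (V N) (V N) ℝ)) t where
  mf0 := mf_scal ht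
  mf1 := mf_scal ht
  apos := ht
  lo u _ := (qf_smul_one' t u).ge
  mid u _ := le_rfl
  up u _ := (qf_smul_one' t u).le

/-- **the fine part of a random source**, neutral model, scalar mass, any law -/
theorem fine_site {b : ℝ} (hb : 0 ≤ b) : ∃ C c : ℝ, 0 ≤ C ∧ 0 < c ∧ c ≤ 1 ∧
    ∀ (N : ℕ) [NeZero N] (n p : ℕ), 2 ^ n ∣ N → 2 ^ p ∣ N →
    ∀ t : ℝ, 0 < t → t * ((2 : ℝ) ^ n) ^ 2 ≤ 1 → 1 < t * 4 ^ (p + 1) →
    ∀ (x₀ : V N) (ν : Measure (V N → ℝ)) [IsProbabilityMeasure ν] (τ : ℝ), M6 ν τ → t ≤ τ →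
    Integrable (fun z => Rs (H963.nwt N b t x₀) ((2 : ℝ) • ((1 - cellP N (2 ^ n)) *ᵥ z))) ν ∧
    ∫ z, Rs (H963.nwt N b t x₀) ((2 : ℝ) • ((1 - cellP N (2 ^ n)) *ᵥ z)) ∂ν ≤
      C * ((t * (N : ℝ) ^ 2) * (τ / t) ^ 3) * ((2 : ℝ) ^ n * √t) ^ c := by
  obtain ⟨C, c, hC, hc, hc1, h⟩ := fine_law_N hb
  refine ⟨C, c, hC, hc, hc1, ?_⟩
  intro N _ n p hn hp t ht htn htp x₀ ν _ τ hν htτ
  exact h N n p hn hp t ht htn htp t t _ (masN_scal ht)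
    (fun y _ => by rw [Matrix.smul_mulVec, Matrix.one_mulVec]) x₀ ν τ hν htτ

end

end Vale.Agent.P159.H447
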