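import Vale.Agent.P159.H447.Sit2

/-!
P159 (helper447), **TYPS, part 3**: the channel of all sites, and the universal transfer of every event
of the cell part: `P_site (J_c ∈ E) ≤ 2 P_cell (J ∈ E) + C (t N²) (t l²) ^ c`, uniformly in the prior
mass `s`.
-/

set_option linter.unusedSectionVars false

namespace Vale.Agent.P159.H447

open Finset Matrix MeasureTheory Filter Topology
open Vale.Agent.P159.TM.H104 (EM Ex Cv Lg li nh Gr)
open Vale.Agent.P159.H37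
open Vale.Agent.P159.TM.Spec (V)
open Vale.Agent.P159.TM.SpecC (wT)
open Vale.Agent.P159.H963 (Pn nM pin ntr nwt nMC obsN MF Neu post_pin Pn_transpose Pn_mul_Pn
  cobV_mul_Pn Pn_cellP_Pn obsN_gram)
open Vale.Agent.P159.H864 (MC cobV)
open Vale.Agent.P159.H730 (wN)

noncomputable section

variable {N l : ℕ} [NeZero N] {b t s : ℝ}

/-- observation of all sites, modulo constants -/
def obS (N : ℕ) [NeZero N] (s : ℝ) : Matrix (V N) (V N) ℝ := √s • (Pn : Matrix (V N) (V N) ℝ)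

lemma obS_gram {s : ℝ} (hs : 0 ≤ s) :
    (obS N s)ᵀ * obS N s = s • (Pn : Matrix (V N) (V N) ℝ) := by
  unfold obS
  rw [transpose_smul, Pn_transpose, Matrix.smul_mul, Matrix.mul_smul, smul_smul,
    Real.mul_self_sqrt hs, Pn_mul_Pn]

lemma ntr_scal (c : ℝ) : ntr (c • (1 : Matrix (V N) (V N) ℝ)) c = c • (Pn : Matrix (V N) (V N) ℝ) := by
  unfold H963.Pn ntr
  ext x y
  simp only [Matrix.sub_apply, Matrix.smul_apply, smul_eq_mul, Matrix.of_apply]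
  ring

/-- the posterior of the channel of all sites -/
lemma post_nwt (b : ℝ) (h : s ≤ t) (x₀ : V N) : post (nwt N b s x₀) (obS N (t - s)) = nwt N b t x₀ := by
  unfold H963.nwt nM
  rw [post_pin, H37.post_wM, obS_gram (sub_nonneg.2 h), ntr_scal, ntr_scal, ← add_smul,
    add_sub_cancel]

lemma em_nwt' (hb : 0 ≤ b) (hs : 0 < s) (x₀ : V N) : EM (nwt N b s x₀) :=
  (H963.gw_wT hb).em_nM (mf_scal hs) x₀

/-- the mixture formula -/
lemma Ech_mix {V' I : Type*} [Fintype V'] [Fintype I] {μ' : (V' → ℤ) → ℝ} (hμ : EM μ')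
    (P : Matrix I V' ℝ) {Φ : (V' → ℝ) → ℝ} (hΦ : EGr Φ) :
    Ech μ' 0 P Φ = Ex μ' 0 fun h => ∫ g, Φ (Pᵀ *ᵥ (P *ᵥ re h) + Pᵀ *ᵥ g) ∂(gau I) := by
  have h := H663.Ech_mul_Ex hμ 0 P hΦ (Gr.const 1)
  have hp := em_post hμ P
  simp only [TM.H104.Ex_const hp, mul_one, one_mul, zero_add, mulVec_add] at h
  exact h

lemma egr_bdd {V' : Type*} [Fintype V'] {Φ : (V' → ℝ) → ℝ} (hm : Measurable Φ) (h0 : ∀ J, 0 ≤ Φ J)
    (h1 : ∀ J, Φ J ≤ 1) : EGr Φ :=
  EGr.mk' (A := 1) (B := 0) hm fun J => by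
    rw [abs_of_nonneg (h0 J), zero_mul, Real.exp_zero, mul_one]
    exact h1 J

section alg

variable [NeZero (N / l)]

/-- the cell projection of the neutral part -/
lemma cellP_Pn (hl : l ∣ N) : cellP N l * (Pn : Matrix (V N) (V N) ℝ) = ntr (cellP N l) 1 := by
  have h := Pn_cellP_Pn (N := N) (l := l) hl
  have h3 : (Pn : Matrix (V N) (V N) ℝ) * (cobV N l)ᵀ =
      (cobV N l)ᵀ * (Pn : Matrix (V (N / l)) (V (N / l)) ℝ) := by
    have h3 := congrArg Matrix.transpose (cobV_mul_Pn (N := N) (l := l) hl)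
    rwa [transpose_mul, transpose_mul, Pn_transpose, Pn_transpose] at h3
  rw [← h, H864.cellP_eq hl, Matrix.mul_assoc, Matrix.mul_assoc, Matrix.mul_assoc,
    cobV_mul_Pn hl, ← Matrix.mul_assoc Pn, h3, Matrix.mul_assoc,
    ← Matrix.mul_assoc (Pn : Matrix (V (N / l)) (V (N / l)) ℝ), Pn_mul_Pn]

lemma ntr_cellP (hl : l ∣ N) : ntr (cellP N l) 1 * cellP N l = ntr (cellP N l) 1 := by
  have h1 := cellP_Pn (N := N) (l := l) hl
  have h2 : (ntr (cellP N l) 1)ᵀ = ntr (cellP N l) 1 :=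
    H963.ntr_transpose (H864.cellP_tr N l) 1
  have h3 : ntr (cellP N l) 1 = (Pn : Matrix (V N) (V N) ℝ) * cellP N l := by
    rw [← h2, ← h1, transpose_mul, Pn_transpose, H864.cellP_tr]
  rw [h3, Matrix.mul_assoc, H864.cellP_idem hl]

/-- the law of the cell part given the field -/
lemma cell_part (hl : l ∣ N) (hs : 0 ≤ s) {Φ : (V N → ℝ) → ℝ} (hm : Measurable Φ) (h : V N → ℤ) :
    ∫ g, Φ (cellP N l *ᵥ ((obS N s)ᵀ *ᵥ (obS N s *ᵥ re h) + (obS N s)ᵀ *ᵥ g)) ∂(gau (V N)) =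
      ∫ g, Φ ((obsN N l s)ᵀ *ᵥ (obsN N l s *ᵥ re h) + (obsN N l s)ᵀ *ᵥ g) ∂(gau (V (N / l))) := by
  have e1 : cellP N l * ((obS N s)ᵀ * obS N s) = (obsN N l s)ᵀ * obsN N l s := by
    rw [obS_gram hs, obsN_gram hl hs, Matrix.mul_smul, cellP_Pn hl]
  have e2 : ∀ g : V N → ℝ, cellP N l *ᵥ ((obS N s)ᵀ *ᵥ (obS N s *ᵥ re h) + (obS N s)ᵀ *ᵥ g) =
      (obsN N l s)ᵀ *ᵥ (obsN N l s *ᵥ re h) + (cellP N l * (obS N s)ᵀ) *ᵥ g := fun g => by
    rw [mulVec_add, mulVec_mulVec, mulVec_mulVec, mulVec_mulVec, mulVec_mulVec, Matrix.mul_assoc,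
      e1]
  simp only [e2]
  refine H363.law_integral_eq_add (cellP N l * (obS N s)ᵀ) ((obsN N l s)ᵀ) ?_ _ Φ
    hm.stronglyMeasurable
  rw [transpose_mul, transpose_transpose, transpose_transpose, H864.cellP_tr, Matrix.mul_assoc,
    ← Matrix.mul_assoc (obS N s)ᵀ, ← Matrix.mul_assoc, e1, obsN_gram hl hs, Matrix.smul_mul,
    ntr_cellP hl]

end alg

/-- the change of the mass form -/
lemma nM_add {w : (V N → ℤ) → ℝ} (M₀ Q : Matrix (V N) (V N) ℝ) (m₀ : ℝ) (x₀ : V N) (v : ℝ)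
    (h : V N → ℤ) : nM w (M₀ + v • Q) m₀ x₀ h =
      nM w M₀ m₀ x₀ h * Real.exp (-(v * qf Q (re h) / 2)) := by
  unfold nM pin
  by_cases h0 : h x₀ = 0
  · rw [if_pos h0, if_pos h0]
    unfold wM
    have e1 : ntr (M₀ + v • Q) m₀ = ntr M₀ m₀ + v • Q := by
      unfold ntr
      abel
    rw [e1, H37.qf_add_mat, H864.qf_smul_mat, mul_assoc, ← Real.exp_add]
    congr 2
    ring
  · rw [if_neg h0, if_neg h0, zero_mul]

/-- **TRANSFER** of every functional of the cell part -/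
theorem cell_transfer (hb : 0 ≤ b) : ∃ C c : ℝ, 0 < C ∧ 0 < c ∧
    ∀ (N : ℕ) [NeZero N] (t : ℝ), 0 < t → 9 ≤ t * (N : ℝ) ^ 2 →
    ∀ l : ℕ, l ∣ N → t * (l : ℝ) ^ 2 ≤ 1 → ∀ [NeZero (N / l)] (s : ℝ), 0 < s → s ≤ t →
    ∀ Φ : (V N → ℝ) → ℝ, Measurable Φ → (∀ J, 0 ≤ Φ J) → (∀ J, Φ J ≤ 1) →
      Ech (nwt N b s 0) 0 (obS N (t - s)) (fun J => Φ (cellP N l *ᵥ J)) ≤
        2 * Ech (wN N l b t s) 0 (obsN N l (t - s)) Φ +
          C * (t * (N : ℝ) ^ 2) * (t * (l : ℝ) ^ 2) ^ c := by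
  obtain ⟨C, c, hC, hc, hF⟩ := H159.fine_N (b := b) hb
  refine ⟨C, c, hC, hc, ?_⟩
  intro N _ t ht htN l hl htl _ s hs hst Φ hm h0 h1
  have hE := em_nwt' (N := N) hb hs (0 : V N)
  have hE' : EM (wN N l b t s) := H963.em_nMC hb hl hs hst 0
  have hts : 0 ≤ t - s := sub_nonneg.2 hst
  have hcm : Measurable fun J : V N → ℝ => Φ (cellP N l *ᵥ J) := by
    refine hm.comp (measurable_pi_lambda _ fun x => ?_)
    simp only [mulVec, dotProduct]
    fun_prop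
  rw [Ech_mix hE _ (egr_bdd hcm (fun J => h0 _) fun J => h1 _), Ech_mix hE' _ (egr_bdd hm h0 h1)]
  simp only [cell_part hl hts hm]
  set Ψ : (V N → ℤ) → ℝ := fun h => ∫ g, Φ ((obsN N l (t - s))ᵀ *ᵥ (obsN N l (t - s) *ᵥ re h) +
    (obsN N l (t - s))ᵀ *ᵥ g) ∂(gau (V (N / l))) with hΨ
  have hΨ0 : ∀ h, 0 ≤ Ψ h := fun h => integral_nonneg fun g => h0 _
  have hΨ1 : ∀ h, Ψ h ≤ 1 := fun h => by
    have h2 : ∀ g : V (N / l) → ℝ, ‖Φ ((obsN N l (t - s))ᵀ *ᵥ (obsN N l (t - s) *ᵥ re h) +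
        (obsN N l (t - s))ᵀ *ᵥ g)‖ ≤ 1 := fun g => by
      rw [Real.norm_eq_abs, abs_of_nonneg (h0 _)]
      exact h1 _
    have h3 := norm_integral_le_of_norm_le_const (μ := gau (V (N / l)))
      (Filter.Eventually.of_forall h2)
    rw [Real.norm_eq_abs, probReal_univ, mul_one] at h3
    exact (le_abs_self _).trans h3
  -- the tilt
  set Q : (V N → ℤ) → ℝ := fun h => (t - s) * qf (1 - cellP N l) (re h) with hQ
  have hQ0 : ∀ h, 0 ≤ Q h := fun h => mul_nonneg hts (H159.fine_nonneg hl _)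
  have gq : Gr fun h : V N → ℤ => qf (1 - cellP N l) (re h) := gr_qf _
  have hν : ∀ h, wN N l b t s h = nwt N b s 0 h * Real.exp (-(Q h / 2)) := by
    intro h
    have h2 := nM_add (w := wT b N) (MC N l s s) (1 - cellP N l) s 0 (t - s) h
    rw [← H692.MC_add_fine N l s t s] at h2
    have h3 : nwt N b s (0 : V N) = nM (wT b N) (MC N l s s) s 0 := by
      rw [H864.MC_self]
      rfl
    rw [h3]
    exact h2
  have key := hell hE (gq.cmul (t - s)) hQ0 hν hΨ0 hΨ1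
  refine key.trans ?_
  have h5 := (hF N t ht htN l hl htl (min s s) (MC N l s s) (MC N l t s) s s
    (H692.masN_MC hl hs hst hs hst) 0).2
  have h6 : Ex (nwt N b s (0 : V N)) 0 Q - Ex (wN N l b t s) 0 Q ≤
      C * (t * (N : ℝ) ^ 2) * (t * (l : ℝ) ^ 2) ^ c := by
    rw [hQ, TM.H104.Ex_cmul, TM.H104.Ex_cmul, ← mul_sub]
    have h3 : nwt N b s (0 : V N) = nM (wT b N) (MC N l s s) s 0 := by
      rw [H864.MC_self]
      rfl
    rw [h3]
    refine (mul_le_mul_of_nonneg_left h5 hts).trans ?_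
    have h7 : 0 ≤ C * (N : ℝ) ^ 2 * (t * (l : ℝ) ^ 2) ^ c := by positivity
    calc (t - s) * (C * (N : ℝ) ^ 2 * (t * (l : ℝ) ^ 2) ^ c)
        ≤ t * (C * (N : ℝ) ^ 2 * (t * (l : ℝ) ^ 2) ^ c) :=
          mul_le_mul_of_nonneg_right (by linarith) h7
      _ = _ := by ring
  linarith

end

end Vale.Agent.P159.H447
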