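import Vale.Agent.P159.H447.Sit3
import Vale.Agent.P159.H896.Ht0

/-!
P159 (helper447), **TYPS, part 4**: sixth moments of the source of the channel of all sites, uniform in
the prior mass `s → 0`; the rough part of the source under the exact law.
-/

set_option linter.unusedSectionVars false

namespace Vale.Agent.P159.H447

open Finset Matrix MeasureTheory Filter Topology
open Vale.Agent.P159.TM.H104 (EM Ex Cv Lg li nh Gr)
open Vale.Agent.P159.H37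
open Vale.Agent.P159.TM.Spec (V)
open Vale.Agent.P159.TM.SpecC (wT)
open Vale.Agent.P159.TM.H764 (grd)
open Vale.Agent.P159.H963 (Pn nM pin ntr nwt nMC obsN MF Neu Pn_transpose Pn_mul_Pn neu_Pn)
open Vale.Agent.P159.H896 (Gam0 edge_neu poin_neu mf_lap)
open Vale.Agent.P159.H462 (chm Ech_chm chI_iff chm_prob)
open Vale.Agent.P159.H692 (M6)

noncomputable section

/-- the bare coupling -/
def kb (b : ℝ) : ℝ := 1 / (b + 12 * max b 1 ^ 2)

lemma kb_pos {b : ℝ} (hb : 0 ≤ b) : 0 < kb b := by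
  have h1 : (1 : ℝ) ≤ max b 1 := le_max_right _ _
  unfold kb
  positivity

lemma kb_le {b : ℝ} (hb : 0 ≤ b) : kb b ≤ 1 / 12 := by
  have h1 : (1 : ℝ) ≤ max b 1 := le_max_right _ _
  unfold kb
  refine one_div_le_one_div_of_le (by norm_num) ?_
  nlinarith

lemma kb_cs {b : ℝ} (hb : 0 ≤ b) : kb b * (b + 12 * max b 1 ^ 2 * (1 : ℝ) ^ 2) ≤ 1 := by
  have h1 : (1 : ℝ) ≤ max b 1 := le_max_right _ _
  have h2 : 0 < b + 12 * max b 1 ^ 2 := by positivity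
  unfold kb
  rw [one_pow, mul_one, one_div, inv_mul_cancel₀ h2.ne']

lemma log_le_sq (N : ℕ) [NeZero N] : 2 + Real.log N ≤ 3 * (N : ℝ) ^ 2 := by
  have hN : (1 : ℝ) ≤ N := by exact_mod_cast NeZero.pos N
  have h1 := Real.log_le_sub_one_of_pos (show (0 : ℝ) < N by linarith)
  nlinarith

variable {N : ℕ} [NeZero N] {b t s : ℝ}

/-- **bare bound of the free energy at a small neutral source**, uniform in the prior mass -/
theorem lg_bare (hb : 0 ≤ b) (hs : 0 < s) (hsN : s * (N : ℝ) ^ 2 ≤ kb b) (x₀ : V N) {u : V N → ℝ}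
    (hu : Neu u) (h : (N : ℝ) ^ 2 * ∑ x, u x ^ 2 ≤ kb b / 2) :
    Lg (nwt N b s x₀) u - Lg (nwt N b s x₀) 0 ≤ 1 / 64 := by
  have hN : (1 : ℝ) ≤ N := by exact_mod_cast NeZero.pos N
  have hN0 : (0 : ℝ) < N := by linarith
  have hk := kb_pos hb
  have hk1 := kb_le hb
  set κ := kb b with hκ
  have hM : MF (s • (1 : Matrix (V N) (V N) ℝ)) s := mf_scal hs
  have hU0 : 0 ≤ ∑ x, u x ^ 2 := Finset.sum_nonneg fun _ _ => sq_nonneg _
  have h1 := H816.dom_neu hb hM x₀ hk (cs := 1) (kb_cs hb) le_rfl u hu (fun x z => by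
    refine abs_le_of_sq_le_sq ?_ zero_le_one
    refine (edge_neu hM hk hs.le (fun v => (qf_smul_one' s v).le) hu x z).trans ?_
    have h2 : Gam0 N s κ ≤ 8 * (3 * (N : ℝ) ^ 2) := by
      unfold Gam0
      have h3 : (s * (N : ℝ) ^ 2 / κ) ^ 2 ≤ 1 := by
        have h4 : s * (N : ℝ) ^ 2 / κ ≤ 1 := (div_le_one hk).2 hsN
        have h5 : 0 ≤ s * (N : ℝ) ^ 2 / κ := by positivity
        nlinarith
      have h6 := log_le_sq N
      have h7 : 0 ≤ Real.log N := Real.log_natCast_nonneg N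
      calc 2 * (2 + Real.log N) * (3 + (s * (N : ℝ) ^ 2 / κ) ^ 2)
          ≤ 2 * (2 + Real.log N) * 4 := by
            refine mul_le_mul_of_nonneg_left (by linarith) (by positivity)
        _ = 8 * (2 + Real.log N) := by ring
        _ ≤ 8 * (3 * (N : ℝ) ^ 2) := by linarith
    calc Gam0 N s κ * ∑ y, u y ^ 2 ≤ 8 * (3 * (N : ℝ) ^ 2) * ∑ y, u y ^ 2 :=
          mul_le_mul_of_nonneg_right h2 hU0
      _ = 24 * ((N : ℝ) ^ 2 * ∑ y, u y ^ 2) := by ring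
      _ ≤ 24 * (κ / 2) := by linarith
      _ ≤ (1 : ℝ) ^ 2 := by linarith)
  refine h1.trans ?_
  have ha : 0 < 16 * κ / (N : ℝ) ^ 2 := by positivity
  have h2 := H159.qf_inv_neu_le (mf_lap hM hk.le) ha (fun v hv => by
    rw [qf_add_mat, qf_smul_one', H864.qf_smul_mat, H864.qf_lapM]
    have h3 := poin_neu hv
    have h4 : 0 ≤ s * ∑ x, v x ^ 2 := mul_nonneg hs.le (Finset.sum_nonneg fun _ _ => sq_nonneg _)
    have h5 : 16 * κ / (N : ℝ) ^ 2 * ∑ x, v x ^ 2 ≤ κ * grd v := by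
      refine (mul_le_mul_of_nonneg_left h3 ha.le).trans (le_of_eq ?_)
      field_simp
    linarith) hu
  have h3 : (∑ x, u x ^ 2) / (16 * κ / (N : ℝ) ^ 2) ≤ 1 / 32 := by
    rw [div_le_iff₀ ha]
    have e : 1 / 32 * (16 * κ / (N : ℝ) ^ 2) = κ / 2 / (N : ℝ) ^ 2 := by ring
    rw [e, le_div_iff₀ (by positivity)]
    linarith
  linarith

/-- the source of a linear functional -/
lemma obS_src (hts : 0 ≤ t) (v : V N → ℝ) :
    (obS N t)ᵀ *ᵥ (obS N t *ᵥ v) = t • ((Pn : Matrix (V N) (V N) ℝ) *ᵥ v) := by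
  rw [mulVec_mulVec, obS_gram hts, smul_mulVec]

lemma sum_Pn_le (v : V N → ℝ) : ∑ x, ((Pn : Matrix (V N) (V N) ℝ) *ᵥ v) x ^ 2 ≤ ∑ x, v x ^ 2 := by
  have h := H159.sum_Pn_sq v
  have h2 : 0 ≤ (∑ x, v x) ^ 2 / (Fintype.card (V N) : ℝ) := by positivity
  linarith

/-- **exponential moments of the source** -/
lemma exp_site (hb : 0 ≤ b) (hs : 0 < s) (hst : s ≤ t) (ht : 1 ≤ t * (N : ℝ) ^ 2)
    (hsN : s * (N : ℝ) ^ 2 ≤ kb b) {v : V N → ℝ}
    (hv : t ^ 2 * (N : ℝ) ^ 2 * ∑ x, v x ^ 2 ≤ kb b / 2) :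
    Ech (nwt N b s 0) 0 (obS N (t - s)) (fun J => Real.exp (v ⬝ᵥ J)) ≤ 5 / 3 := by
  have ht0 : 0 < t := hs.trans_le hst
  have hts : 0 ≤ t - s := sub_nonneg.2 hst
  have hk := kb_pos hb
  have hk1 := kb_le hb
  have hS0 : 0 ≤ ∑ x, v x ^ 2 := Finset.sum_nonneg fun _ _ => sq_nonneg _
  have hP0 : 0 ≤ ∑ x, ((Pn : Matrix (V N) (V N) ℝ) *ᵥ v) x ^ 2 :=
    Finset.sum_nonneg fun _ _ => sq_nonneg _
  have hP := sum_Pn_le v
  rw [H663.Ech_exp (em_nwt' hb hs 0), zero_add, dotProduct_zero, zero_add, ← Real.exp_add]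
  have h1 : qf ((obS N (t - s))ᵀ * obS N (t - s)) v ≤ t * ∑ x, v x ^ 2 := by
    rw [obS_gram hts, H864.qf_smul_mat]
    have e : qf (Pn : Matrix (V N) (V N) ℝ) v = ∑ x, ((Pn : Matrix (V N) (V N) ℝ) *ᵥ v) x ^ 2 := by
      have h2 := qf_gram (Pn : Matrix (V N) (V N) ℝ) v
      rwa [Pn_transpose, Pn_mul_Pn] at h2
    rw [e]
    calc (t - s) * _ ≤ t * ∑ x, ((Pn : Matrix (V N) (V N) ℝ) *ᵥ v) x ^ 2 :=
          mul_le_mul_of_nonneg_right (by linarith) hP0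
      _ ≤ _ := mul_le_mul_of_nonneg_left hP ht0.le
  have h2 : t * ∑ x, v x ^ 2 ≤ kb b / 2 := by
    refine le_trans ?_ hv
    have h3 : t * (∑ x, v x ^ 2) * 1 ≤ t * (∑ x, v x ^ 2) * (t * (N : ℝ) ^ 2) :=
      mul_le_mul_of_nonneg_left ht (by positivity)
    calc t * ∑ x, v x ^ 2 = t * (∑ x, v x ^ 2) * 1 := by ring
      _ ≤ t * (∑ x, v x ^ 2) * (t * (N : ℝ) ^ 2) := h3
      _ = _ := by ring
  have h3 := lg_bare hb hs hsN (0 : V N) (u := (obS N (t - s))ᵀ *ᵥ (obS N (t - s) *ᵥ v))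
    (by rw [obS_src hts]; exact (neu_Pn v).smul _) (by
      rw [obS_src hts]
      have e : ∑ x, ((t - s) • ((Pn : Matrix (V N) (V N) ℝ) *ᵥ v)) x ^ 2 =
          (t - s) ^ 2 * ∑ x, ((Pn : Matrix (V N) (V N) ℝ) *ᵥ v) x ^ 2 := by
        rw [Finset.mul_sum]
        exact Finset.sum_congr rfl fun x _ => by rw [Pi.smul_apply, smul_eq_mul, mul_pow]
      rw [e]
      refine le_trans ?_ hv
      have h4 : (t - s) ^ 2 ≤ t ^ 2 := pow_le_pow_left₀ hts (by linarith) 2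
      calc (N : ℝ) ^ 2 * ((t - s) ^ 2 * ∑ x, ((Pn : Matrix (V N) (V N) ℝ) *ᵥ v) x ^ 2)
          ≤ (N : ℝ) ^ 2 * (t ^ 2 * ∑ x, v x ^ 2) := by
            refine mul_le_mul_of_nonneg_left ?_ (by positivity)
            exact mul_le_mul h4 hP hP0 (by positivity)
        _ = _ := by ring)
  refine (Real.exp_le_exp.2 (?_ : _ ≤ (1 / 2 : ℝ))).trans H663.exp_half_lt
  linarith

/-- **sixth moments of the source of the channel of all sites** -/
theorem six_site (hb : 0 ≤ b) (hs : 0 < s) (hst : s ≤ t) (ht : 1 ≤ t * (N : ℝ) ^ 2)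
    (hsN : s * (N : ℝ) ^ 2 ≤ kb b) (v : V N → ℝ) :
    Ech (nwt N b s 0) 0 (obS N (t - s)) (fun J => (v ⬝ᵥ J) ^ 6) ≤
      (22 / kb b * (t * (t * (N : ℝ) ^ 2)) * ∑ x, v x ^ 2) ^ 3 := by
  have hμ := em_nwt' (N := N) hb hs (0 : V N)
  have ht0 : 0 < t := hs.trans_le hst
  have hk := kb_pos hb
  have hN : (1 : ℝ) ≤ N := by exact_mod_cast NeZero.pos N
  have hS0 : 0 ≤ ∑ x, v x ^ 2 := Finset.sum_nonneg fun _ _ => sq_nonneg _
  rcases hS0.eq_or_lt with h0 | h0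
  · have hv : v = 0 := by
      funext x
      exact pow_eq_zero_iff (by norm_num) |>.1
        ((sum_eq_zero_iff_of_nonneg fun x _ => sq_nonneg (v x)).1 h0.symm x (mem_univ x))
    have e : (fun J : V N → ℝ => (v ⬝ᵥ J) ^ 6) = fun _ => 0 := by
      funext J
      rw [hv, zero_dotProduct]
      norm_num
    rw [e, Ech_const hμ]
    positivity
  · set S := ∑ x, v x ^ 2 with hS
    obtain ⟨y, hy⟩ : ∃ y : ℝ, y = kb b / 2 / (t ^ 2 * (N : ℝ) ^ 2 * S) := ⟨_, rfl⟩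
    have hy0 : 0 < y := by rw [hy]; positivity
    obtain ⟨θ, hθ⟩ : ∃ θ : ℝ, θ = √y := ⟨_, rfl⟩
    have hθ0 : 0 < θ := by rw [hθ]; exact Real.sqrt_pos.2 hy0
    have hθ2 : θ ^ 2 = y := by rw [hθ, Real.sq_sqrt hy0.le]
    have hexp : ∀ θ' : ℝ, θ' ^ 2 = y →
        Ech (nwt N b s 0) 0 (obS N (t - s)) (fun J => Real.exp ((θ' • v) ⬝ᵥ J)) ≤ 5 / 3 := by
      intro θ' hθ'
      refine exp_site hb hs hst ht hsN ?_
      have e : ∑ x, (θ' • v) x ^ 2 = y * S := by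
        rw [hS, Finset.mul_sum, ← hθ']
        exact Finset.sum_congr rfl fun x _ => by rw [Pi.smul_apply, smul_eq_mul, mul_pow]
      rw [e, hy]
      apply le_of_eq
      field_simp
    have h1 := hexp θ hθ2
    have h2 := hexp (-θ) (by rw [neg_sq, hθ2])
    have e6 : EGr fun K : V N → ℝ => (v ⬝ᵥ K) ^ 6 := H692.egr_pow (H663.EGr.dot v) 6
    have g1 := H663.EGr.exp_dot (θ • v)
    have g2 := H663.EGr.exp_dot ((-θ) • v)
    have h3 : Ech (nwt N b s 0) 0 (obS N (t - s)) (fun J => (v ⬝ᵥ J) ^ 6) ≤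
        Ech (nwt N b s 0) 0 (obS N (t - s)) (fun J => (360 / y ^ 3) *
          (Real.exp ((θ • v) ⬝ᵥ J) + Real.exp (((-θ) • v) ⬝ᵥ J))) := by
      refine Ech_mono hμ 0 _ e6 ((g1.add g2).cmul _) fun J => ?_
      have h4 := H692.six_le (θ * (v ⬝ᵥ J))
      rw [Real.cosh_eq] at h4
      have e1 : (θ • v) ⬝ᵥ J = θ * (v ⬝ᵥ J) := by rw [smul_dotProduct, smul_eq_mul]
      have e2 : ((-θ) • v) ⬝ᵥ J = -(θ * (v ⬝ᵥ J)) := by rw [smul_dotProduct, smul_eq_mul, neg_mul]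
      rw [e1, e2]
      have e3 : (θ * (v ⬝ᵥ J)) ^ 6 = y ^ 3 * (v ⬝ᵥ J) ^ 6 := by rw [← hθ2]; ring
      rw [e3] at h4
      have hy3 : 0 < y ^ 3 := by positivity
      rw [div_mul_eq_mul_div, le_div_iff₀ hy3]
      linarith
    rw [Ech_cmul, Ech_add hμ 0 _ g1 g2] at h3
    refine h3.trans ?_
    have h5 : 0 ≤ 360 / y ^ 3 := by positivity
    refine (mul_le_mul_of_nonneg_left (add_le_add h1 h2) h5).trans ?_
    have e4 : 22 / kb b * (t * (t * (N : ℝ) ^ 2)) * S = 11 / y := by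
      rw [hy]
      field_simp
      norm_num
    rw [e4, div_pow]
    have hy3 : 0 < y ^ 3 := by positivity
    rw [div_mul_eq_mul_div, div_le_div_iff_of_pos_right hy3]
    norm_num

/-- **M6 of every linear image of the source** -/
theorem m6_site (hb : 0 ≤ b) (hs : 0 < s) (hst : s ≤ t) (ht : 1 ≤ t * (N : ℝ) ^ 2)
    (hsN : s * (N : ℝ) ^ 2 ≤ kb b) {T : Matrix (V N) (V N) ℝ} {kT : ℝ} (hkT : 0 < kT)
    (hT : ∀ v : V N → ℝ, ∑ x, (Tᵀ *ᵥ v) x ^ 2 ≤ kT * ∑ x, v x ^ 2) :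
    M6 ((chm (nwt N b s 0) 0 (obS N (t - s))).map fun g => T *ᵥ ((obS N (t - s))ᵀ *ᵥ g))
      (22 / kb b * (t * (t * (N : ℝ) ^ 2)) * kT) := by
  have hμ := em_nwt' (N := N) hb hs (0 : V N)
  have ht0 : 0 < t := hs.trans_le hst
  have hk := kb_pos hb
  have hN : (1 : ℝ) ≤ N := by exact_mod_cast NeZero.pos N
  have hmap : Measurable fun g : V N → ℝ => T *ᵥ ((obS N (t - s))ᵀ *ᵥ g) := by
    refine measurable_pi_lambda _ fun x => ?_
    simp only [mulVec, dotProduct]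
    fun_prop
  have m6 : ∀ v : V N → ℝ, Measurable fun z : V N → ℝ => (v ⬝ᵥ z) ^ 6 := fun v =>
    (H692.meas_dot v).pow_const 6
  have e0 : ∀ (v g : V N → ℝ), v ⬝ᵥ (T *ᵥ ((obS N (t - s))ᵀ *ᵥ g)) =
      (Tᵀ *ᵥ v) ⬝ᵥ ((obS N (t - s))ᵀ *ᵥ g) := fun v g => by
    rw [dotProduct_mulVec, ← mulVec_transpose]
  have e6 : ∀ v : V N → ℝ, EGr fun K : V N → ℝ => ((Tᵀ *ᵥ v) ⬝ᵥ K) ^ 6 := fun v =>
    H692.egr_pow (H663.EGr.dot _) 6
  refine ⟨by positivity, fun v => ?_, fun v => ?_⟩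
  · rw [integrable_map_measure (m6 v).aestronglyMeasurable hmap.aemeasurable]
    have h1 := (chI_iff hμ 0 _ _).1 (H663.ChI.of_EGr hμ 0 (obS N (t - s)) (e6 v))
    simp only [zero_add] at h1
    simp only [Function.comp_def, e0]
    exact h1
  · rw [integral_map hmap.aemeasurable (m6 v).aestronglyMeasurable]
    have h1 := Ech_chm hμ 0 (obS N (t - s)) fun K => ((Tᵀ *ᵥ v) ⬝ᵥ K) ^ 6
    simp only [zero_add] at h1
    simp only [e0]
    rw [← h1]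
    refine (six_site hb hs hst ht hsN _).trans ?_
    have h2 : 0 ≤ ∑ x, (Tᵀ *ᵥ v) x ^ 2 := Finset.sum_nonneg fun _ _ => sq_nonneg _
    have h3 : 0 ≤ 22 / kb b * (t * (t * (N : ℝ) ^ 2)) := by positivity
    refine pow_le_pow_left₀ (by positivity) ?_ 3
    rw [mul_assoc (22 / kb b * (t * (t * (N : ℝ) ^ 2))) kT]
    exact mul_le_mul_of_nonneg_left (hT v) h3

/-- **ROUGH PART, exact law, prior mass `s`** -/
theorem rough_site (hb : 0 ≤ b) : ∃ C c : ℝ, 0 ≤ C ∧ 0 < c ∧ c ≤ 1 ∧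
    ∀ (N : ℕ) [NeZero N] (n p : ℕ), 2 ^ n ∣ N → 2 ^ p ∣ N →
    ∀ t : ℝ, 0 < t → t * ((2 : ℝ) ^ n) ^ 2 ≤ 1 → 1 < t * 4 ^ (p + 1) → 1 ≤ t * (N : ℝ) ^ 2 →
    ∀ s : ℝ, 0 < s → s ≤ t → s * (N : ℝ) ^ 2 ≤ kb b →
    ∀ (T : Matrix (V N) (V N) ℝ) (kT : ℝ), 1 ≤ kT →
      (∀ v : V N → ℝ, ∑ x, (Tᵀ *ᵥ v) x ^ 2 ≤ kT * ∑ x, v x ^ 2) →
    H663.ChI (nwt N b s 0) 0 (obS N (t - s)) (fun J => Rs (nwt N b t 0)
      ((2 : ℝ) • ((1 - cellP N (2 ^ n)) *ᵥ (T *ᵥ J)))) ∧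
    Ech (nwt N b s 0) 0 (obS N (t - s)) (fun J => Rs (nwt N b t 0)
      ((2 : ℝ) • ((1 - cellP N (2 ^ n)) *ᵥ (T *ᵥ J)))) ≤
      C * ((t * (N : ℝ) ^ 2) ^ 4 * kT ^ 3) * ((2 : ℝ) ^ n * √t) ^ c := by
  obtain ⟨C, c, hC, hc, hc1, h⟩ := fine_site hb
  have hk := kb_pos hb
  refine ⟨C * (22 / kb b) ^ 3, c, by positivity, hc, hc1, ?_⟩
  intro N _ n p hn hp t ht htn htp htN s hs hst hsN T kT hkT hT
  have hμ := em_nwt' (N := N) hb hs (0 : V N)
  have hμt := em_nwt' (N := N) hb ht (0 : V N)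
  have := chm_prob hμ 0 (obS N (t - s))
  have hmap : Measurable fun g : V N → ℝ => T *ᵥ ((obS N (t - s))ᵀ *ᵥ g) := by
    refine measurable_pi_lambda _ fun x => ?_
    simp only [mulVec, dotProduct]
    fun_prop
  have : IsProbabilityMeasure ((chm (nwt N b s 0) 0 (obS N (t - s))).map
      fun g => T *ᵥ ((obS N (t - s))ᵀ *ᵥ g)) := Measure.isProbabilityMeasure_map hmap.aemeasurable
  have hm6 := m6_site hb hs hst htN hsN (by linarith : 0 < kT) hT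
  have hk1 := kb_le hb
  have hle : t ≤ 22 / kb b * (t * (t * (N : ℝ) ^ 2)) * kT := by
    have h1 : 1 ≤ 22 / kb b := by
      rw [le_div_iff₀ hk]
      linarith
    have h2 : t * 1 ≤ t * (t * (N : ℝ) ^ 2) := mul_le_mul_of_nonneg_left htN ht.le
    have h3 : 1 * (t * 1) ≤ 22 / kb b * (t * (t * (N : ℝ) ^ 2)) :=
      mul_le_mul h1 h2 (by positivity) (by positivity)
    calc t = 1 * (t * 1) * 1 := by ring
      _ ≤ 22 / kb b * (t * (t * (N : ℝ) ^ 2)) * kT :=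
          mul_le_mul h3 hkT zero_le_one (by positivity)
  obtain ⟨h1, h2⟩ := h N n p hn hp t ht htn htp 0 _ _ hm6 hle
  have hmR := measurable_fine (N := N) hμt (2 ^ n)
  rw [integrable_map_measure hmR.aestronglyMeasurable hmap.aemeasurable] at h1
  rw [integral_map hmap.aemeasurable hmR.aestronglyMeasurable] at h2
  constructor
  · rw [chI_iff hμ]
    simp only [zero_add]
    exact h1
  · rw [Ech_chm hμ]
    simp only [zero_add]
    refine h2.trans (le_of_eq ?_)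
    have e : 22 / kb b * (t * (t * (N : ℝ) ^ 2)) * kT / t = 22 / kb b * (t * (N : ℝ) ^ 2) * kT := by
      field_simp
    rw [e]
    ring

end

end Vale.Agent.P159.H447
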