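import Vale.Agent.P159.H447.Sit4
import Vale.Agent.P159.H883.Brg5
import Vale.Agent.P159.H883.Twr5
import Vale.Agent.P159.H883.Twr4

/-!
P159 (helper447), **TYPS, part 5**: the limit `s → 0` of the channel of all sites is the law `nuM` of
the real field modulo constants (source `ntr (t 1) t F = t P F`).
-/

set_option linter.unusedSectionVars false

namespace Vale.Agent.P159.H447

open Finset Matrix MeasureTheory Filter Topology
open Vale.Agent.P159.TM.H104 (EM Ex Cv Lg li nh Gr)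
open Vale.Agent.P159.H37
open Vale.Agent.P159.TM.Spec (V)
open Vale.Agent.P159.TM.SpecC (wT)
open Vale.Agent.P159.H963 (Pn nM pin ntr nwt nMC obsN MF Neu Pn_transpose Pn_mul_Pn neu_Pn gw_wT)
open Vale.Agent.P159.H883 (nuM Enu CI XG BW bw_wT Zp)

noncomputable section

variable {N : ℕ} [NeZero N] {b t s : ℝ}

/-- the source of a real field -/
def src (N : ℕ) [NeZero N] (t : ℝ) (F : V N → ℝ) : V N → ℝ :=
  ntr (t • (1 : Matrix (V N) (V N) ℝ)) t *ᵥ F

lemma src_eq (t : ℝ) (F : V N → ℝ) : src N t F = t • ((Pn : Matrix (V N) (V N) ℝ) *ᵥ F) := by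
  unfold src
  rw [ntr_scal, smul_mulVec]

lemma src_add (t : ℝ) (F G : V N → ℝ) : src N t (F + G) = src N t F + src N t G := mulVec_add _ _ _

lemma ci_src (t : ℝ) : CI (src N t) := by
  intro F c
  rw [src_eq, src_eq]
  congr 1
  have e : (fun x => F x + c) = F + c • fun _ => (1 : ℝ) := by
    funext x
    simp
  have h : (Pn : Matrix (V N) (V N) ℝ) *ᵥ (fun _ => (1 : ℝ)) = 0 := by
    funext y
    simp only [Matrix.mulVec, dotProduct, mul_one, Pi.zero_apply]
    exact H963.Pn_row y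
  rw [e, mulVec_add, mulVec_smul, h, smul_zero, add_zero]

lemma measurable_src (t : ℝ) : Measurable (src N t) := by
  unfold src
  refine measurable_pi_lambda _ fun x => ?_
  simp only [mulVec, dotProduct]
  fun_prop

/-- weights of the prior -/
lemma nwt_pin (b s : ℝ) (x₀ : V N) (h : V N → ℤ) :
    nwt N b s x₀ h = pin (wT b N) x₀ h *
      Real.exp (-(s * qf (Pn : Matrix (V N) (V N) ℝ) (re h) / 2)) := by
  unfold H963.nwt nM pin
  by_cases h0 : h x₀ = 0
  · rw [if_pos h0, if_pos h0]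
    unfold wM
    rw [ntr_scal, H864.qf_smul_mat]
  · rw [if_neg h0, if_neg h0, zero_mul]

lemma qf_Pn_nonneg (u : V N → ℝ) : 0 ≤ qf (Pn : Matrix (V N) (V N) ℝ) u := by
  have h2 := qf_gram (Pn : Matrix (V N) (V N) ℝ) u
  rw [Pn_transpose, Pn_mul_Pn] at h2
  rw [h2]
  exact Finset.sum_nonneg fun _ _ => sq_nonneg _

/-- the source given the heights -/
def hsrc (s' : ℝ) (h : V N → ℤ) (g : V N → ℝ) : V N → ℝ :=
  s' • ((Pn : Matrix (V N) (V N) ℝ) *ᵥ re h) + √s' • ((Pn : Matrix (V N) (V N) ℝ) *ᵥ g)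

lemma Ech_hsrc (hb : 0 ≤ b) (hs : 0 < s) (hst : s ≤ t) (x₀ : V N) {G : (V N → ℝ) → ℝ} (hG : EGr G) :
    Ech (nwt N b s x₀) 0 (obS N (t - s)) G =
      Ex (nwt N b s x₀) 0 fun h => ∫ g, G (hsrc (t - s) h g) ∂(gau (V N)) := by
  rw [Ech_mix (em_nwt' hb hs x₀) _ hG]
  simp only [obS_src (sub_nonneg.2 hst)]
  refine congrArg (Ex _ 0) (funext fun h => ?_)
  refine integral_congr_ae (Filter.Eventually.of_forall fun g => ?_)
  simp only
  unfold hsrc obS
  rw [transpose_smul, Pn_transpose, smul_mulVec]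

/-- **the limit of the channels** -/
theorem lim_site (hb : 0 < b) (ht : 0 < t) (x₀ : V N) {G : (V N → ℝ) → ℝ} (hc : Continuous G)
    (h0 : ∀ J, 0 ≤ G J) (h1 : ∀ J, G J ≤ 1) :
    Tendsto (fun s => Ech (nwt N b s x₀) 0 (obS N (t - s)) G) (𝓝[>] 0)
      (𝓝 (∫ F, G (src N t F) ∂(nuM (wT b N) (t • (1 : Matrix (V N) (V N) ℝ)) x₀))) := by
  have hw := gw_wT (N := N) hb.le
  have hbw : BW (wT b N) := bw_wT hb
  have hM : MF (t • (1 : Matrix (V N) (V N) ℝ)) t := mf_scal ht
  have hm := hc.measurable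
  have hE := egr_bdd hm h0 h1
  -- the right side
  have hci : CI fun F : V N → ℝ => G (src N t F) := fun F c => by simp only [ci_src t F c]
  have hmG : Measurable fun F : V N → ℝ => G (src N t F) := hm.comp (measurable_src t)
  have hx : XG fun F : V N → ℝ => G (src N t F) :=
    XG.of_bdd hmG (C := 1) fun F => by rw [abs_of_nonneg (h0 _)]; exact h1 _
  rw [(H883.nuM_ci hw hbw hM x₀ hci hmG).2, (H883.Enu_gau ht hbw x₀ hci hx).2]
  have hst : √t ≠ 0 := (Real.sqrt_pos.2 ht).ne'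
  have e1 : ∀ (h : V N → ℤ) (g : V N → ℝ), src N t (re h + (√t)⁻¹ • g) = hsrc t h g := by
    intro h g
    rw [src_eq, mulVec_add, mulVec_smul, smul_add, smul_smul]
    unfold hsrc
    congr 2
    have := Real.mul_self_sqrt ht.le
    field_simp
    linarith
  simp only [e1]
  -- the left side
  have hint : ∀ (s' : ℝ) (h : V N → ℤ), |∫ g, G (hsrc s' h g) ∂(gau (V N))| ≤ 1 := fun s' h => by
    have h3 := norm_integral_le_of_norm_le_const (μ := gau (V N)) (f := fun g => G (hsrc s' h g))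
      (C := 1) (Filter.Eventually.of_forall fun g => by
        rw [Real.norm_eq_abs, abs_of_nonneg (h0 _)]; exact h1 _)
    rwa [Real.norm_eq_abs, probReal_univ, mul_one] at h3
  have hsum : Summable (pin (wT b N) x₀) := by
    have := (hbw.em0 x₀).sum 0
    simpa using this
  have hp0 : ∀ h, 0 ≤ pin (wT b N) x₀ h := H963.pin_nonneg hw.nn x₀
  have hwt : ∀ h : V N → ℤ, Tendsto (fun s => nwt N b s x₀ h) (𝓝[>] 0) (𝓝 (pin (wT b N) x₀ h)) := by
    intro h
    have hcont : Continuous fun s : ℝ => nwt N b s x₀ h := by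
      simp only [nwt_pin]
      fun_prop
    have h2 := (hcont.tendsto 0).mono_left (nhdsWithin_le_nhds (s := Set.Ioi (0 : ℝ)))
    rw [nwt_pin, zero_mul, zero_div, neg_zero, Real.exp_zero, mul_one] at h2
    exact h2
  have hle : ∀ {s : ℝ}, 0 < s → ∀ h : V N → ℤ, nwt N b s x₀ h ≤ pin (wT b N) x₀ h := by
    intro s hs h
    rw [nwt_pin]
    refine mul_le_of_le_one_right (hp0 h) (Real.exp_le_one_iff.2 ?_)
    have := mul_nonneg hs.le (qf_Pn_nonneg (re h))
    linarith
  have hnn : ∀ {s : ℝ} (h : V N → ℤ), 0 ≤ nwt N b s x₀ h := fun h => by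
    rw [nwt_pin]
    exact mul_nonneg (hp0 h) (Real.exp_pos _).le
  have hI : ∀ h : V N → ℤ, Tendsto (fun s => ∫ g, G (hsrc (t - s) h g) ∂(gau (V N))) (𝓝[>] 0)
      (𝓝 (∫ g, G (hsrc t h g) ∂(gau (V N)))) := by
    intro h
    have hcs : ∀ g : V N → ℝ, Continuous fun s : ℝ => G (hsrc (t - s) h g) := fun g => by
      refine hc.comp ?_
      unfold hsrc
      fun_prop
    refine tendsto_integral_filter_of_dominated_convergence (fun _ => (1 : ℝ)) ?_ ?_
      (integrable_const _) ?_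
    · refine Filter.Eventually.of_forall fun s => ?_
      refine (hm.comp ?_).aestronglyMeasurable
      unfold hsrc
      refine measurable_pi_lambda _ fun x => ?_
      simp only [mulVec, dotProduct, Pi.add_apply, Pi.smul_apply, smul_eq_mul]
      fun_prop
    · refine Filter.Eventually.of_forall fun s => Filter.Eventually.of_forall fun g => ?_
      rw [Real.norm_eq_abs, abs_of_nonneg (h0 _)]
      exact h1 _
    · refine Filter.Eventually.of_forall fun g => ?_
      have h2 := ((hcs g).tendsto 0).mono_left (nhdsWithin_le_nhds (s := Set.Ioi (0 : ℝ)))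
      simp only [sub_zero] at h2
      exact h2
  have hev : ∀ᶠ s in 𝓝[>] (0 : ℝ), 0 < s ∧ s < t := by
    filter_upwards [Ioo_mem_nhdsGT ht] with s hs
    exact ⟨hs.1, hs.2⟩
  have hnum : Tendsto (fun s => ∑' h : V N → ℤ,
      (∫ g, G (hsrc (t - s) h g) ∂(gau (V N))) * nwt N b s x₀ h) (𝓝[>] 0)
      (𝓝 (∑' h : V N → ℤ, (∫ g, G (hsrc t h g) ∂(gau (V N))) * pin (wT b N) x₀ h)) := by
    refine tendsto_tsum_of_dominated_convergence (bound := pin (wT b N) x₀) hsum
      (fun h => (hI h).mul (hwt h)) ?_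
    filter_upwards [hev] with s hs h
    rw [Real.norm_eq_abs, abs_mul, abs_of_nonneg (hnn h)]
    calc _ ≤ 1 * nwt N b s x₀ h := mul_le_mul_of_nonneg_right (hint _ _) (hnn h)
      _ ≤ _ := by rw [one_mul]; exact hle hs.1 h
  have hden : Tendsto (fun s => ∑' h : V N → ℤ, nwt N b s x₀ h) (𝓝[>] 0)
      (𝓝 (∑' h : V N → ℤ, pin (wT b N) x₀ h)) := by
    refine tendsto_tsum_of_dominated_convergence (bound := pin (wT b N) x₀) hsum hwt ?_
    filter_upwards [hev] with s hs h
    rw [Real.norm_eq_abs, abs_of_nonneg (hnn h)]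
    exact hle hs.1 h
  have hZ : Zp (wT b N) x₀ ≠ 0 := (hbw.Zp_pos x₀).ne'
  have hlim := hnum.div hden hZ
  have e2 : (∑' h : V N → ℤ, (∫ g, G (hsrc t h g) ∂(gau (V N))) * pin (wT b N) x₀ h) /
      (∑' h : V N → ℤ, pin (wT b N) x₀ h) =
      (∑' h, pin (wT b N) x₀ h * ∫ g, G (hsrc t h g) ∂(gau (V N))) / Zp (wT b N) x₀ := by
    unfold H883.Zp
    congr 1
    exact tsum_congr fun h => mul_comm _ _
  rw [e2] at hlim
  refine hlim.congr' ?_
  filter_upwards [hev] with s hs
  rw [Ech_hsrc hb.le hs.1 hs.2.le x₀ hE]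
  unfold Ex TM.H104.T
  simp only [TM.H104.li_zero, Real.exp_zero, mul_one, one_mul]
  rfl

end

end Vale.Agent.P159.H447
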