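import Vale.Agent.P159.H447.Sit6
import Vale.Agent.P159.H239.Typ

/-!
P159 (helper447), **TYPS, part 7**: **typical sources at sites under `nuM`**.

* `nuM_prob`, `nuM_mean` : probabilities / means under `nuM` from the channels with prior `s → 0`;
* `rough_nuM` : `E R (2 (1 - P_l) T J) ≤ C (t N²)⁴ kT³ (l √t) ^ c`, every matrix `T`;
* `any_nuM` : `E R (2 T J) ≤ C (t N²)⁴ kT³`, every neutral matrix `T`;
* `cell_nuM` : every event `R > ρ` of the cell part;
* `sit_typ` : `R (T J)` for every `T` with small `P T (1 - P)`; `sit_typ_scal` : `R (Y J)` from `TypE`.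
-/

set_option linter.unusedSectionVars false

namespace Vale.Agent.P159.H447

open Finset Matrix MeasureTheory Filter Topology
open Vale.Agent.P159.TM.H104 (EM Ex Cv Lg li nh Gr)
open Vale.Agent.P159.H37
open Vale.Agent.P159.TM.Spec (V)
open Vale.Agent.P159.TM.SpecC (wT)
open Vale.Agent.P159.H963 (Pn nM pin ntr nwt nMC obsN MF Neu Pn_transpose Pn_mul_Pn neu_Pn gw_wT)
open Vale.Agent.P159.H883 (nuM Enu CI XG BW bw_wT Zp)
open Vale.Agent.P159.H663 (ChI)
open Vale.Agent.P159.H730 (wN)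

noncomputable section

variable {N : ℕ} [NeZero N] {b t s : ℝ}

/-- the law of the real field on sites -/
abbrev nuS (N : ℕ) [NeZero N] (b t : ℝ) : Measure (V N → ℝ) :=
  nuM (wT b N) (t • (1 : Matrix (V N) (V N) ℝ)) (0 : V N)

lemma prob_nuS (hb : 0 < b) (ht : 0 < t) : IsProbabilityMeasure (nuS N b t) :=
  H883.prob_nuM (gw_wT hb.le) (bw_wT hb) (mf_scal ht) 0

lemma chi_ind {V' I : Type*} [Fintype V'] [Fintype I] {μ' : (V' → ℤ) → ℝ} (hμ : EM μ')
    (P : Matrix I V' ℝ) {S : Set (V' → ℝ)} (hS : MeasurableSet S) :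
    ChI μ' 0 P (S.indicator fun _ => (1 : ℝ)) := H239.chi_set hμ 0 P hS

/-- Markov -/
lemma Ech_markov {V' I : Type*} [Fintype V'] [Fintype I] {μ' : (V' → ℤ) → ℝ} (hμ : EM μ')
    (P : Matrix I V' ℝ) {R : (V' → ℝ) → ℝ} (hR : Measurable R) (h0 : ∀ J, 0 ≤ R J)
    (hI : ChI μ' 0 P R) {ρ : ℝ} (hρ : 0 < ρ) :
    Ech μ' 0 P ({J | R J ≤ ρ}ᶜ.indicator fun _ => (1 : ℝ)) ≤ Ech μ' 0 P R / ρ := by
  have hS : MeasurableSet {J | R J ≤ ρ} := measurableSet_le hR measurable_const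
  have h1 := H663.Ech_mono' hμ (chi_ind hμ P hS.compl) (hI.cmul (1 / ρ)) fun J => by
    by_cases hJ : R J ≤ ρ
    · rw [Set.indicator_of_notMem (by simpa using hJ)]
      exact mul_nonneg (by positivity) (h0 J)
    · rw [Set.indicator_of_mem (by simpa using hJ)]
      rw [one_div, inv_mul_eq_div, le_div_iff₀ hρ, one_mul]
      exact (not_le.1 hJ).le
  rw [Ech_cmul] at h1
  exact h1.trans (le_of_eq (by ring))

/-- **probabilities under the law of the field** -/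
theorem nuM_prob (hb : 0 < b) (ht : 0 < t) {R : (V N → ℝ) → ℝ} (hR : Continuous R) {ρ q : ℝ}
    (hρ : 0 < ρ) (h : ∀ᶠ s in 𝓝[>] (0 : ℝ), Ech (nwt N b s 0) 0 (obS N (t - s))
      ({J | R J ≤ ρ}ᶜ.indicator fun _ => (1 : ℝ)) ≤ q) :
    (nuS N b t).real {F | 2 * ρ < R (src N t F)} ≤ q := by
  have hpr := prob_nuS (N := N) hb ht
  obtain ⟨G, hG⟩ : ∃ G : (V N → ℝ) → ℝ, G = fun J => min 1 (max 0 ((R J - ρ) / ρ)) := ⟨_, rfl⟩
  have hGc : Continuous G := by rw [hG]; fun_prop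
  have h0 : ∀ J, 0 ≤ G J := fun J => by rw [hG]; exact le_min zero_le_one (le_max_left _ _)
  have h1 : ∀ J, G J ≤ 1 := fun J => by rw [hG]; exact min_le_left _ _
  have hlim := lim_site hb ht (0 : V N) hGc h0 h1
  have hS : MeasurableSet {J | R J ≤ ρ} := measurableSet_le hR.measurable measurable_const
  have hle : ∫ F, G (src N t F) ∂(nuS N b t) ≤ q := by
    refine le_of_tendsto hlim ?_
    filter_upwards [h, self_mem_nhdsWithin] with s hs hs0
    have hμ := em_nwt' (N := N) hb.le (show 0 < s from hs0) (0 : V N)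
    refine (H663.Ech_mono' hμ (ChI.of_EGr hμ 0 _ (egr_bdd hGc.measurable h0 h1))
      (chi_ind hμ _ hS.compl) fun J => ?_).trans hs
    by_cases hJ : R J ≤ ρ
    · rw [Set.indicator_of_notMem (by simpa using hJ), hG]
      simp only
      have : (R J - ρ) / ρ ≤ 0 := div_nonpos_of_nonpos_of_nonneg (by linarith) hρ.le
      rw [max_eq_left this]
      exact min_le_right _ _
    · rw [Set.indicator_of_mem (by simpa using hJ)]
      exact h1 J
  refine le_trans ?_ hle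
  have hSs : MeasurableSet {F : V N → ℝ | 2 * ρ < R (src N t F)} :=
    measurableSet_lt measurable_const (hR.measurable.comp (measurable_src t))
  rw [← integral_indicator_one hSs]
  have hGi : Integrable (fun F => G (src N t F)) (nuS N b t) := by
    refine Integrable.of_bound (C := 1) (hGc.measurable.comp (measurable_src t)).aestronglyMeasurable
      (Filter.Eventually.of_forall fun F => ?_)
    rw [Real.norm_eq_abs, abs_of_nonneg (h0 _)]
    exact h1 _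
  refine integral_mono ((integrable_const (1 : ℝ)).indicator hSs) hGi fun F => ?_
  by_cases hF : 2 * ρ < R (src N t F)
  · rw [Set.indicator_of_mem (by simpa using hF), hG]
    simp only [Pi.one_apply]
    refine le_min le_rfl (le_max_of_le_right ?_)
    rw [le_div_iff₀ hρ]
    linarith
  · rw [Set.indicator_of_notMem (by simpa using hF)]
    exact h0 _

/-- **means under the law of the field** -/
theorem nuM_mean (hb : 0 < b) (ht : 0 < t) {R : (V N → ℝ) → ℝ} (hR : Continuous R)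
    (h0 : ∀ J, 0 ≤ R J) {q : ℝ} (h : ∀ᶠ s in 𝓝[>] (0 : ℝ), ChI (nwt N b s 0) 0 (obS N (t - s)) R ∧
      Ech (nwt N b s 0) 0 (obS N (t - s)) R ≤ q) :
    Integrable (fun F => R (src N t F)) (nuS N b t) ∧ ∫ F, R (src N t F) ∂(nuS N b t) ≤ q := by
  have hpr := prob_nuS (N := N) hb ht
  have key : ∀ k : ℕ, ∫ F, min (R (src N t F)) ((k : ℝ) + 1) ∂(nuS N b t) ≤ q := by
    intro k
    have hk : (0 : ℝ) < k + 1 := by positivity
    obtain ⟨G, hG⟩ : ∃ G : (V N → ℝ) → ℝ, G = fun J => min (R J) ((k : ℝ) + 1) / (k + 1) := ⟨_, rfl⟩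
    have hGc : Continuous G := by rw [hG]; fun_prop
    have g0 : ∀ J, 0 ≤ G J := fun J => by
      rw [hG]
      exact div_nonneg (le_min (h0 J) hk.le) hk.le
    have g1 : ∀ J, G J ≤ 1 := fun J => by
      rw [hG]
      exact (div_le_one hk).2 (min_le_right _ _)
    have hlim := lim_site hb ht (0 : V N) hGc g0 g1
    have hle : ∫ F, G (src N t F) ∂(nuS N b t) ≤ q / (k + 1) := by
      refine le_of_tendsto hlim ?_
      filter_upwards [h, self_mem_nhdsWithin] with s hs hs0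
      have hμ := em_nwt' (N := N) hb.le (show 0 < s from hs0) (0 : V N)
      have h3 := H663.Ech_mono' hμ (ChI.of_EGr hμ 0 _ (egr_bdd hGc.measurable g0 g1))
        (hs.1.cmul (1 / ((k : ℝ) + 1))) fun J => by
          rw [hG]
          simp only
          rw [one_div, inv_mul_eq_div]
          exact div_le_div_of_nonneg_right (min_le_left _ _) hk.le
      rw [Ech_cmul] at h3
      refine h3.trans ?_
      rw [one_div, inv_mul_eq_div]
      exact div_le_div_of_nonneg_right hs.2 hk.le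
    rw [hG] at hle
    rw [integral_div, div_le_div_iff_of_pos_right hk] at hle
    exact hle
  refine H30.fatou_seq (f := fun k F => min (R (src N t F)) ((k : ℝ) + 1))
    (fun k F => le_min (h0 _) (by positivity))
    (fun k => (hR.measurable.comp (measurable_src t)).min measurable_const)
    (hR.measurable.comp (measurable_src t)) (fun k => ?_) key (fun F => ?_)
  · refine Integrable.of_bound (C := (k : ℝ) + 1)
      ((hR.measurable.comp (measurable_src t)).min measurable_const).aestronglyMeasurable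
      (Filter.Eventually.of_forall fun F => ?_)
    rw [Real.norm_eq_abs, abs_of_nonneg (le_min (h0 _) (by positivity))]
    exact min_le_right _ _
  · refine tendsto_const_nhds.congr' ?_
    filter_upwards [Filter.eventually_ge_atTop ⌈R (src N t F)⌉₊] with k hk
    rw [min_eq_left]
    have h3 := Nat.le_ceil (R (src N t F))
    have h4 : ((⌈R (src N t F)⌉₊ : ℕ) : ℝ) ≤ k := by exact_mod_cast hk
    linarith

/-- small prior masses -/
lemma ev_small (hb : 0 ≤ b) (ht : 0 < t) : ∀ᶠ s in 𝓝[>] (0 : ℝ), 0 < s ∧ s ≤ t ∧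
    s * (N : ℝ) ^ 2 ≤ kb b := by
  have hN : (0 : ℝ) < N := by exact_mod_cast NeZero.pos N
  have hk := kb_pos hb
  have h1 : 0 < min t (kb b / (N : ℝ) ^ 2) := lt_min ht (by positivity)
  filter_upwards [Ioo_mem_nhdsGT h1] with s hs
  refine ⟨hs.1, hs.2.le.trans (min_le_left _ _), ?_⟩
  have h2 := hs.2.le.trans (min_le_right _ _)
  rwa [le_div_iff₀ (by positivity)] at h2

/-- **ROUGH PART UNDER THE LAW OF THE FIELD**, every linear image -/
theorem rough_nuM (hb : 0 < b) : ∃ C c : ℝ, 0 ≤ C ∧ 0 < c ∧ c ≤ 1 ∧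
    ∀ (N : ℕ) [NeZero N] (n p : ℕ), 2 ^ n ∣ N → 2 ^ p ∣ N →
    ∀ t : ℝ, 0 < t → t * ((2 : ℝ) ^ n) ^ 2 ≤ 1 → 1 < t * 4 ^ (p + 1) → 1 ≤ t * (N : ℝ) ^ 2 →
    ∀ (T : Matrix (V N) (V N) ℝ) (kT : ℝ), 1 ≤ kT →
      (∀ v : V N → ℝ, ∑ x, (Tᵀ *ᵥ v) x ^ 2 ≤ kT * ∑ x, v x ^ 2) →
    Integrable (fun F => Rs (nwt N b t 0)
      ((2 : ℝ) • ((1 - cellP N (2 ^ n)) *ᵥ (T *ᵥ src N t F)))) (nuS N b t) ∧
    ∫ F, Rs (nwt N b t 0) ((2 : ℝ) • ((1 - cellP N (2 ^ n)) *ᵥ (T *ᵥ src N t F))) ∂(nuS N b t) ≤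
      C * ((t * (N : ℝ) ^ 2) ^ 4 * kT ^ 3) * ((2 : ℝ) ^ n * √t) ^ c := by
  obtain ⟨C, c, hC, hc, hc1, h⟩ := rough_site hb.le
  refine ⟨C, c, hC, hc, hc1, ?_⟩
  intro N _ n p hn hp t ht htn htp htN T kT hkT hT
  refine nuM_mean hb ht (R := fun J => Rs (nwt N b t 0)
    ((2 : ℝ) • ((1 - cellP N (2 ^ n)) *ᵥ (T *ᵥ J))))
    ((cont_rsn hb.le ht 0).comp (((cont_mulVec _).comp (cont_mulVec T)).const_smul (2 : ℝ)))
    (fun J => rsn_nonneg hb.le ht 0 _) ?_
  filter_upwards [ev_small (N := N) hb.le ht] with s hs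
  exact h N n p hn hp t ht htn htp htN s hs.1 hs.2.1 hs.2.2 T kT hkT hT

/-- **EVERY NEUTRAL LINEAR IMAGE**, crude constant -/
theorem any_nuM (hb : 0 < b) : ∃ C : ℝ, 0 < C ∧
    ∀ (N : ℕ) [NeZero N] (p : ℕ), 2 ^ p ∣ N →
    ∀ t : ℝ, 0 < t → t * ((2 : ℝ) ^ p) ^ 2 ≤ 1 → 1 < t * 4 ^ (p + 1) → 1 ≤ t * (N : ℝ) ^ 2 →
    ∀ (T : Matrix (V N) (V N) ℝ) (kT : ℝ), 1 ≤ kT →
      (∀ v : V N → ℝ, ∑ x, (Tᵀ *ᵥ v) x ^ 2 ≤ kT * ∑ x, v x ^ 2) → (∀ J, Neu (T *ᵥ J)) →
    Integrable (fun F => Rs (nwt N b t 0) ((2 : ℝ) • (T *ᵥ src N t F))) (nuS N b t) ∧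
    ∫ F, Rs (nwt N b t 0) ((2 : ℝ) • (T *ᵥ src N t F)) ∂(nuS N b t) ≤
      C * ((t * (N : ℝ) ^ 2) ^ 4 * kT ^ 3) := by
  obtain ⟨C, hC, h⟩ := any_site hb.le
  refine ⟨C, hC, ?_⟩
  intro N _ p hp t ht htp htp1 htN T kT hkT hT hneu
  refine nuM_mean hb ht (R := fun J => Rs (nwt N b t 0) ((2 : ℝ) • (T *ᵥ J)))
    ((cont_rsn hb.le ht 0).comp ((cont_mulVec T).const_smul (2 : ℝ)))
    (fun J => rsn_nonneg hb.le ht 0 _) ?_
  filter_upwards [ev_small (N := N) hb.le ht] with s hs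
  exact h N p hp t ht htp htp1 htN s hs.1 hs.2.1 hs.2.2 T kT hkT hT hneu

/-- **EVENTS OF THE CELL PART** -/
theorem cell_nuM (hb : 0 < b) : ∃ C c : ℝ, 0 < C ∧ 0 < c ∧
    ∀ (N : ℕ) [NeZero N] (t : ℝ), 0 < t → 9 ≤ t * (N : ℝ) ^ 2 →
    ∀ l : ℕ, l ∣ N → t * (l : ℝ) ^ 2 ≤ 1 → ∀ [NeZero (N / l)] (R : (V N → ℝ) → ℝ), Continuous R →
    ∀ ρ q : ℝ, 0 < ρ →
    (∀ᶠ s in 𝓝[>] (0 : ℝ), Ech (wN N l b t s) 0 (obsN N l (t - s))
      ({J | R J ≤ ρ}ᶜ.indicator fun _ => (1 : ℝ)) ≤ q) →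
    (nuS N b t).real {F | 2 * ρ < R (cellP N l *ᵥ src N t F)} ≤
      2 * q + C * (t * (N : ℝ) ^ 2) * (t * (l : ℝ) ^ 2) ^ c := by
  obtain ⟨C, c, hC, hc, h⟩ := cell_transfer hb.le
  refine ⟨C, c, hC, hc, ?_⟩
  intro N _ t ht htN l hl htl _ R hR ρ q hρ hq
  refine nuM_prob hb ht (R := fun J => R (cellP N l *ᵥ J)) (hR.comp (cont_mulVec _)) hρ ?_
  filter_upwards [hq, ev_small (N := N) hb.le ht] with s hs1 hs2
  have hS : MeasurableSet {J | R J ≤ ρ} := measurableSet_le hR.measurable measurable_const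
  have key := h N t ht htN l hl htl s hs2.1 hs2.2.1 ({J | R J ≤ ρ}ᶜ.indicator fun _ => (1 : ℝ))
    (measurable_const.indicator hS.compl) (fun J => Set.indicator_nonneg (fun _ _ => zero_le_one) J)
    (fun J => Set.indicator_le_self' (fun _ _ => zero_le_one) J)
  have e : (fun J : V N → ℝ => ({J | R J ≤ ρ}ᶜ.indicator fun _ => (1 : ℝ)) (cellP N l *ᵥ J)) =
      {J | R (cellP N l *ᵥ J) ≤ ρ}ᶜ.indicator fun _ => (1 : ℝ) := by
    funext J
    by_cases hJ : R (cellP N l *ᵥ J) ≤ ρ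
    · rw [Set.indicator_of_notMem (by simpa using hJ), Set.indicator_of_notMem (by simpa using hJ)]
    · rw [Set.indicator_of_mem (by simpa using hJ), Set.indicator_of_mem (by simpa using hJ)]
  rw [e] at key
  linarith

end

end Vale.Agent.P159.H447
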