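import Vale.Agent.P159.H447.Sit7

/-!
P159 (helper447), **TYPS, part 8: typical sources at sites**, final forms.

`src N t F = ntr (t 1) t F`, `nuS N b t = nuM (wT b N) (t 1) 0`, `l = 2 ^ n` the side of the cells.

* `sit_typ` : `nuS {2 ρ < R (T src F)} ≤ 2 q + C (t N²)⁴ kT³ ((l √t) ^ c + δ) (1 + 1/ρ)`, `q` = probability
  of `R (2 P T J) > ρ` in the cell channel (every small prior), `δ` = norm of `P T (1 - P)`;
* `sit_typ_comm` : `T` commuting with `P` (no `δ`);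
* `sit_typ_scal` : `T = Y`, input `TypE N l b t s (2 Y) ρ q`;
* `wt_good` : the density `Wt` is at most `1 + 4 ρ` off a set of small probability.
-/

set_option linter.unusedSectionVars false

namespace Vale.Agent.P159.H447

open Finset Matrix MeasureTheory Filter Topology
open Vale.Agent.P159.TM.H104 (EM Ex Cv Lg li nh Gr)
open Vale.Agent.P159.H37
open Vale.Agent.P159.TM.Spec (V)
open Vale.Agent.P159.TM.SpecC (wT)
open Vale.Agent.P159.H963 (Pn nM pin ntr nwt nMC obsN MF Neu Pn_transpose Pn_mul_Pn neu_Pn gw_wT)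
open Vale.Agent.P159.H883 (nuM Enu CI XG BW bw_wT Zp Wt)
open Vale.Agent.P159.H663 (ChI)
open Vale.Agent.P159.H730 (wN)
open Vale.Agent.P159.H239 (TypE)

noncomputable section

variable {N : ℕ} [NeZero N] {b t s : ℝ}

/-- in the cell channel the source is constant on the cells -/
lemma Ech_cellP {l : ℕ} (hl : l ∣ N) [NeZero (N / l)] (μ : (V N → ℤ) → ℝ) (s : ℝ)
    (Φ : (V N → ℝ) → ℝ) : Ech μ 0 (obsN N l s) (fun J => Φ (cellP N l *ᵥ J)) =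
      Ech μ 0 (obsN N l s) Φ := by
  have e : cellP N l * (obsN N l s)ᵀ = (obsN N l s)ᵀ := by
    unfold H963.obsN
    rw [transpose_smul, Matrix.mul_smul, transpose_mul, ← Matrix.mul_assoc, H864.cellP_mul_tr hl]
  unfold Ech
  simp only [zero_add, mulVec_mulVec, e]

lemma real_le_one' {Ω : Type*} [MeasurableSpace Ω] (μ : Measure Ω) [IsProbabilityMeasure μ]
    (S : Set Ω) : μ.real S ≤ 1 := measureReal_le_one

/-- the combination of the three parts -/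
theorem sit_typ (hb : 0 < b) : ∃ C c : ℝ, 0 < C ∧ 0 < c ∧ c ≤ 1 ∧
    ∀ (N : ℕ) [NeZero N] (n p : ℕ), 2 ^ n ∣ N → 2 ^ p ∣ N → ∀ [NeZero (N / 2 ^ n)],
    ∀ t : ℝ, 0 < t → t * ((2 : ℝ) ^ n) ^ 2 ≤ 1 → t * ((2 : ℝ) ^ p) ^ 2 ≤ 1 →
      1 < t * 4 ^ (p + 1) → 9 ≤ t * (N : ℝ) ^ 2 →
    ∀ (T : Matrix (V N) (V N) ℝ) (kT : ℝ), 1 ≤ kT →
      (∀ v : V N → ℝ, ∑ x, (Tᵀ *ᵥ v) x ^ 2 ≤ kT * ∑ x, v x ^ 2) →
    ∀ δ : ℝ, 0 < δ → δ ≤ 1 →
      (∀ v : V N → ℝ, ∑ x, ((cellP N (2 ^ n) * T * (1 - cellP N (2 ^ n)))ᵀ *ᵥ v) x ^ 2 ≤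
        δ ^ 2 * ∑ x, v x ^ 2) →
      (∀ J, Neu ((cellP N (2 ^ n) * T * (1 - cellP N (2 ^ n))) *ᵥ J)) →
    ∀ ρ q : ℝ, 0 < ρ →
      (∀ᶠ s in 𝓝[>] (0 : ℝ), Ech (wN N (2 ^ n) b t s) 0 (obsN N (2 ^ n) (t - s))
        ({J | Rs (nwt N b t 0) ((2 : ℝ) • ((cellP N (2 ^ n) * T) *ᵥ J)) ≤ ρ}ᶜ.indicator
          fun _ => (1 : ℝ)) ≤ q) →
    (nuS N b t).real {F | 2 * ρ < Rs (nwt N b t 0) (T *ᵥ src N t F)} ≤
      2 * q + C * ((t * (N : ℝ) ^ 2) ^ 4 * kT ^ 3) * (((2 : ℝ) ^ n * √t) ^ c + δ) * (1 + 1 / ρ) := by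
  obtain ⟨C1, c1, hC1, hc1, hc1', h1⟩ := rough_site hb.le
  obtain ⟨C2, hC2, h2⟩ := any_site hb.le
  obtain ⟨C3, c3, hC3, hc3, h3⟩ := cell_nuM hb
  refine ⟨64 * C1 + 64 * C2 + C3, min c1 c3, by positivity, lt_min hc1 hc3,
    (min_le_left _ _).trans hc1', ?_⟩
  intro N _ n p hn hp _ t ht htn htp htp1 htN T kT hkT hT δ hδ hδ1 hD hDn ρ q hρ hq
  have hpr := prob_nuS (N := N) hb ht
  have htN1 : 1 ≤ t * (N : ℝ) ^ 2 := by linarith
  set P := cellP N (2 ^ n) with hP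
  set D := P * T * (1 - P) with hDd
  set X : ℝ := (2 : ℝ) ^ n * √t with hX
  set a : ℝ := t * (N : ℝ) ^ 2 with ha
  have hX0 : 0 < X := by have := Real.sqrt_pos.2 ht; positivity
  have hX2 : X ^ 2 = t * ((2 : ℝ) ^ n) ^ 2 := by
    rw [hX, mul_pow, Real.sq_sqrt ht.le]
    ring
  have hX1 : X ≤ 1 := (pow_le_one_iff_of_nonneg hX0.le two_ne_zero).1 (hX2.le.trans htn)
  have hc : 0 < min c1 c3 := lt_min hc1 hc3
  have hXc : 0 < X ^ min c1 c3 := Real.rpow_pos_of_pos hX0 _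
  have hX_1 : X ^ c1 ≤ X ^ min c1 c3 :=
    Real.rpow_le_rpow_of_exponent_ge hX0 hX1 (min_le_left _ _)
  have hX_3 : (t * ((2 ^ n : ℕ) : ℝ) ^ 2) ^ c3 ≤ X ^ min c1 c3 := by
    push_cast
    rw [← hX2, ← Real.rpow_natCast, ← Real.rpow_mul hX0.le]
    refine Real.rpow_le_rpow_of_exponent_ge hX0 hX1 ((min_le_right _ _).trans ?_)
    push_cast
    linarith
  have hkT3 : 1 ≤ kT ^ 3 := one_le_pow₀ hkT
  have ha4 : a ≤ a ^ 4 := by
    calc a = a ^ 1 := (pow_one _).symm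
      _ ≤ a ^ 4 := pow_le_pow_right₀ htN1 (by norm_num)
  have ha0 : 0 < a := by linarith
  have hW1 : 1 ≤ a ^ 4 * kT ^ 3 := by nlinarith [one_le_pow₀ (n := 4) htN1]
  -- the cell part
  have k1 := h3 N t ht htN (2 ^ n) hn (by push_cast; exact htn)
    (fun J => Rs (nwt N b t 0) ((2 : ℝ) • ((P * T) *ᵥ J)))
    ((cont_rsn hb.le ht 0).comp ((cont_mulVec _).const_smul (2 : ℝ))) ρ q hρ hq
  -- the rough part
  have k2 : (nuS N b t).real {F | 2 * ρ < Rs (nwt N b t 0)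
      ((2 : ℝ) • ((1 - P) *ᵥ (((2 : ℝ) • T) *ᵥ src N t F)))} ≤
      C1 * (a ^ 4 * (4 * kT) ^ 3) * X ^ c1 / ρ := by
    refine nuM_prob hb ht (R := fun J => Rs (nwt N b t 0)
      ((2 : ℝ) • ((1 - P) *ᵥ (((2 : ℝ) • T) *ᵥ J))))
      ((cont_rsn hb.le ht 0).comp (((cont_mulVec _).comp (cont_mulVec _)).const_smul (2 : ℝ))) hρ ?_
    filter_upwards [ev_small (N := N) hb.le ht] with s hs
    have hT2 : ∀ v : V N → ℝ, ∑ x, (((2 : ℝ) • T)ᵀ *ᵥ v) x ^ 2 ≤ 4 * kT * ∑ x, v x ^ 2 := by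
      intro v
      have e : ∑ x, (((2 : ℝ) • T)ᵀ *ᵥ v) x ^ 2 = 4 * ∑ x, (Tᵀ *ᵥ v) x ^ 2 := by
        rw [Finset.mul_sum]
        refine Finset.sum_congr rfl fun x _ => ?_
        rw [transpose_smul, smul_mulVec, Pi.smul_apply, smul_eq_mul]
        ring
      rw [e, mul_assoc]
      exact mul_le_mul_of_nonneg_left (hT v) (by norm_num)
    obtain ⟨r1, r2⟩ := h1 N n p hn hp t ht htn htp1 htN1 s hs.1 hs.2.1 hs.2.2 ((2 : ℝ) • T) (4 * kT)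
      (by linarith) hT2
    refine (Ech_markov (em_nwt' hb.le hs.1 0) _ ?_ (fun J => rsn_nonneg hb.le ht 0 _) r1 hρ).trans
      (div_le_div_of_nonneg_right r2 hρ.le)
    exact ((cont_rsn hb.le ht 0).comp
      (((cont_mulVec _).comp (cont_mulVec _)).const_smul (2 : ℝ))).measurable
  -- the small part
  have k3 : (nuS N b t).real {F | 2 * ρ < Rs (nwt N b t 0) ((4 : ℝ) • (D *ᵥ src N t F))} ≤
      δ * (C2 * (a ^ 4 * 4 ^ 3)) / ρ := by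
    refine nuM_prob hb ht (R := fun J => Rs (nwt N b t 0) ((4 : ℝ) • (D *ᵥ J)))
      ((cont_rsn hb.le ht 0).comp ((cont_mulVec _).const_smul (4 : ℝ))) hρ ?_
    filter_upwards [ev_small (N := N) hb.le ht] with s hs
    have hμ := em_nwt' (N := N) hb.le hs.1 (0 : V N)
    set D' : Matrix (V N) (V N) ℝ := (2 / δ) • D with hD'
    have hDk : ∀ v : V N → ℝ, ∑ x, (D'ᵀ *ᵥ v) x ^ 2 ≤ 4 * ∑ x, v x ^ 2 := by
      intro v
      have e : ∑ x, (D'ᵀ *ᵥ v) x ^ 2 = (2 / δ) ^ 2 * ∑ x, (Dᵀ *ᵥ v) x ^ 2 := by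
        rw [Finset.mul_sum]
        refine Finset.sum_congr rfl fun x _ => ?_
        rw [hD', transpose_smul, smul_mulVec, Pi.smul_apply, smul_eq_mul]
        ring
      rw [e]
      refine (mul_le_mul_of_nonneg_left (hD v) (by positivity)).trans (le_of_eq ?_)
      field_simp
      ring
    obtain ⟨r1, r2⟩ := h2 N p hp t ht htp htp1 htN1 s hs.1 hs.2.1 hs.2.2 D' 4 (by norm_num) hDk
      (fun J => by rw [hD', smul_mulVec]; exact (hDn J).smul _)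
    have hm : Measurable fun J : V N → ℝ => Rs (nwt N b t 0) ((4 : ℝ) • (D *ᵥ J)) :=
      ((cont_rsn hb.le ht 0).comp ((cont_mulVec _).const_smul (4 : ℝ))).measurable
    have hpt : ∀ J : V N → ℝ, Rs (nwt N b t 0) ((4 : ℝ) • (D *ᵥ J)) ≤
        δ * Rs (nwt N b t 0) ((2 : ℝ) • (D' *ᵥ J)) := by
      intro J
      have e : (4 : ℝ) • (D *ᵥ J) = δ • ((2 : ℝ) • (D' *ᵥ J)) := by
        rw [hD', smul_mulVec, smul_smul, smul_smul]
        congr 1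
        field_simp
        norm_num
      rw [e]
      exact rsn_scale hb.le ht 0 _ hδ.le hδ1
    have hI : ChI (nwt N b s 0) 0 (obS N (t - s))
        (fun J => Rs (nwt N b t 0) ((4 : ℝ) • (D *ᵥ J))) :=
      ChI.mono hμ hm (r1.cmul δ) fun J => by
        rw [abs_of_nonneg (rsn_nonneg hb.le ht 0 _)]
        exact hpt J
    have h9 := H663.Ech_mono' hμ hI (r1.cmul δ) hpt
    rw [Ech_cmul] at h9
    refine (Ech_markov hμ _ hm (fun J => rsn_nonneg hb.le ht 0 _) hI hρ).trans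
      (div_le_div_of_nonneg_right (h9.trans (mul_le_mul_of_nonneg_left r2 hδ.le)) hρ.le)
  -- the union
  have hsub : {F : V N → ℝ | 2 * ρ < Rs (nwt N b t 0) (T *ᵥ src N t F)} ⊆
      {F | 2 * ρ < Rs (nwt N b t 0) ((2 : ℝ) • ((P * T) *ᵥ (P *ᵥ src N t F)))} ∪
      ({F | 2 * ρ < Rs (nwt N b t 0) ((2 : ℝ) • ((1 - P) *ᵥ (((2 : ℝ) • T) *ᵥ src N t F)))} ∪
        {F | 2 * ρ < Rs (nwt N b t 0) ((4 : ℝ) • (D *ᵥ src N t F))}) := by
    intro F hF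
    by_contra hcon
    simp only [Set.mem_union, Set.mem_ofPred_eq, not_or, not_lt] at hcon
    obtain ⟨g1, g2, g3⟩ := hcon
    have hF' : 2 * ρ < Rs (nwt N b t 0) (T *ᵥ src N t F) := hF
    set J := src N t F with hJ
    have e1 : T *ᵥ J = (P * T) *ᵥ (P *ᵥ J) + ((1 - P) *ᵥ (T *ᵥ J) + D *ᵥ J) := by
      rw [hDd, mulVec_mulVec, mulVec_mulVec, ← add_mulVec, ← add_mulVec]
      congr 1
      rw [Matrix.mul_sub, Matrix.sub_mul, Matrix.mul_one, Matrix.one_mul]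
      abel
    have m1 := rsn_mid hb.le ht (0 : V N) ((P * T) *ᵥ (P *ᵥ J)) ((1 - P) *ᵥ (T *ᵥ J) + D *ᵥ J)
    rw [← e1] at m1
    have m2 := rsn_mid hb.le ht (0 : V N) ((2 : ℝ) • ((1 - P) *ᵥ (T *ᵥ J))) ((2 : ℝ) • (D *ᵥ J))
    rw [← smul_add] at m2
    have e2 : (2 : ℝ) • ((2 : ℝ) • ((1 - P) *ᵥ (T *ᵥ J))) =
        (2 : ℝ) • ((1 - P) *ᵥ (((2 : ℝ) • T) *ᵥ J)) := by
      rw [smul_mulVec, mulVec_smul]
    have e3 : (2 : ℝ) • ((2 : ℝ) • (D *ᵥ J)) = (4 : ℝ) • (D *ᵥ J) := by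
      rw [smul_smul]
      norm_num
    rw [e2, e3] at m2
    linarith
  have hfin := (measureReal_mono (μ := nuS N b t) hsub (measure_ne_top _ _)).trans
    ((measureReal_union_le _ _).trans (add_le_add le_rfl (measureReal_union_le _ _)))
  refine hfin.trans ((add_le_add k1 (add_le_add k2 k3)).trans ?_)
  -- numbers
  obtain ⟨W, hW⟩ : ∃ W : ℝ, W = a ^ 4 * kT ^ 3 := ⟨_, rfl⟩
  obtain ⟨Y, hY⟩ : ∃ Y : ℝ, Y = X ^ min c1 c3 := ⟨_, rfl⟩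
  rw [← hW] at hW1
  rw [← hY] at hXc hX_1 hX_3
  have hW0 : 0 < W := by linarith
  have hir : 0 < 1 / ρ := by positivity
  have n1 : C3 * a * (t * ((2 ^ n : ℕ) : ℝ) ^ 2) ^ c3 ≤ C3 * W * Y := by
    have h5 : a ≤ W := by
      rw [hW]
      calc a ≤ a ^ 4 := ha4
        _ = a ^ 4 * 1 := (mul_one _).symm
        _ ≤ a ^ 4 * kT ^ 3 := mul_le_mul_of_nonneg_left hkT3 (by positivity)
    exact mul_le_mul (mul_le_mul_of_nonneg_left h5 hC3.le) hX_3 (by positivity) (by positivity)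
  have n2 : C1 * (a ^ 4 * (4 * kT) ^ 3) * X ^ c1 / ρ ≤ 64 * C1 * W * Y * (1 / ρ) := by
    have e : C1 * (a ^ 4 * (4 * kT) ^ 3) * X ^ c1 / ρ = 64 * C1 * W * X ^ c1 * (1 / ρ) := by
      rw [hW]; ring
    rw [e]
    refine mul_le_mul_of_nonneg_right ?_ hir.le
    exact mul_le_mul_of_nonneg_left hX_1 (by positivity)
  have n3 : δ * (C2 * (a ^ 4 * 4 ^ 3)) / ρ ≤ 64 * C2 * W * δ * (1 / ρ) := by
    have e : δ * (C2 * (a ^ 4 * 4 ^ 3)) / ρ = 64 * C2 * a ^ 4 * δ * (1 / ρ) := by ring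
    rw [e]
    refine mul_le_mul_of_nonneg_right (mul_le_mul_of_nonneg_right
      (mul_le_mul_of_nonneg_left ?_ (by positivity)) hδ.le) hir.le
    rw [hW]
    calc a ^ 4 = a ^ 4 * 1 := (mul_one _).symm
      _ ≤ a ^ 4 * kT ^ 3 := mul_le_mul_of_nonneg_left hkT3 (by positivity)
  rw [← hW, ← hY, ← ha]
  have p1 : 0 ≤ C3 * W * δ := by positivity
  have p2 : 0 ≤ C3 * W * Y * (1 / ρ) := by positivity
  have p3 : 0 ≤ C3 * W * δ * (1 / ρ) := by positivity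
  have p4 : 0 ≤ C1 * W * Y := by positivity
  have p5 : 0 ≤ C1 * W * δ := by positivity
  have p6 : 0 ≤ C1 * W * δ * (1 / ρ) := by positivity
  have p7 : 0 ≤ C2 * W * Y := by positivity
  have p8 : 0 ≤ C2 * W * δ := by positivity
  have p9 : 0 ≤ C2 * W * Y * (1 / ρ) := by positivity
  have e : (64 * C1 + 64 * C2 + C3) * W * (Y + δ) * (1 + 1 / ρ) =
      C3 * W * Y + 64 * C1 * W * Y * (1 / ρ) + 64 * C2 * W * δ * (1 / ρ) +
      (C3 * W * δ + C3 * W * Y * (1 / ρ) + C3 * W * δ * (1 / ρ) + 64 * (C1 * W * Y) +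
        64 * (C1 * W * δ) + 64 * (C1 * W * δ * (1 / ρ)) + 64 * (C2 * W * Y) + 64 * (C2 * W * δ) +
        64 * (C2 * W * Y * (1 / ρ))) := by ring
  rw [e]
  linarith

/-- **`T` commuting with the cells** -/
theorem sit_typ_comm (hb : 0 < b) : ∃ C c : ℝ, 0 < C ∧ 0 < c ∧ c ≤ 1 ∧
    ∀ (N : ℕ) [NeZero N] (n p : ℕ), 2 ^ n ∣ N → 2 ^ p ∣ N → ∀ [NeZero (N / 2 ^ n)],
    ∀ t : ℝ, 0 < t → t * ((2 : ℝ) ^ n) ^ 2 ≤ 1 → t * ((2 : ℝ) ^ p) ^ 2 ≤ 1 →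
      1 < t * 4 ^ (p + 1) → 9 ≤ t * (N : ℝ) ^ 2 →
    ∀ (T : Matrix (V N) (V N) ℝ) (kT : ℝ), 1 ≤ kT →
      (∀ v : V N → ℝ, ∑ x, (Tᵀ *ᵥ v) x ^ 2 ≤ kT * ∑ x, v x ^ 2) →
      T * cellP N (2 ^ n) = cellP N (2 ^ n) * T →
    ∀ ρ q : ℝ, 0 < ρ →
      (∀ᶠ s in 𝓝[>] (0 : ℝ), Ech (wN N (2 ^ n) b t s) 0 (obsN N (2 ^ n) (t - s))
        ({J | Rs (nwt N b t 0) ((2 : ℝ) • (T *ᵥ J)) ≤ ρ}ᶜ.indicator fun _ => (1 : ℝ)) ≤ q) →
    (nuS N b t).real {F | 2 * ρ < Rs (nwt N b t 0) (T *ᵥ src N t F)} ≤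
      2 * q + C * ((t * (N : ℝ) ^ 2) ^ 4 * kT ^ 3) * ((2 : ℝ) ^ n * √t) ^ c * (1 + 1 / ρ) := by
  obtain ⟨C, c, hC, hc, hc1, h⟩ := sit_typ hb
  refine ⟨2 * C, c, by positivity, hc, hc1, ?_⟩
  intro N _ n p hn hp _ t ht htn htp htp1 htN T kT hkT hT hcomm ρ q hρ hq
  set X : ℝ := (2 : ℝ) ^ n * √t with hX
  have hX0 : 0 < X := by have := Real.sqrt_pos.2 ht; positivity
  have hX2 : X ^ 2 = t * ((2 : ℝ) ^ n) ^ 2 := by
    rw [hX, mul_pow, Real.sq_sqrt ht.le]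
    ring
  have hX1 : X ≤ 1 := (pow_le_one_iff_of_nonneg hX0.le two_ne_zero).1 (hX2.le.trans htn)
  have hXc : 0 < X ^ c := Real.rpow_pos_of_pos hX0 _
  have hXc1 : X ^ c ≤ 1 := Real.rpow_le_one hX0.le hX1 hc.le
  have hD : cellP N (2 ^ n) * T * (1 - cellP N (2 ^ n)) = 0 := by
    rw [← hcomm, Matrix.mul_sub, Matrix.mul_one, Matrix.mul_assoc, H864.cellP_idem hn, sub_self]
  have key := h N n p hn hp t ht htn htp htp1 htN T kT hkT hT (X ^ c) hXc hXc1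
    (fun v => by
      rw [hD, transpose_zero, zero_mulVec]
      have : 0 ≤ ∑ x, v x ^ 2 := Finset.sum_nonneg fun _ _ => sq_nonneg _
      simp only [Pi.zero_apply]
      norm_num
      positivity)
    (fun J => by rw [hD, zero_mulVec]; exact H963.Neu.zero) ρ q hρ (by
      filter_upwards [hq] with s hs
      refine le_trans (le_of_eq ?_) hs
      rw [← Ech_cellP hn _ _ ({J | Rs (nwt N b t 0) ((2 : ℝ) • (T *ᵥ J)) ≤ ρ}ᶜ.indicator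
        fun _ => (1 : ℝ)), ← Ech_cellP hn _ _ ({J | Rs (nwt N b t 0)
          ((2 : ℝ) • ((cellP N (2 ^ n) * T) *ᵥ J)) ≤ ρ}ᶜ.indicator fun _ => (1 : ℝ))]
      congr 1
      funext J
      have e : (cellP N (2 ^ n) * T) *ᵥ (cellP N (2 ^ n) *ᵥ J) = T *ᵥ (cellP N (2 ^ n) *ᵥ J) := by
        rw [mulVec_mulVec, mulVec_mulVec, ← hcomm, Matrix.mul_assoc, H864.cellP_idem hn]
      by_cases hJ : Rs (nwt N b t 0) ((2 : ℝ) • (T *ᵥ (cellP N (2 ^ n) *ᵥ J))) ≤ ρ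
      · rw [Set.indicator_of_notMem (by simp only [Set.mem_compl_iff, Set.mem_ofPred_eq, e]; simpa using hJ),
          Set.indicator_of_notMem (by simpa using hJ)]
      · rw [Set.indicator_of_mem (by simp only [Set.mem_compl_iff, Set.mem_ofPred_eq, e]; simpa using hJ),
          Set.indicator_of_mem (by simpa using hJ)])
  refine key.trans (le_of_eq ?_)
  ring

/-- **TYPICAL SOURCES AT SITES**: amplitude `Y`, input `TypE` at the cells, every small prior -/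
theorem sit_typ_scal (hb : 0 < b) : ∃ C c : ℝ, 0 < C ∧ 0 < c ∧ c ≤ 1 ∧
    ∀ (N : ℕ) [NeZero N] (n p : ℕ), 2 ^ n ∣ N → 2 ^ p ∣ N → ∀ [NeZero (N / 2 ^ n)],
    ∀ t : ℝ, 0 < t → t * ((2 : ℝ) ^ n) ^ 2 ≤ 1 → t * ((2 : ℝ) ^ p) ^ 2 ≤ 1 →
      1 < t * 4 ^ (p + 1) → 9 ≤ t * (N : ℝ) ^ 2 →
    ∀ Y ρ q : ℝ, 1 ≤ Y → 0 < ρ →
      (∀ᶠ s in 𝓝[>] (0 : ℝ), TypE N (2 ^ n) b t s (2 * Y) ρ q) →
    (nuS N b t).real {F | 2 * ρ < Rs (nwt N b t 0) (Y • src N t F)} ≤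
      2 * q + C * ((t * (N : ℝ) ^ 2) ^ 4 * Y ^ 6) * ((2 : ℝ) ^ n * √t) ^ c * (1 + 1 / ρ) := by
  obtain ⟨C, c, hC, hc, hc1, h⟩ := sit_typ_comm hb
  refine ⟨C, c, hC, hc, hc1, ?_⟩
  intro N _ n p hn hp _ t ht htn htp htp1 htN Y ρ q hY hρ hq
  have hY0 : 0 < Y := by linarith
  have key := h N n p hn hp t ht htn htp htp1 htN (Y • (1 : Matrix (V N) (V N) ℝ)) (Y ^ 2)
    (one_le_pow₀ hY)
    (fun v => by
      rw [Finset.mul_sum]
      refine le_of_eq (Finset.sum_congr rfl fun x _ => ?_)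
      rw [transpose_smul, transpose_one, smul_mulVec, one_mulVec, Pi.smul_apply, smul_eq_mul,
        mul_pow])
    (by rw [Matrix.smul_mul, Matrix.mul_smul, Matrix.one_mul, Matrix.mul_one]) ρ q hρ (by
      filter_upwards [hq] with s hs
      unfold H239.TypE at hs
      simp only [smul_mulVec, one_mulVec, smul_smul]
      exact hs)
  simp only [smul_mulVec, one_mulVec] at key
  refine key.trans (le_of_eq ?_)
  ring

/-- **the density `Wt` of the law of the field** -/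
theorem wt_good (hb : 0 < b) : ∃ C c : ℝ, 0 < C ∧ 0 < c ∧ c ≤ 1 ∧
    ∀ (N : ℕ) [NeZero N] (n p : ℕ), 2 ^ n ∣ N → 2 ^ p ∣ N → ∀ [NeZero (N / 2 ^ n)],
    ∀ t : ℝ, 0 < t → t * ((2 : ℝ) ^ n) ^ 2 ≤ 1 → t * ((2 : ℝ) ^ p) ^ 2 ≤ 1 →
      1 < t * 4 ^ (p + 1) → 9 ≤ t * (N : ℝ) ^ 2 →
    ∀ ρ q : ℝ, 0 < ρ → ρ ≤ 1 / 2 →
      (∀ᶠ s in 𝓝[>] (0 : ℝ), TypE N (2 ^ n) b t s 2 ρ q) →
    ∃ Bd : Set (V N → ℝ), MeasurableSet Bd ∧
      (nuS N b t).real Bd ≤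
        2 * q + C * (t * (N : ℝ) ^ 2) ^ 4 * ((2 : ℝ) ^ n * √t) ^ c * (1 + 1 / ρ) ∧
      ∀ F, F ∉ Bd → Wt (wT b N) (t • (1 : Matrix (V N) (V N) ℝ)) t 0 F ≤ 1 + 4 * ρ := by
  obtain ⟨C, c, hC, hc, hc1, h⟩ := sit_typ_scal hb
  refine ⟨C, c, hC, hc, hc1, ?_⟩
  intro N _ n p hn hp _ t ht htn htp htp1 htN ρ q hρ hρ1 hq
  refine ⟨{F | 2 * ρ < Rs (nwt N b t 0) ((1 : ℝ) • src N t F)}, ?_, ?_, fun F hF => ?_⟩
  · exact measurableSet_lt measurable_const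
      ((cont_rsn hb.le ht 0).measurable.comp ((measurable_src t).const_smul (1 : ℝ)))
  · refine (h N n p hn hp t ht htn htp htp1 htN 1 ρ q le_rfl hρ (by
      filter_upwards [hq] with s hs
      rwa [mul_one])).trans (le_of_eq ?_)
    rw [one_pow, mul_one]
  · have hF' : Rs (nwt N b t 0) (src N t F) ≤ 2 * ρ := by
      simp only [Set.mem_ofPred_eq, not_lt, one_smul] at hF
      exact hF
    have e : Wt (wT b N) (t • (1 : Matrix (V N) (V N) ℝ)) t 0 F =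
        Real.exp (Rs (nwt N b t 0) (src N t F)) := rfl
    rw [e]
    have h1 := Real.exp_le_exp.2 hF'
    have h2 := Real.exp_bound' (x := 2 * ρ) (by linarith) (by linarith) (n := 2) (by norm_num)
    norm_num [Finset.sum_range_succ, Nat.factorial] at h2
    nlinarith

end

end Vale.Agent.P159.H447
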