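import Vale.Agent.P159.H447.Cg9
import Vale.Agent.P159.H859.Win2
import Vale.Agent.P159.H239.Glu1

/-!
P159 / module CGT, part 4 (helper447): **numbers of the windows** in the letters of `Blk`.
`N / l = nb * m` (`ξ = m l`), window of `W m` cells, `μ = (t_m / t_n)`, fourth cumulant of the torus
at most `2 e nb² / T²`.
-/

set_option linter.unusedSectionVars false

namespace Vale.Agent.P159.H447

open Finset Matrix MeasureTheory
open Vale.Agent.P159.TM.H764 (bx)
open Vale.Agent.P159.H37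
open Vale.Agent.P159.H159 (pr Ct)
open Vale.Agent.P159.TM.Spec (V)
open Vale.Agent.P159.TM.SpecC (wT)
open Vale.Agent.P159.H963 (nwt nMC obsN Gnc)
open Vale.Agent.P159.H859 (Sgn wc Lw dB dB_tr)
open Vale.Agent.P159.H730 (wN)
open Vale.Agent.P159.H692 (cx card_cx c1_natCast)

noncomputable section

/-! ### geometry -/

section geo

variable {n nb m : ℕ} [NeZero n] [NeZero nb] [NeZero m]

/-- the window of radius `K` boxes around the box `w` -/
def bw (nb m K : ℕ) (w : V nb) : Finset (V n) :=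
  Finset.univ.filter fun x => TM.H859.tn (cx nb m x - w) ≤ K

/-- one box -/
def b1 (nb m : ℕ) (w : V nb) : Finset (V n) :=
  Finset.univ.filter fun x => cx nb m x = w

/-- the corner cell of a box -/
def cor (n m : ℕ) {nb : ℕ} (w : V nb) : V n :=
  (((w.1.val * m : ℕ) : ZMod n), ((w.2.val * m : ℕ) : ZMod n))

lemma card_b1 (hn : n = nb * m) (w : V nb) : ((b1 (n := n) nb m w).card : ℝ) = (m : ℝ) ^ 2 :=
  card_cx hn w

lemma b1_nonempty (hn : n = nb * m) (w : V nb) : (b1 (n := n) nb m w).Nonempty := by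
  rw [← Finset.card_pos]
  have h1 := card_b1 hn w
  have h2 : (0 : ℝ) < (m : ℝ) ^ 2 := by
    have : (0 : ℝ) < m := by exact_mod_cast NeZero.pos m
    positivity
  rw [← h1] at h2
  exact_mod_cast h2

lemma card_bw (hn : n = nb * m) (K : ℕ) (w : V nb) :
    ((bw (n := n) nb m K w).card : ℝ) ≤ (2 * K + 1) ^ 2 * (m : ℝ) ^ 2 := by
  classical
  have h1 : (bw (n := n) nb m K w).card =
      ∑ v ∈ Finset.univ.filter (fun v : V nb => TM.H859.tn (v - w) ≤ K),
        (b1 (n := n) nb m v).card := by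
    rw [Finset.card_eq_sum_card_fiberwise (f := fun x => cx nb m x)
      (t := Finset.univ.filter (fun v : V nb => TM.H859.tn (v - w) ≤ K))]
    · refine Finset.sum_congr rfl fun v hv => ?_
      congr 1
      ext x
      unfold bw b1
      simp only [Finset.mem_filter, Finset.mem_univ, true_and]
      constructor
      · exact fun h => h.2
      · intro h
        refine ⟨?_, h⟩
        rw [h]
        exact (Finset.mem_filter.1 hv).2
    · intro x hx
      unfold bw at hx
      simp only [Finset.coe_filter, Finset.mem_univ, true_and, Set.mem_ofPred_eq] at hx ⊢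
      exact hx
  have h2 : ((Finset.univ.filter (fun v : V nb => TM.H859.tn (v - w) ≤ K)).card : ℝ) ≤
      (2 * K + 1) ^ 2 := by
    refine le_trans (le_of_eq ?_) (H692.card_tn_le (n := nb) K)
    norm_cast
    refine Finset.card_bij (fun v _ => v - w) (fun v hv => ?_) (fun v _ v' _ h => ?_)
      (fun v hv => ?_)
    · simpa using hv
    · exact sub_left_injective h
    · refine ⟨v + w, ?_, by simp⟩
      simpa using hv
  rw [h1]
  push_cast
  have h3 : ∑ v ∈ Finset.univ.filter (fun v : V nb => TM.H859.tn (v - w) ≤ K),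
      ((b1 (n := n) nb m v).card : ℝ) =
      ((Finset.univ.filter (fun v : V nb => TM.H859.tn (v - w) ≤ K)).card : ℝ) * (m : ℝ) ^ 2 := by
    rw [← nsmul_eq_mul, ← Finset.sum_const]
    exact Finset.sum_congr rfl fun v _ => card_b1 hn v
  rw [h3]
  exact mul_le_mul_of_nonneg_right h2 (sq_nonneg _)

/-- one coordinate of the distance to the corner -/
lemma dist1 (hn : n = nb * m) (a : ZMod n) (w : ZMod nb) {K : ℕ}
    (h : ((((a.val / m : ℕ) : ZMod nb)) - w).valMinAbs.natAbs ≤ K) :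
    (a - ((w.val * m : ℕ) : ZMod n)).valMinAbs.natAbs ≤ (K + 1) * m := by
  have hm : 0 < m := NeZero.pos m
  set v : ZMod nb := ((a.val / m : ℕ) : ZMod nb) with hv
  set z : ℤ := (v - w).valMinAbs with hz
  have hzc : ((z : ℤ) : ZMod nb) = v - w := ZMod.coe_valMinAbs _
  -- an integer representative of `a - corner`
  have h1 : (((a.val / m : ℕ) : ℤ) : ZMod nb) = ((w.val : ℤ) + z : ℤ) := by
    rw [Int.cast_natCast, Int.cast_add, Int.cast_natCast, hzc, ZMod.natCast_zmod_val,
      add_sub_cancel]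
  rw [ZMod.intCast_eq_intCast_iff_dvd_sub] at h1
  obtain ⟨k, hk⟩ := h1
  have h2 : a - ((w.val * m : ℕ) : ZMod n) = ((z * m + (a.val % m : ℕ) : ℤ) : ZMod n) := by
    have h3 : a = ((a.val : ℤ) : ZMod n) := by
      rw [Int.cast_natCast, ZMod.natCast_zmod_val]
    have h4 : (a.val : ℤ) = (m : ℤ) * ((a.val / m : ℕ) : ℤ) + ((a.val % m : ℕ) : ℤ) := by
      exact_mod_cast (Nat.div_add_mod a.val m).symm
    have h5 : (a.val : ℤ) - ((w.val * m : ℕ) : ℤ) =
        (z * m + (a.val % m : ℕ)) - (nb * m : ℕ) * k := by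
      rw [h4]
      push_cast
      push_cast at hk
      linear_combination (-(m : ℤ)) * hk
    have h6 : ((((nb * m : ℕ) : ℤ) : ℤ) : ZMod n) = 0 := by
      rw [← hn]
      simp
    have h7 := congrArg (fun t : ℤ => (t : ZMod n)) h5
    simp only [Int.cast_sub, Int.cast_mul] at h7
    rw [h6, zero_mul, sub_zero] at h7
    rw [Int.cast_natCast, ZMod.natCast_zmod_val] at h7
    rw [Int.cast_natCast] at h7
    exact h7
  have h3 : (a - ((w.val * m : ℕ) : ZMod n)).valMinAbs.natAbs ≤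
      (z * m + (a.val % m : ℕ) : ℤ).natAbs := by
    refine ZMod.natAbs_min_of_le_div_two n _ _ ?_ (ZMod.natAbs_valMinAbs_le _)
    rw [ZMod.coe_valMinAbs, h2]
  refine h3.trans ?_
  have h4 : a.val % m < m := Nat.mod_lt _ hm
  have h5 : (z * m + (a.val % m : ℕ) : ℤ).natAbs ≤ z.natAbs * m + a.val % m := by
    refine (Int.natAbs_add_le _ _).trans ?_
    rw [Int.natAbs_mul, Int.natAbs_natCast, Int.natAbs_natCast]
  have h6 : z.natAbs * m ≤ K * m := Nat.mul_le_mul_right m h
  calc _ ≤ z.natAbs * m + a.val % m := h5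
    _ ≤ K * m + m := by omega
    _ = (K + 1) * m := by ring

lemma bw_sub (hn : n = nb * m) (K : ℕ) (w : V nb) :
    bw (n := n) nb m K w ⊆ bx (cor n m w) ((K + 1) * m) := by
  intro x hx
  unfold bw at hx
  rw [Finset.mem_filter] at hx
  have h0 := hx.2
  rw [TM.H764.mem_bx]
  have key : ∀ z : V nb, TM.H859.tn z ≤ K → z.1.valMinAbs.natAbs ≤ K ∧
      z.2.valMinAbs.natAbs ≤ K := by
    intro z hz
    have h1 : |((z.1.valMinAbs : ℤ) : ℝ)| ≤ K :=
      (TM.H859.abs_fst_le_nz (z.1.valMinAbs, z.2.valMinAbs)).trans hz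
    have h2 : |((z.2.valMinAbs : ℤ) : ℝ)| ≤ K :=
      (TM.H859.abs_snd_le_nz (z.1.valMinAbs, z.2.valMinAbs)).trans hz
    have e1 : ((z.1.valMinAbs.natAbs : ℕ) : ℝ) = |((z.1.valMinAbs : ℤ) : ℝ)| := by
      rw [Nat.cast_natAbs, Int.cast_abs]
    have e2 : ((z.2.valMinAbs.natAbs : ℕ) : ℝ) = |((z.2.valMinAbs : ℤ) : ℝ)| := by
      rw [Nat.cast_natAbs, Int.cast_abs]
    rw [← e1] at h1
    rw [← e2] at h2
    exact ⟨by exact_mod_cast h1, by exact_mod_cast h2⟩
  obtain ⟨h1, h2⟩ := key _ h0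
  exact ⟨dist1 hn x.1 w.1 h1, dist1 hn x.2 w.2 h2⟩

lemma b1_sub (K : ℕ) {w v : V nb} (h : TM.H859.tn (v - w) ≤ K) :
    b1 (n := n) nb m v ⊆ bw (n := n) nb m K w := by
  intro x hx
  unfold b1 at hx
  unfold bw
  rw [Finset.mem_filter] at hx ⊢
  refine ⟨hx.1, ?_⟩
  rw [hx.2]
  exact h

lemma b1_disj {v w : V nb} (h : v ≠ w) : Disjoint (b1 (n := n) nb m v) (b1 (n := n) nb m w) := by
  rw [Finset.disjoint_left]
  intro x hx hy
  unfold b1 at hx hy
  rw [Finset.mem_filter] at hx hy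
  exact h (hx.2.symm.trans hy.2)

/-- a third box next to `w` -/
lemma exists_box (hnb : 2 ≤ nb) (w w' : V nb) :
    ∃ v : V nb, v ≠ w ∧ v ≠ w' ∧ TM.H859.tn (v - w) ≤ 1 := by
  have : Fact (1 < nb) := ⟨by omega⟩
  have h1 : ((1 : ZMod nb)).valMinAbs.natAbs ≤ 1 := by
    have h := ZMod.natAbs_min_of_le_div_two nb (1 : ZMod nb).valMinAbs 1
      (by rw [ZMod.coe_valMinAbs]; simp) (ZMod.natAbs_valMinAbs_le _)
    simpa using h
  have h1' : (((1 : ZMod nb).valMinAbs : ℤ) : ℝ) ^ 2 ≤ 1 := by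
    have h2 : |((1 : ZMod nb).valMinAbs)| ≤ 1 := by
      rw [Int.abs_eq_natAbs]
      exact_mod_cast h1
    have h3 : ((1 : ZMod nb).valMinAbs) ^ 2 ≤ 1 := by
      rw [← sq_abs]
      have := abs_nonneg ((1 : ZMod nb).valMinAbs)
      nlinarith
    exact_mod_cast h3
  have e0 : ((0 : ZMod nb).valMinAbs) = 0 := by simp
  have t1 : TM.H859.tn (((1 : ZMod nb), (0 : ZMod nb)) : V nb) ≤ 1 := by
    unfold TM.H859.tn TM.H859.rep TM.H859.nz
    refine Real.sqrt_le_one.2 ?_
    simp only [e0]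
    push_cast
    linarith
  have t2 : TM.H859.tn (((0 : ZMod nb), (1 : ZMod nb)) : V nb) ≤ 1 := by
    unfold TM.H859.tn TM.H859.rep TM.H859.nz
    refine Real.sqrt_le_one.2 ?_
    simp only [e0]
    push_cast
    linarith
  have n1 : (((1 : ZMod nb), (0 : ZMod nb)) : V nb) ≠ 0 := by
    intro h
    have := congrArg Prod.fst h
    exact one_ne_zero this
  have n2 : (((0 : ZMod nb), (1 : ZMod nb)) : V nb) ≠ 0 := by
    intro h
    have := congrArg Prod.snd h
    exact one_ne_zero this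
  have n3 : (((1 : ZMod nb), (0 : ZMod nb)) : V nb) ≠ ((0 : ZMod nb), (1 : ZMod nb)) := by
    intro h
    have := congrArg Prod.fst h
    exact one_ne_zero this
  by_cases hw : w + ((1 : ZMod nb), (0 : ZMod nb)) = w'
  · refine ⟨w + ((0 : ZMod nb), (1 : ZMod nb)), ?_, ?_, ?_⟩
    · intro h
      exact n2 (by simp at h)
    · rw [← hw]
      intro h
      exact n3 (add_left_cancel h).symm
    · rw [add_sub_cancel_left]
      exact t2
  · refine ⟨w + ((1 : ZMod nb), (0 : ZMod nb)), ?_, hw, ?_⟩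
    · intro h
      exact n1 (by simp at h)
    · rw [add_sub_cancel_left]
      exact t1

end geo

end

end Vale.Agent.P159.H447
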