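import Vale.Agent.P159.H447.WinN2

/-!
P159 / module CGT, part 6 (helper447): `NumW` in the letters of the state: torus `2 ^ r`, cells
`2 ^ S`, boxes of side `2 ^ n`, posterior mass in `[t_n, 4 t_n]`, prior mass in `[t_m, 4 t_m]`.
-/

set_option linter.unusedSectionVars false

namespace Vale.Agent.P159.H447

open Vale.Agent.P159.H963 (nwt)
open Vale.Agent.P159.H972 (DN)

noncomputable section

section good

variable {b T s e : ℝ} {n m r S W : ℕ}

lemma tn_ratio (n m : ℕ) (h : n ≤ m) :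
    H972.tn m / H972.tn n = ((4 : ℝ) ^ (m - n))⁻¹ := by
  unfold H972.tn
  have e1 : (4 : ℝ) ^ m = 4 ^ n * 4 ^ (m - n) := by
    rw [← pow_add, Nat.add_sub_cancel' h]
  rw [e1]
  have : (4 : ℝ) ^ n ≠ 0 := by positivity
  field_simp

/-- **`NumW` from the state** -/
theorem NumW.of_tn [NeZero (2 ^ r / 2 ^ S)] (hb : 0 < b) (hS : S ≤ n)
    (hmr : m ≤ r) (hnm : n + 2 ≤ m) (hW : 1 ≤ W) (hT1 : H972.tn n ≤ T) (hT4 : T ≤ 4 * H972.tn n)
    (hs1 : H972.tn m ≤ s) (hs4 : s ≤ 4 * H972.tn m) (he : 0 < e) (hD : DN b n r S T ≤ e) :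
    NumW (2 ^ r) (2 ^ S) (2 ^ (r - n)) (2 ^ (n - S)) W b T s (H972.tn m / H972.tn n) e where
  b0 := hb
  dl := Nat.pow_dvd_pow 2 (by omega)
  hn := by
    rw [← pow_add, Nat.pow_div (by omega) (by norm_num)]
    congr 1
    omega
  W1 := hW
  T0 := by
    have : 0 < H972.tn n := by unfold H972.tn; positivity
    linarith
  T4 := by
    have e1 : (((2 ^ (n - S) : ℕ) : ℝ) * ((2 ^ S : ℕ) : ℝ)) ^ 2 = 4 ^ n := by
      push_cast
      rw [← pow_add, Nat.sub_add_cancel hS, ← pow_mul, mul_comm n 2, pow_mul]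
      norm_num
    rw [e1]
    have e2 : (4 * H972.tn n) * 4 ^ n = 4 := by
      unfold H972.tn
      have : (4 : ℝ) ^ n ≠ 0 := by positivity
      field_simp
    refine le_trans ?_ e2.le
    exact mul_le_mul_of_nonneg_right hT4 (by positivity)
  s0 := by
    have : 0 < H972.tn m := by unfold H972.tn; positivity
    linarith
  sN := by
    have e1 : ((2 ^ r : ℕ) : ℝ) ^ 2 = 4 ^ r := by
      push_cast
      rw [← pow_mul, mul_comm r 2, pow_mul]
      norm_num
    rw [e1]
    have h1 : (4 : ℝ) ^ m ≤ 4 ^ r := pow_le_pow_right₀ (by norm_num) hmr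
    have h2 : H972.tn m * 4 ^ m = 1 := by
      unfold H972.tn
      exact inv_mul_cancel₀ (by positivity)
    calc (1 : ℝ) = H972.tn m * 4 ^ m := h2.symm
      _ ≤ s * 4 ^ r := by
          refine mul_le_mul hs1 h1 (by positivity) ?_
          have : 0 < H972.tn m := by unfold H972.tn; positivity
          linarith
  sμ := by
    have h0 : 0 < H972.tn n := by unfold H972.tn; positivity
    have h1 : 0 < H972.tn m := by unfold H972.tn; positivity
    have h2 : H972.tn m ≤ H972.tn m / H972.tn n * T := by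
      rw [div_mul_eq_mul_div, le_div_iff₀ h0]
      exact mul_le_mul_of_nonneg_left hT1 h1.le
    linarith
  μ0 := by
    have h0 : 0 < H972.tn n := by unfold H972.tn; positivity
    have h1 : 0 < H972.tn m := by unfold H972.tn; positivity
    positivity
  μ8 := by
    rw [tn_ratio n m (by omega)]
    have h1 : (16 : ℝ) ≤ 4 ^ (m - n) := by
      calc (16 : ℝ) = 4 ^ 2 := by norm_num
        _ ≤ 4 ^ (m - n) := pow_le_pow_right₀ (by norm_num) (by omega)
    have h2 : ((4 : ℝ) ^ (m - n))⁻¹ ≤ 16⁻¹ := inv_anti₀ (by norm_num) h1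
    linarith
  e0 := he
  K := by
    unfold DN at hD
    have e1 : ((2 ^ (r - n) : ℕ) : ℝ) = 2 ^ r / 2 ^ n := by
      push_cast
      rw [pow_sub₀ 2 two_ne_zero (by omega), div_eq_mul_inv]
    rw [e1]
    generalize K4S (nwt (2 ^ r) b T 0) (SN (2 ^ r) (2 ^ S)) (SN (2 ^ r) (2 ^ S)) = q at hD ⊢
    have h1 : (0 : ℝ) < 2 ^ r := by positivity
    have h2 : (0 : ℝ) < 2 ^ n := by positivity
    have h3 := mul_le_mul_of_nonneg_right hD
      (by positivity : (0 : ℝ) ≤ 2 * (2 ^ r / 2 ^ n) ^ 2)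
    have e2 : 1 / 2 * T ^ 2 * (2 ^ n / 2 ^ r) ^ 2 * q * (2 * (2 ^ r / 2 ^ n) ^ 2) = T ^ 2 * q := by
      field_simp
    rw [e2] at h3
    linarith

end good

end

end Vale.Agent.P159.H447
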